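import Vale.Agent.P157.Formula.BorelLimit

/-!
P157, formula: removing the bound on the spin path, uniformly in the number of levels. Cutting the
top levels of a path costs little, flattened paths have negative slope at the overlap path that
vanishes below the top, and the energy functional is continuous along mixtures with that path.
-/

open MeasureTheory ProbabilityTheory Filter Topology Set Function

namespace Vale.Agent.P157.Formula

theorem gauss_abs : Integrable (fun g : ℝ => |g|) gm ∧ ∫ g, |g| ∂gm ≤ 1 := by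
  have hi : Integrable (fun g : ℝ => |g|) gm := by simpa using integrable_abs_exp_abs 0
  have h2 : Integrable (fun g : ℝ => g ^ 2) gm :=
    (memLp_id_gaussianReal (μ := 0) (v := 1) 2).integrable_sq
  have hv : ∫ g, g ^ 2 ∂gm = 1 := by
    have h := variance_fun_id_gaussianReal (μ := (0 : ℝ)) (v := 1)
    rw [variance_of_integral_eq_zero aemeasurable_id' (by simp)] at h
    simpa using h
  refine ⟨hi, ?_⟩
  calc ∫ g, |g| ∂gm ≤ ∫ g, (g ^ 2 + 1) / 2 ∂gm :=
        integral_mono hi ((h2.add (integrable_const _)).div_const 2) fun g => by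
          nlinarith [sq_nonneg (|g| - 1), sq_abs g]
    _ = 1 := by
        rw [integral_div, integral_add h2 (integrable_const _), hv]
        simp

theorem lcosh_mul {ρ : ℝ} (h0 : 0 ≤ ρ) (h1 : ρ ≤ 1) (u : ℝ) :
    ρ * lcosh u ≤ (1 - ρ) * Real.log 2 + lcosh (ρ * u) ∧ lcosh (ρ * u) ≤ ρ * lcosh u := by
  have hz : lcosh 0 = 0 := by simp [lcosh]
  constructor
  · have e : ∀ v : ℝ, Real.log (Real.exp v + Real.exp (-v)) = Real.log 2 + lcosh v := fun v => by
      rw [lcosh, ← Real.log_mul two_ne_zero (Real.cosh_pos v).ne', Real.cosh_eq]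
      congr 1; ring
    have h := Real.rpow_add_le_add_rpow (Real.exp_pos u).le (Real.exp_pos (-u)).le h0 h1
    rw [← Real.exp_mul, ← Real.exp_mul, neg_mul, mul_comm u ρ] at h
    have hp : 0 < Real.exp u + Real.exp (-u) := by positivity
    have := Real.log_le_log (Real.rpow_pos_of_pos hp ρ) h
    rw [Real.log_rpow hp, e, e] at this
    linarith
  · have hc : ConvexOn ℝ univ lcosh := by
      refine Monotone.convexOn_univ_of_deriv (fun x =>
        ((Real.hasDerivAt_cosh x).log (Real.cosh_pos x).ne').differentiableAt) ?_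
      exact nice_lcosh.monotone_deriv
    have := hc.2 (mem_univ u) (mem_univ (0 : ℝ)) h0 (sub_nonneg.2 h1) (add_sub_cancel _ _)
    simpa [hz] using this

theorem step_le_add {X Y : ℝ → ℝ} (hX : Nice X) (hY : Nice Y) {c : ℝ} (h : ∀ y, X y ≤ Y y + c)
    {m : ℝ} (hm : 0 ≤ m) (s x : ℝ) : step m s X x ≤ step m s Y x + c := by
  rcases hm.eq_or_lt with rfl | hm'
  · simp only [step_zero_left]
    exact (heat_mono hX.eb (hY.eb.add (.const c)) h s x).trans_eq
      (by rw [heat_add hY.eb (.const c), heat_const])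
  · refine le_of_mul_le_mul_left ?_ hm'
    refine Real.exp_le_exp.1 ?_
    rw [mul_add, Real.exp_add, exp_step hX hm'.ne', exp_step hY hm'.ne',
      mul_comm (heat (fun y => Real.exp (m * Y y)) s x), ← heat_const_mul]
    exact heat_mono (hX.eb_exp m) ((hY.eb_exp m).const_mul _)
      (fun y => (Real.exp_le_exp.2 (mul_le_mul_of_nonneg_left (h y) hm)).trans_eq
        (by rw [mul_add, Real.exp_add, mul_comm])) s x

variable {K : ℕ}

theorem lvl_flat {b : ℕ → ℝ} {l : ℕ} (hl : l ≤ K + 1) (h : ∀ j, l ≤ j → j ≤ K → b (j + 1) = b j) :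
    lvl K b l = lcosh := by
  induction hl using Nat.decreasingInduction with
  | self => exact lvl_top K b
  | of_succ j hj ih =>
    rw [lvl_eq b (by omega), ih fun i hi hi' => h i (by omega) hi', h j le_rfl (by omega), sub_self,
      step_zero_right]

/-- Upper envelope of the upper levels of the recursion. -/
theorem lvl_envelope (hK : 0 < K) (b : ℕ → ℝ) (hb : ∀ i, i ≤ K → b i ≤ b (i + 1))
    (hbK : b (K + 1) = b K) {l : ℕ} (hl : l ≤ K) (h1 : 1 ≤ l) (x : ℝ) :
    lvl K b l x ≤ ((l : ℝ) / K)⁻¹ * ((1 - (l : ℝ) / K) * Real.log 2 + lcosh ((l : ℝ) / K * x))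
      + ∑ i ∈ Finset.Ico l K, (i : ℝ) / K * (b (i + 1) - b i) / 2 := by
  induction hl using Nat.decreasingInduction generalizing x with
  | self =>
    have hK' : (K : ℝ) / K = 1 := div_self (by exact_mod_cast hK.ne')
    rw [lvl_flat (Nat.le_succ _) fun j hj hj' => by rw [le_antisymm hj' hj, hbK]]
    simp [hK']
  | of_succ j hj ih =>
    have hK0 : (0 : ℝ) < K := by exact_mod_cast hK
    set r := (j : ℝ) / K with hr
    set r' := ((j + 1 : ℕ) : ℝ) / K with hr'
    set S := ∑ i ∈ Finset.Ico (j + 1) K, (i : ℝ) / K * (b (i + 1) - b i) / 2 with hS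
    have hr0 : 0 < r := div_pos (by exact_mod_cast h1) hK0
    have hrr : r ≤ r' := by
      rw [hr, hr']; gcongr; exact_mod_cast Nat.le_succ j
    have hr'0 : 0 < r' := hr0.trans_le hrr
    set s := b (j + 1) - b j
    have hs : 0 ≤ s := sub_nonneg.2 (hb j hj.le)
    have hρ : r / r' ≤ 1 := (div_le_one hr'0).2 hrr
    have hρe : r / r' * r' = r := div_mul_cancel₀ r hr'0.ne'
    have hpt : ∀ y, r * lvl K b (j + 1) y ≤ r * S + (1 - r) * Real.log 2 + lcosh (r * y) := fun y => by
      have h := mul_le_mul_of_nonneg_left (ih (by omega) y) hr0.le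
      have h2 := (lcosh_mul (div_nonneg hr0.le hr'0.le) hρ (r' * y)).1
      rw [← mul_assoc (r / r'), hρe] at h2
      have e : r * (r'⁻¹ * ((1 - r') * Real.log 2 + lcosh (r' * y)) + S)
          = r * S + (r / r') * lcosh (r' * y) + (r / r' - r) * Real.log 2 := by
        field_simp; ring
      rw [e] at h
      linarith
    have heb : EB fun y => Real.exp (lcosh (r * y)) :=
      EB.exp_of_linear (nice_lcosh.continuous.comp (continuous_const.mul continuous_id))
        (c := 0) (k := r) hr0.le fun y => by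
          have := (abs_le.1 (nice_lcosh.abs_sub_le (r * y))).2
          rw [abs_mul, abs_of_pos hr0] at this
          simp only [lcosh, Real.cosh_zero, Real.log_one, sub_zero] at this
          simp only [Function.comp, lcosh]
          linarith
    have hheat : heat (fun y => Real.exp (lcosh (r * y))) s x =
        Real.exp (lcosh (r * x) + r ^ 2 * s / 2) := by
      have h := exp_step nice_lcosh one_ne_zero (r ^ 2 * s) (r * x)
      rw [congrFun (step_one_lcosh (by positivity : 0 ≤ r ^ 2 * s)) (r * x)] at h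
      simp only [one_mul] at h
      rw [h]
      unfold heat
      refine integral_congr_ae (ae_of_all _ fun g => ?_)
      dsimp only
      rw [Real.sqrt_mul (sq_nonneg r), Real.sqrt_sq hr0.le]
      congr 2; ring
    rw [lvl_eq b (by omega : j ≤ K), Finset.sum_eq_sum_Ico_succ_bot (by omega : j < K),
      ← hS, step_eq hr0.ne']
    have hle := heat_mono ((nice_lvl K b (j + 1)).eb_exp r)
      (EB.const_mul heb (Real.exp (r * S + (1 - r) * Real.log 2)))
      (fun y => by rw [← Real.exp_add]; exact Real.exp_le_exp.2 (hpt y)) s x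
    rw [heat_const_mul, hheat, ← Real.exp_add] at hle
    have := Real.log_le_log (den_pos (nice_lvl K b (j + 1)) r s x) hle
    rw [Real.log_exp] at this
    refine (mul_le_mul_of_nonneg_left this (inv_nonneg.2 hr0.le)).trans (le_of_eq ?_)
    rw [show (j : ℝ) / K * (b (j + 1) - b j) / 2 = r * s / 2 from rfl]
    field_simp
    ring

/-- Cutting a path at the level `J`. -/
theorem lvl_cut (hK : 0 < K) (b : ℕ → ℝ) (hb : ∀ i, i ≤ K → b i ≤ b (i + 1))
    (hbK : b (K + 1) = b K) {J : ℕ} (hJ1 : 1 ≤ J) (hJ : J ≤ K) {l : ℕ} (hl : l ≤ J) (x : ℝ) :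
    lvl K b l x ≤ lvl K (fun i => if i ≤ J then b i else b J) l x
      + (((J : ℝ) / K)⁻¹ - 1) * Real.log 2
      + ∑ i ∈ Finset.Ico J K, (i : ℝ) / K * (b (i + 1) - b i) / 2 := by
  induction hl using Nat.decreasingInduction generalizing x with
  | self =>
    have h := lvl_envelope hK b hb hbK hJ hJ1 x
    have e : lvl K (fun i => if i ≤ J then b i else b J) J = lcosh :=
      lvl_flat (by omega) fun j hj _ => by
        rcases hj.eq_or_lt with rfl | hj'
        · simp
        · simp [show ¬ j ≤ J by omega, show ¬ j + 1 ≤ J by omega]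
    rw [e]
    have hr : (0 : ℝ) < (J : ℝ) / K := div_pos (by exact_mod_cast hJ1) (by exact_mod_cast hK)
    have hr1 : (J : ℝ) / K ≤ 1 := (div_le_one (by exact_mod_cast hK)).2 (by exact_mod_cast hJ)
    have h2 := mul_le_mul_of_nonneg_left (lcosh_mul hr.le hr1 x).2 (inv_nonneg.2 hr.le)
    rw [inv_mul_cancel_left₀ hr.ne'] at h2
    rw [mul_add, ← mul_assoc, mul_sub, mul_one, inv_mul_cancel₀ hr.ne'] at h
    linarith
  | of_succ j hj ih =>
    set C := (((J : ℝ) / K)⁻¹ - 1) * Real.log 2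
    set S := ∑ i ∈ Finset.Ico J K, (i : ℝ) / K * (b (i + 1) - b i) / 2
    set b' : ℕ → ℝ := fun i => if i ≤ J then b i else b J
    have h := step_le_add (nice_lvl K b (j + 1)) (nice_lvl K b' (j + 1)) (c := C + S)
      (fun y => by linarith [ih y])
      (show (0 : ℝ) ≤ (j : ℝ) / K by positivity) (b (j + 1) - b j) x
    rw [lvl_eq b (by omega), lvl_eq b' (by omega)]
    simp only [b', show j ≤ J by omega, show j + 1 ≤ J by omega, if_true] at h ⊢
    linarith

theorem psi_zero : psi (fun _ : Fin K => (0 : ℝ)) = 0 := by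
  have hb : ∀ i, bk (top fun _ : Fin K => (0 : ℝ)) (fun _ : Fin K => (0 : ℝ)) i = 0 := by
    intro i; simp only [bk, top]; split_ifs <;> rfl
  rw [psi, Phi, ← lvl_zero, lvl_flat (Nat.zero_le _) fun j _ _ => by rw [hb, hb]]
  simp [lcosh, top, bk]

theorem low_nonneg (b : ℕ → ℝ) (i : ℕ) : ∀ n x, 0 ≤ low K b i n x
  | 0, x => by simp only [low]; positivity
  | n + 1, x => by
    simp only [low]
    refine (ker_const (nice_lvl K b (i - n)) (((i - (n + 1) : ℕ) : ℝ) / K)
      (b (i - n) - b (i - (n + 1))) x 0).symm.trans_le ?_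
    exact ker_mono (nice_lvl K b (i - n)) _ _ x (EB.const 0)
      (EB.of_bdd (low_facts b i n).1 (low_facts b i n).2) (low_nonneg b i n)

/-- A cut costs the entropy of the removed levels and their full slope. -/
theorem psi_cut {p : Fin K → ℝ} (hp : p ∈ Path K) {J : ℕ} (hJ1 : 1 ≤ J) (hJ : J ≤ K) :
    psi p ≤ psi (fun r => min (p r) (p ⟨J - 1, by omega⟩)) + ((K : ℝ) / J - 1) * Real.log 2
      - (K : ℝ)⁻¹ / 2 * ∑ r, (p r - min (p r) (p ⟨J - 1, by omega⟩)) := by
  have hK : 0 < K := by omega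
  set c := p ⟨J - 1, by omega⟩
  set p' : Fin K → ℝ := fun r => min (p r) c
  have hcl : ∀ r : Fin K, J - 1 ≤ r.val → c ≤ p r := fun r h => hp.1 (Fin.mk_le_of_le_val h)
  have hcg : ∀ r : Fin K, r.val ≤ J - 1 → p r ≤ c := fun r h => hp.1 (Fin.le_iff_val_le_val.2 h)
  set b := bk (top p) p with hb'
  have hb0 : ∀ i (hi : i < K), b (i + 1) = p ⟨i, hi⟩ := fun i hi => by
    simpa using bk_succ (top p) p ⟨i, hi⟩
  have htop : top p = p ⟨K - 1, by omega⟩ := top_eq hK p
  have hbK : b (K + 1) = b K := bk_top_last p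
  have hbK' : b K = top p := by
    rw [htop, ← hb0 (K - 1) (by omega)]; congr 1; omega
  have hbJ : b J = c := by
    rw [show J = J - 1 + 1 by omega, hb0 (J - 1) (by omega)]
  have hb00 : b 0 = 0 := by simp [hb', bk]
  have hmono : ∀ i, i ≤ K → b i ≤ b (i + 1) := fun i hi => by
    rcases hi.eq_or_lt with rfl | hi'
    · rw [hbK]
    rcases Nat.eq_zero_or_pos i with rfl | h0
    · rw [hb00, hb0 0 hi']; exact hp.2 _
    · obtain ⟨i, rfl⟩ : ∃ j, i = j + 1 := ⟨i - 1, by omega⟩
      rw [hb0 i (by omega), hb0 (i + 1) hi']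
      exact hp.1 (Fin.mk_le_mk.2 (Nat.le_succ i))
  have htop' : top p' = c := by
    rw [top_eq hK p']
    exact min_eq_right (hcl _ (by simp; omega))
  have hb1 : ∀ i, i ≤ K + 1 → bk (top p') p' i = if i ≤ J then b i else b J := fun i hi => by
    rcases Nat.eq_zero_or_pos i with rfl | h0
    · simp [bk, hb00]
    obtain ⟨i, rfl⟩ : ∃ j, i = j + 1 := ⟨i - 1, by omega⟩
    rcases (show i ≤ K by omega).eq_or_lt with rfl | hi'
    · rw [bk_last, htop', if_neg (by omega), hbJ]
    · have e : bk (top p') p' (i + 1) = p' ⟨i, hi'⟩ := by simpa using bk_succ (top p') p' ⟨i, hi'⟩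
      rw [e]
      split_ifs with h
      · rw [hb0 i hi']; exact min_eq_left (hcg _ (by simp; omega))
      · rw [hbJ]; exact min_eq_right (hcl _ (by simp; omega))
  have hp' : psi p' = lvl K (fun i => if i ≤ J then b i else b J) 0 0 - c / 2 := by
    rw [psi, Phi, htop', ← lvl_zero]
    congr 1
    refine congrFun (lvl_congr (Nat.zero_le _) fun j _ hj => ?_) 0
    rw [← htop', hb1 j (by omega), hb1 (j + 1) (by omega)]
  have hsum : ∀ m, J ≤ m → ∑ i ∈ Finset.Ico J m, (i : ℝ) / K * (b (i + 1) - b i)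
      - (m : ℝ) / K * (b m - c) = -(K : ℝ)⁻¹ * ∑ i ∈ Finset.Ico J m, (b (i + 1) - c) := by
    intro m hm
    induction m, hm using Nat.le_induction with
    | base => simp [hbJ]
    | succ m hm ih =>
      rw [Finset.sum_Ico_succ_top hm, Finset.sum_Ico_succ_top hm, mul_add, ← ih]
      push_cast
      field_simp
      ring
  have hsp : ∑ r, (p r - p' r) = ∑ i ∈ Finset.Ico J K, (b (i + 1) - c) := by
    have e : ∑ r, (p r - p' r) = ∑ i ∈ Finset.range K, (if i < J then 0 else b (i + 1) - c) := by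
      rw [← Fin.sum_univ_eq_sum_range]
      refine Finset.sum_congr rfl fun r _ => ?_
      split_ifs with h
      · simp only [p', min_eq_left (hcg r (by omega)), sub_self]
      · rw [show p' r = c from min_eq_right (hcl r (by omega)), hb0 r r.2]
    rw [e, ← Finset.sum_range_add_sum_Ico _ hJ]
    rw [Finset.sum_eq_zero fun i hi => if_pos (Finset.mem_range.1 hi), zero_add]
    exact Finset.sum_congr rfl fun i hi => if_neg (by have := Finset.mem_Ico.1 hi; omega)
  have h := lvl_cut hK b hmono hbK hJ1 hJ (Nat.zero_le J) 0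
  have hs := hsum K hJ
  rw [div_self (show (K : ℝ) ≠ 0 by exact_mod_cast hK.ne'), one_mul, hbK', ← hsp] at hs
  rw [← Finset.sum_div, inv_div] at h
  rw [hp', psi, Phi, ← lvl_zero, ← hb']
  linarith

theorem psi_anti {p s : Fin K → ℝ} (hp : p ∈ Path K) (hs : s ∈ Path K) (h : s ≤ p) :
    psi p ≤ psi s := by
  refine (psi_tangent hp hs).trans (sub_le_self _ (mul_nonneg (by positivity) ?_))
  exact Finset.sum_nonneg fun r _ => mul_nonneg (low_nonneg _ _ _ _) (sub_nonneg.2 (h r))

/-- The overlap path that vanishes below the top. -/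
noncomputable def mixQ (θ : ℝ) (q : Fin (K + 1) → ℝ) (l : Fin (K + 1)) : ℝ :=
  (1 - θ) * q l + θ * if l = Fin.last K then 1 else 0

theorem mixQ_mem {θ : ℝ} (h0 : 0 ≤ θ) (h1 : θ ≤ 1) {q : Fin (K + 1) → ℝ} (hq : q ∈ Casc.pathsQ K) :
    mixQ θ q ∈ Casc.pathsQ K := by
  refine ⟨fun a c hac => add_le_add (mul_le_mul_of_nonneg_left (hq.1 hac) (sub_nonneg.2 h1))
    (mul_le_mul_of_nonneg_left ?_ h0), add_nonneg (mul_nonneg (sub_nonneg.2 h1) hq.2.1)
      (mul_nonneg h0 (by split_ifs <;> norm_num)), by simp [mixQ, hq.2.2]⟩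
  split_ifs with ha hc <;> try norm_num
  exact hc (le_antisymm (Fin.le_last c) (ha ▸ hac))

/-- The bound on the spin path can be removed at mixtures. -/
theorem sup_mix {J : ℕ} (hJ2 : 2 ≤ J) (hJ : J ≤ K + 1) {q : Fin (K + 1) → ℝ}
    (hq : q ∈ Casc.pathsQ K) {θ L0 S : ℝ} (hθ0 : 0 ≤ θ) (hθ1 : θ ≤ 1) (hL0 : 0 < L0)
    (hS : ∀ p ∈ Casc.pathsP K L0,
      Casc.psiI p + Casc.pi0 K / 2 * ∑ l, p l * q l ≤ S)
    (hSL : S ≤ θ * (Casc.pi0 K / 2 * ((K + 1 : ℕ) - J : ℝ)) * L0)
    {p : Fin (K + 1) → ℝ} (hp : Monotone p) (hp0 : 0 ≤ p 0) :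
    Casc.psiI p + Casc.pi0 K / 2 * ∑ l, p l * mixQ θ q l ≤
      S + θ * ((((K + 1 : ℕ) : ℝ) / (J - 1 : ℕ) - 1) * Real.log 2)
        + (((K + 1 : ℕ) : ℝ) / J - 1) * Real.log 2 := by
  set γ := Casc.pi0 K / 2 with hγ
  have hγe : ((K + 1 : ℕ) : ℝ)⁻¹ / 2 = γ := by rw [hγ, Casc.pi0]; push_cast; ring
  have hγ0 : 0 ≤ γ := by rw [← hγe]; positivity
  set C1 := (((K + 1 : ℕ) : ℝ) / J - 1) * Real.log 2
  set C2 := (((K + 1 : ℕ) : ℝ) / (J - 1 : ℕ) - 1) * Real.log 2
  set X := p ⟨J - 1, by omega⟩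
  have hX0 : 0 ≤ X := hp0.trans (hp (Fin.zero_le _))
  set p' : Fin (K + 1) → ℝ := fun r => min (p r) X
  have hp'm : Monotone p' := fun a c h => min_le_min_right _ (hp h)
  have hp'0 : 0 ≤ p' 0 := le_min hp0 hX0
  have hp'X : p' (Fin.last K) = X := min_eq_right (hp (Fin.le_last _))
  have hmem : mixQ θ q ∈ Casc.pathsQ K := mixQ_mem hθ0 hθ1 hq
  have hz : Casc.psiI (fun _ : Fin (K + 1) => (0 : ℝ)) = 0 := by rw [psiI_eq]; exact psi_zero
  have hS0 : 0 ≤ S := by
    have := hS (fun _ => 0) (Casc.mem_pathsP_zero hL0.le)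
    simpa [hz] using this
  -- the cut
  have hcut : Casc.psiI p + γ * ∑ l, p l * mixQ θ q l ≤
      Casc.psiI p' + γ * ∑ l, p' l * mixQ θ q l + C1 := by
    have h := psi_cut (mem_path_iff.2 ⟨hp, hp0⟩) (J := J) (by omega) hJ
    rw [hγe, ← psiI_eq, ← psiI_eq] at h
    have hle : ∑ l, p l * mixQ θ q l - ∑ l, p' l * mixQ θ q l ≤ ∑ r, (p r - p' r) := by
      rw [← Finset.sum_sub_distrib]
      refine Finset.sum_le_sum fun r _ => ?_
      rw [← sub_mul]
      exact mul_le_of_le_one_right (sub_nonneg.2 (min_le_left _ _))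
        ((hmem.1 (Fin.le_last r)).trans hmem.2.2.le)
    have := mul_le_mul_of_nonneg_left hle hγ0
    rw [mul_sub] at this
    linarith
  -- the vanishing overlap path
  have hg0 : Casc.psiI p' + γ * X ≤ C2 - γ * (((K + 1 : ℕ) : ℝ) - J) * X := by
    set s : Fin (K + 1) → ℝ := fun r => if J - 1 ≤ r.val then X else 0 with hs
    have hsm : s ∈ Path (K + 1) := by
      refine ⟨fun a c h => ?_, fun r => ?_⟩
      · simp only [hs]
        have : a.val ≤ c.val := h
        split_ifs with h1 h2 <;> first | exact le_rfl | exact hX0 | omega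
      · simp only [hs]; split_ifs <;> simp [hX0]
    have hle : s ≤ p' := fun r => by
      simp only [hs, p']
      split_ifs with h
      · exact le_min (hp (Fin.mk_le_of_le_val h)) le_rfl
      · exact le_min (hp0.trans (hp (Fin.zero_le r))) hX0
    have h1 := psi_anti (mem_path_iff.2 ⟨hp'm, hp'0⟩) hsm hle
    have h2 := psi_cut hsm (J := J - 1) (by omega) (by omega)
    have e : s ⟨J - 1 - 1, by omega⟩ = 0 := by simp only [hs]; rw [if_neg (by omega)]
    have e0 : (fun r => min (s r) (s ⟨J - 1 - 1, by omega⟩)) = fun _ : Fin (K + 1) => (0 : ℝ) :=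
      funext fun r => by rw [e]; exact min_eq_right (hsm.2 r)
    have e1 : ∑ r : Fin (K + 1), (s r - min (s r) (s ⟨J - 1 - 1, by omega⟩))
        = (((K + 1 : ℕ) : ℝ) - J + 1) * X := by
      have : ∀ r : Fin (K + 1), min (s r) (s ⟨J - 1 - 1, by omega⟩) = 0 := fun r => congrFun e0 r
      simp only [this, sub_zero]
      simp only [hs]
      rw [Fin.sum_univ_eq_sum_range (fun r => if J - 1 ≤ r then X else 0) (K + 1),
        ← Finset.sum_range_add_sum_Ico _ (show J - 1 ≤ (K + 1) by omega),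
        Finset.sum_eq_zero fun i hi => if_neg (by have := Finset.mem_range.1 hi; omega),
        Finset.sum_congr rfl fun i hi => if_pos (Finset.mem_Ico.1 hi).1, Finset.sum_const,
        Nat.card_Ico, nsmul_eq_mul, Nat.cast_sub (by omega), Nat.cast_sub (by omega)]
      push_cast; ring
    rw [e0, e1, psi_zero, hγe, zero_add] at h2
    rw [← psiI_eq] at h1
    linarith
  have hg0' : ∑ l, p' l * (if l = Fin.last K then (1 : ℝ) else 0) = X := by
    simp [hp'X]
  have hmix : ∑ l, p' l * mixQ θ q l = (1 - θ) * ∑ l, p' l * q l + θ * X := by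
    rw [← hg0', Finset.mul_sum, Finset.mul_sum, ← Finset.sum_add_distrib]
    exact Finset.sum_congr rfl fun l _ => by rw [mixQ]; ring
  refine hcut.trans (add_le_add ?_ le_rfl)
  rw [hmix]
  set g := Casc.psiI p' + γ * ∑ l, p' l * q l with hg
  have hsplit : Casc.psiI p' + γ * ((1 - θ) * ∑ l, p' l * q l + θ * X) =
      (1 - θ) * g + θ * (Casc.psiI p' + γ * X) := by rw [hg]; ring
  rw [hsplit]
  have hg0θ := mul_le_mul_of_nonneg_left hg0 hθ0
  have hnJ : 0 ≤ γ * (((K + 1 : ℕ) : ℝ) - J) := mul_nonneg hγ0 (sub_nonneg.2 (by exact_mod_cast hJ))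
  rcases le_or_gt X L0 with hX | hX
  · have h1 : g ≤ S := hS p' ⟨hp'm, hp'0, hp'X.trans_le hX⟩
    linarith [mul_le_mul_of_nonneg_left h1 (sub_nonneg.2 hθ1), mul_nonneg hθ0 hS0,
      mul_nonneg hθ0 (mul_nonneg hnJ hX0)]
  · have hXp : 0 < X := hL0.trans hX
    set t := L0 / X
    have ht0 : 0 ≤ t := by positivity
    have ht1 : t ≤ 1 := (div_le_one hXp).2 hX.le
    have hc := Casc.psiI_concave.2 (x := p') ⟨hp'm, hp'0⟩ (y := fun _ : Fin (K + 1) => (0 : ℝ))
      ⟨monotone_const, le_rfl⟩ ht0 (sub_nonneg.2 ht1) (add_sub_cancel _ _)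
    simp only [hz, smul_eq_mul, mul_zero, add_zero] at hc
    have ew : t • p' + (1 - t) • (fun _ : Fin (K + 1) => (0 : ℝ)) = fun l => t * p' l := by
      funext l; simp
    rw [ew] at hc
    have htX : t * X = L0 := div_mul_cancel₀ L0 hXp.ne'
    have h1 : Casc.psiI (fun l => t * p' l) + γ * ∑ l, (t * p' l) * q l ≤ S :=
      hS (fun l => t * p' l) ⟨hp'm.const_mul ht0, mul_nonneg ht0 hp'0,
        le_of_eq (by show t * p' (Fin.last K) = L0; rw [hp'X, htX])⟩
    simp only [mul_assoc t, ← Finset.mul_sum] at h1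
    have h2 : t * g ≤ S := by rw [hg, mul_add, mul_left_comm]; linarith
    have h3 : (1 - θ) * g ≤ S * (X / L0) := by
      have : g ≤ S * (X / L0) := by
        rw [mul_div_assoc', le_div_iff₀ hL0, ← htX]
        linarith [mul_le_mul_of_nonneg_right h2 hXp.le, show g * (t * X) = t * g * X by ring]
      have h5 : 0 ≤ θ * (S * (X / L0)) :=
        mul_nonneg hθ0 (mul_nonneg hS0 (div_nonneg hXp.le hL0.le))
      linarith [mul_le_mul_of_nonneg_left this (sub_nonneg.2 hθ1),
        show (1 - θ) * (S * (X / L0)) = S * (X / L0) - θ * (S * (X / L0)) by ring]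
    have h4 : S * (X / L0) ≤ θ * (γ * (((K + 1 : ℕ) : ℝ) - J)) * X := by
      rw [mul_div_assoc', div_le_iff₀ hL0]
      exact (mul_le_mul_of_nonneg_right hSL hXp.le).trans_eq (by ring)
    linarith

/-- Modulus of the last step of the recursion. -/
theorem step_lip {f : ℝ → ℝ} (hf : Measurable f) {B b1 : ℝ} (hB : ∀ x, |f x| ≤ B)
    (hlip : ∀ x y, |f x - f y| ≤ b1 * |x - y|) {m : ℝ} (hm : 0 < m) (hm1 : m ≤ 1)
    {s t e : ℝ} (he : |√s - √t| ≤ e) (x y : ℝ) :
    step m s f x - step m t f y ≤ Real.exp (2 * B) * (b1 * (|x - y| + e)) := by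
  have hb1 : 0 ≤ b1 := by have := (abs_nonneg _).trans (hlip 0 1); simpa using this
  have hB0 : 0 ≤ B := (abs_nonneg _).trans (hB 0)
  have hi : ∀ u v : ℝ, Integrable (fun g => Real.exp (m * f (v + √u * g))) gm := fun u v =>
    integrable_bdd (Real.measurable_exp.comp ((hf.comp (by fun_prop)).const_mul m)) fun g => by
      rw [Real.abs_exp, Real.exp_le_exp]
      exact mul_le_mul_of_nonneg_left (abs_le.1 (hB _)).2 hm.le
  set Z1 := ∫ g, Real.exp (m * f (x + √s * g)) ∂gm
  set Z2 := ∫ g, Real.exp (m * f (y + √t * g)) ∂gm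
  have hpos : ∀ u v : ℝ, Real.exp (-(m * B)) ≤ ∫ g, Real.exp (m * f (v + √u * g)) ∂gm := fun u v => by
    refine le_trans (le_of_eq (by rw [integral_const, probReal_univ, one_smul])) (integral_mono (integrable_const _) (hi u v) fun g =>
      Real.exp_le_exp.2 ?_)
    nlinarith [(abs_le.1 (hB (v + √u * g))).1]
  have h1 : Z1 - Z2 ≤ Real.exp (m * B) * (m * (b1 * (|x - y| + e))) := by
    rw [← integral_sub (hi s x) (hi t y)]
    refine (integral_mono (g := fun g => Real.exp (m * B) * (m * (b1 * (|x - y| + e * |g|))))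
      ((hi s x).sub (hi t y)) ?_ fun g => ?_).trans ?_
    · exact ((((integrable_const _).add (gauss_abs.1.const_mul e)).const_mul b1).const_mul m
        ).const_mul _
    · set a := m * f (x + √s * g)
      set c := m * f (y + √t * g)
      have h := Real.add_one_le_exp (c - a)
      have h' := mul_le_mul_of_nonneg_left h (Real.exp_pos a).le
      rw [← Real.exp_add, add_sub_cancel] at h'
      have hac : a - c ≤ m * (b1 * (|x - y| + e * |g|)) := by
        simp only [a, c]
        rw [← mul_sub]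
        refine mul_le_mul_of_nonneg_left ((le_abs_self _).trans ((hlip _ _).trans
          (mul_le_mul_of_nonneg_left ?_ hb1))) hm.le
        rw [show x + √s * g - (y + √t * g) = (x - y) + (√s - √t) * g by ring]
        refine (abs_add_le _ _).trans (add_le_add le_rfl ?_)
        rw [abs_mul]
        exact mul_le_mul_of_nonneg_right he (abs_nonneg g)
      have ha : Real.exp a ≤ Real.exp (m * B) :=
        Real.exp_le_exp.2 (mul_le_mul_of_nonneg_left (abs_le.1 (hB _)).2 hm.le)
      have hr : 0 ≤ m * (b1 * (|x - y| + e * |g|)) := by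
        have := (abs_nonneg _).trans he
        positivity
      show Real.exp a - Real.exp c ≤ _
      nlinarith [mul_le_mul_of_nonneg_left hac (Real.exp_pos a).le,
        mul_le_mul_of_nonneg_right ha hr]
    · rw [integral_const_mul, integral_const_mul, integral_const_mul,
        integral_add (integrable_const _) (gauss_abs.1.const_mul e), integral_const_mul]
      simp only [integral_const, probReal_univ, one_smul]
      have he0 := (abs_nonneg _).trans he
      gcongr
      exact mul_le_of_le_one_right he0 gauss_abs.2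
  have hZ2 : 0 < Z2 := (Real.exp_pos _).trans_le (hpos t y)
  have hZ1 : 0 < Z1 := (Real.exp_pos _).trans_le (hpos s x)
  have h2 : Real.log Z1 - Real.log Z2 ≤ Real.exp (m * B) * |Z1 - Z2| := by
    rw [← Real.log_div hZ1.ne' hZ2.ne']
    refine (Real.log_le_sub_one_of_pos (div_pos hZ1 hZ2)).trans ?_
    rw [div_sub_one hZ2.ne', div_le_iff₀ hZ2]
    have := mul_le_mul_of_nonneg_left (hpos t y) (mul_nonneg (Real.exp_pos (m * B)).le
      (abs_nonneg (Z1 - Z2)))
    rw [mul_right_comm, ← Real.exp_add, add_neg_cancel, Real.exp_zero, one_mul] at this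
    exact (le_abs_self _).trans this
  simp only [step, if_neg hm.ne']
  rw [← mul_sub, inv_mul_le_iff₀ hm]
  rcases le_or_gt Z1 Z2 with h | h
  · have := Real.log_le_log hZ1 h
    have := (abs_nonneg _).trans he
    linarith [show 0 ≤ m * (Real.exp (2 * B) * (b1 * (|x - y| + e))) by positivity]
  · rw [abs_of_pos (sub_pos.2 h)] at h2
    refine h2.trans ((mul_le_mul_of_nonneg_left h1 (Real.exp_pos _).le).trans ?_)
    rw [← mul_assoc, ← Real.exp_add]
    have := (abs_nonneg _).trans he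
    have h3 : Real.exp (m * B + m * B) ≤ Real.exp (2 * B) := Real.exp_le_exp.2 (by nlinarith)
    nlinarith [mul_le_mul_of_nonneg_right h3
      (show 0 ≤ m * (b1 * (|x - y| + e)) by positivity)]

/-- Splitting off the last step. -/
theorem nest_snoc (f : ℝ → ℝ) : ∀ (n : ℕ) (m d : Fin (n + 1) → ℝ), (∀ i, m i ≠ 0) →
    nest (n + 1) m d f = nest n (fun i => m i.castSucc) (fun i => d i.castSucc)
      (step (m (Fin.last n)) (d (Fin.last n)) f)
  | 0, m, d, hm => by
    rw [nest_succ m d (hm 0)]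
    funext x
    simp only [nest, Casc.casc, Finset.univ_eq_empty, Finset.sum_empty, add_zero]
    congr 1
    funext y
    simp [nest, Casc.casc]
  | n + 1, m, d, hm => by
    rw [nest_succ m d (hm 0), nest_succ (fun i => m i.castSucc) (fun i => d i.castSucc) (hm _),
      nest_snoc f n (m ∘ Fin.succ) (d ∘ Fin.succ) fun i => hm _]
    rfl

theorem nest_scale (n : ℕ) (m d : Fin n → ℝ) (f : ℝ → ℝ) {c : ℝ} (hc : 0 ≤ c) (x : ℝ) :
    nest n m (fun i => c * d i) f (√c * x) = nest n m d (fun y => f (√c * y)) x := by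
  simp only [nest]
  congr 1
  funext y
  rw [mul_add, Finset.mul_sum]
  congr 2
  exact Finset.sum_congr rfl fun i _ => by rw [Real.sqrt_mul hc, mul_assoc]

/-- Continuity of the energy functional along the mixture, uniformly in the levels. -/
theorem psiF_mix (P : Casc.Pot) {q : Fin (K + 2) → ℝ} (hq : q ∈ Casc.pathsQ (K + 1)) {θ : ℝ}
    (h0 : 0 ≤ θ) (h1 : θ ≤ 1) :
    Casc.psiF P.f (mixQ θ q) ≤
      Casc.psiF P.f q + 3 * (Real.exp (5 * P.bF) * P.b1) * √θ := by
  have hm := (mlev_facts (K + 1)).2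
  have hb1 : 0 ≤ P.b1 := (abs_nonneg _).trans (P.h1 0)
  have hlip : ∀ x y, |P.f x - P.f y| ≤ P.b1 * |x - y| := fun x y => by
    simpa [Real.norm_eq_abs] using convex_univ.norm_image_sub_le_of_norm_hasDerivWithin_le
      (fun z _ => (P.d1 z).hasDerivWithinAt) (fun z _ => (Real.norm_eq_abs _).trans_le (P.h1 z))
      (mem_univ y) (mem_univ x)
  have hfm : Measurable P.f :=
    (continuous_iff_continuousAt.2 fun x => (P.d1 x).continuousAt).measurable
  set c := 1 - θ
  have hc : 0 ≤ c := sub_nonneg.2 h1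
  set r := Casc.mlev (K + 1) (Fin.last K)
  set v := q (Fin.last K).castSucc with hv
  have hv0 : 0 ≤ v := hq.2.1.trans (hq.1 (Fin.zero_le _))
  have hv1 : v ≤ 1 := (hq.1 (Fin.le_last _)).trans hq.2.2.le
  set m' : Fin K → ℝ := fun i => Casc.mlev (K + 1) i.castSucc
  set d' : Fin K → ℝ := fun i => q i.castSucc.succ - q i.castSucc.castSucc
  set F0 := step r (1 - v) P.f
  set F1 : ℝ → ℝ := fun y => step r (1 - c * v) P.f (√c * y)
  have hF0m : Measurable F0 := measurable_step hfm _ _
  have hF1m : Measurable F1 := (measurable_step hfm _ _).comp (measurable_const_mul _)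
  have hF0 : ∀ y, |F0 y| ≤ P.bF := fun y => abs_step_le' hfm P.hF (hm _).1 _ y
  have hF1 : ∀ y, |F1 y| ≤ P.bF := fun y => abs_step_le' hfm P.hF (hm _).1 _ _
  have hmix : ∀ i : Fin (K + 1), mixQ θ q i.castSucc = c * q i.castSucc := fun i => by
    simp [mixQ, c, (Fin.castSucc_lt_last i).ne]
  have hlast : mixQ θ q (Fin.last (K + 1)) = 1 := by simp [mixQ, hq.2.2]
  have e0 : nest (K + 1) (Casc.mlev (K + 1)) (fun l => q l.succ - q l.castSucc) P.f
      = nest K m' d' F0 := by
    rw [nest_snoc _ _ _ _ fun i => (hm i).1.ne']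
    simp only [F0, v, Fin.succ_last, hq.2.2]
    rfl
  have e1 : nest (K + 1) (Casc.mlev (K + 1)) (fun l => mixQ θ q l.succ - mixQ θ q l.castSucc) P.f
      = nest K m' (fun i => c * d' i) (step r (1 - c * v) P.f) := by
    rw [nest_snoc _ _ _ _ fun i => (hm i).1.ne', Fin.succ_last, hlast, hmix]
    congr 1
    funext i
    rw [Fin.succ_castSucc, hmix, hmix, mul_sub, ← Fin.succ_castSucc]
  have hd' : ∀ i, 0 ≤ d' i := fun i => sub_nonneg.2 (hq.1 (Fin.castSucc_le_succ _))
  obtain ⟨a1, b1', a0, b0', hdiff⟩ := nest_facts hF1m hF0m hF1 hF0 K m' d'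
    ((mlev_facts (K + 1)).1.comp fun _ _ h => Fin.castSucc_le_castSucc_iff.2 h)
    (fun i => hm _) hd'
  set e := |√(1 - c * v) - √(1 - v)|
  have he : e ≤ √θ := by
    have h2 : 1 - v ≤ 1 - c * v := by simp only [c]; nlinarith
    simp only [e]
    rw [abs_of_nonneg (sub_nonneg.2 (Real.sqrt_le_sqrt h2))]
    have hθv : 1 - c * v ≤ θ + (1 - v) := by simp only [c]; nlinarith
    have hadd : √(θ + (1 - v)) ≤ √θ + √(1 - v) := by
      rw [Real.sqrt_le_left (by positivity)]
      nlinarith [Real.mul_self_sqrt h0, Real.mul_self_sqrt (sub_nonneg.2 hv1),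
        mul_nonneg (Real.sqrt_nonneg θ) (Real.sqrt_nonneg (1 - v))]
    linarith [(Real.sqrt_le_sqrt hθv).trans hadd]
  have hsc : |√c - 1| ≤ θ := by
    have hc1 : √c ≤ 1 := Real.sqrt_le_one.2 (by simp only [c]; linarith)
    rw [abs_of_nonpos (by linarith)]
    have := Real.mul_self_sqrt hc
    have : c ≤ √c := by nlinarith [Real.sqrt_nonneg c]
    simp only [c] at *; linarith
  set E2 := Real.exp (2 * P.bF) * P.b1
  have hpt : ∀ y, |F1 y - F0 y| ≤ E2 * √θ + E2 * θ * |y| := fun y => by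
    have hxy : |√c * y - y| ≤ θ * |y| := by
      rw [show √c * y - y = (√c - 1) * y by ring, abs_mul]
      exact mul_le_mul_of_nonneg_right hsc (abs_nonneg y)
    have hE2 : 0 ≤ E2 := by positivity
    have hb : ∀ u : ℝ, u ≤ θ * |y| → Real.exp (2 * P.bF) * (P.b1 * (u + √θ))
        ≤ E2 * √θ + E2 * θ * |y| := fun u hu => by
      have := mul_le_mul_of_nonneg_left hu hE2
      simp only [E2] at *; linarith
    rw [abs_le]
    constructor
    · have := step_lip hfm P.hF hlip (hm (Fin.last K)).1 (hm (Fin.last K)).2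
        (s := 1 - v) (t := 1 - c * v) ((abs_sub_comm _ _).trans_le he) y (√c * y)
      rw [abs_sub_comm y] at this
      linarith [this.trans (hb _ hxy)]
    · exact (step_lip hfm P.hF hlip (hm _).1 (hm _).2 (s := 1 - c * v) (t := 1 - v) he
        (√c * y) y).trans (hb _ hxy)
  set S := ∑ i, d' i
  have hS : S ≤ 1 ∧ 0 ≤ S := by
    refine ⟨?_, Finset.sum_nonneg fun i _ => hd' i⟩
    have := sum_incr q
    rw [Fin.sum_univ_castSucc, hq.2.2, Fin.succ_last, hq.2.2, ← hv] at this
    simp only [S, d']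
    linarith [hq.2.1]
  rw [psiF_eq_nest, psiF_eq_nest, e0, e1, show mixQ θ q 0 = c * q 0 by simpa using hmix 0]
  simp only [heat, zero_add]
  have hb0 : ∀ z, nest K m' (fun i => c * d' i) (step r (1 - c * v) P.f) (√(c * q 0) * z)
      = nest K m' d' F1 (√(q 0) * z) := fun z => by
    rw [Real.sqrt_mul hc, mul_assoc, nest_scale K m' d' _ hc]
  simp only [hb0]
  have iz : Integrable (fun z : ℝ => |z|) gm := gauss_abs.1
  have key : ∀ z, nest K m' d' F1 (√(q 0) * z) - nest K m' d' F0 (√(q 0) * z) ≤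
      Real.exp (3 * P.bF) * (E2 * √θ + E2 * θ * (|z| + 1)) := fun z => by
    have hB0 : 0 ≤ P.bF := (abs_nonneg _).trans (P.hF 0)
    have hh : 0 ≤ hd m' ∧ hd m' ≤ 1 := by
      unfold Formula.hd
      split
      · exact ⟨(hm _).1.le, (hm _).2⟩
      · exact ⟨zero_le_one, le_rfl⟩
    refine (hdiff _).trans (mul_le_mul (Real.exp_le_exp.2 ?_) ?_
      (integral_nonneg fun _ => abs_nonneg _) (Real.exp_pos _).le)
    · nlinarith [(abs_le.1 (b1' (√(q 0) * z))).1, mul_le_mul_of_nonneg_left hh.2 hB0]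
    · set x := √(q 0) * z
      have hb : ∀ y, |(fun y => |F1 y - F0 y|) y| ≤ 2 * P.bF := fun y => by
        rw [abs_abs]; linarith [abs_sub (F1 y) (F0 y), hF1 y, hF0 y]
      show ∫ g, |F1 (x + √S * g) - F0 (x + √S * g)| ∂gm ≤ _
      refine (integral_mono (integrable_bdd ((hF1m.sub hF0m).abs.comp (by fun_prop))
        fun g => hb _) ((integrable_const (E2 * √θ + E2 * θ * |x|)).add
          (iz.const_mul (E2 * θ))) fun g => ?_).trans ?_
      · refine (hpt _).trans ?_
        simp only [Pi.add_apply]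
        have h2 : |x + √S * g| ≤ |x| + |g| := by
          refine (abs_add_le _ _).trans (add_le_add le_rfl ?_)
          rw [abs_mul, abs_of_nonneg (Real.sqrt_nonneg S)]
          exact mul_le_of_le_one_left (abs_nonneg g) (Real.sqrt_le_one.2 hS.1)
        have := mul_le_mul_of_nonneg_left h2 (show 0 ≤ E2 * θ by positivity)
        linarith
      · simp only [Pi.add_apply]
        rw [integral_add (integrable_const _) (iz.const_mul _), integral_const_mul]
        simp only [integral_const, probReal_univ, one_smul]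
        have hx : |x| ≤ |z| := by
          rw [abs_mul, abs_of_nonneg (Real.sqrt_nonneg _)]
          exact mul_le_of_le_one_left (abs_nonneg z)
            (Real.sqrt_le_one.2 ((hq.1 (Fin.zero_le _)).trans hv1))
        have := mul_le_mul_of_nonneg_left (gauss_abs.2) (show 0 ≤ E2 * θ by positivity)
        have := mul_le_mul_of_nonneg_left hx (show 0 ≤ E2 * θ by positivity)
        linarith
  have i1 : Integrable (fun z => nest K m' d' F1 (√(q 0) * z)) gm :=
    integrable_bdd (a1.comp (by fun_prop)) fun z => b1' _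
  have i0 : Integrable (fun z => nest K m' d' F0 (√(q 0) * z)) gm :=
    integrable_bdd (a0.comp (by fun_prop)) fun z => b0' _
  have iz1 : Integrable (fun z : ℝ => E2 * θ * (|z| + 1)) gm :=
    (iz.add (integrable_const _)).const_mul _
  have hi : Integrable (fun z : ℝ => Real.exp (3 * P.bF) * (E2 * √θ + E2 * θ * (|z| + 1))) gm :=
    ((integrable_const _).add iz1).const_mul _
  have h := integral_mono (i1.sub i0) hi key
  simp only [Pi.sub_apply] at h
  rw [integral_sub i1 i0, integral_const_mul, integral_add (integrable_const _) iz1,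
    integral_const_mul (E2 * θ), integral_add iz (integrable_const _)] at h
  simp only [integral_const, probReal_univ, one_smul] at h
  have hθ : θ ≤ √θ := by nlinarith [Real.mul_self_sqrt h0, Real.sqrt_nonneg θ, Real.sqrt_le_one.2 h1]
  have hE : Real.exp (3 * P.bF) * E2 = Real.exp (5 * P.bF) * P.b1 := by
    simp only [E2]
    rw [← mul_assoc, ← Real.exp_add]
    ring_nf
  have hE0 : 0 ≤ Real.exp (5 * P.bF) * P.b1 := by positivity
  have h3 := mul_le_mul_of_nonneg_left (gauss_abs.2) (mul_nonneg hE0 h0)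
  have h4 := mul_le_mul_of_nonneg_left hθ hE0
  have e : Real.exp (3 * P.bF) * (E2 * √θ + E2 * θ * ((∫ a, |a| ∂gm) + 1))
      = Real.exp (5 * P.bF) * P.b1 * √θ + Real.exp (5 * P.bF) * P.b1 * θ * (∫ a, |a| ∂gm)
        + Real.exp (5 * P.bF) * P.b1 * θ := by rw [← hE]; ring
  linarith [h, e]

/-- The formula without a bound on the spin path. -/
theorem val_tendsto_of_valL (P : Casc.Pot) {α : ℝ} (hα : 0 ≤ α) {ℓ : ℝ}
    (h : ∀ ε > (0 : ℝ), ∀ᶠ L in atTop, ∀ᶠ K in atTop,
      ((ℓ - ε : ℝ) : EReal) ≤ Casc.valL K L α P.f ∧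
        Casc.valL K L α P.f ≤ ((ℓ + ε : ℝ) : EReal)) :
    Tendsto (fun K => Casc.val K α P.f) atTop (𝓝 (ℓ : EReal)) := by
  have hfm : Measurable P.f :=
    (continuous_iff_continuousAt.2 fun x => (P.d1 x).continuousAt).measurable
  have hbF : 0 ≤ P.bF := (abs_nonneg _).trans (P.hF 0)
  have hb1 : 0 ≤ P.b1 := (abs_nonneg _).trans (P.h1 0)
  have key : ∀ ε > (0 : ℝ), ε ≤ 1 → ∀ᶠ K in atTop,
      ((ℓ - ε : ℝ) : EReal) ≤ Casc.val K α P.f ∧ Casc.val K α P.f ≤ ((ℓ + ε : ℝ) : EReal) := by
    intro ε hε hε1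
    set δ := ε / 16
    have hδ : 0 < δ := by positivity
    set A := 3 * α * (Real.exp (5 * P.bF) * P.b1) + 1
    have hA : 1 ≤ A := by simp only [A]; linarith [show 0 ≤ 3 * α * (Real.exp (5 * P.bF) * P.b1) by positivity]
    set θ := (ε / (4 * A)) ^ 2
    have hsq : √θ = ε / (4 * A) := Real.sqrt_sq (by positivity)
    have hθ0 : 0 < θ := by positivity
    have hsq1 : ε / (4 * A) ≤ 1 := (div_le_one (by positivity)).2 (by linarith)
    have hθ1 : θ ≤ 1 := pow_le_one₀ (by positivity) hsq1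
    obtain ⟨L0, hL0a, hL0b⟩ := ((h (ε / 8) (by linarith)).and
      (eventually_ge_atTop (max 1 ((|ℓ| + 1 + α * P.bF) / (θ * (δ / 2)))))).exists
    filter_upwards [hL0a, eventually_ge_atTop (⌈1 / δ⌉₊ + 9)] with K hK hKn
    refine ⟨((EReal.coe_le_coe_iff.2 (by linarith)).trans hK.1).trans (Casc.valL_le_val _ _ _), ?_⟩
    obtain ⟨k, rfl⟩ : ∃ k, K = k + 1 := ⟨K - 1, by omega⟩
    set n := k + 1 + 1 with hn
    have hn1 : 1 / δ ≤ n := (Nat.le_ceil _).trans (by exact_mod_cast (by omega : ⌈1 / δ⌉₊ ≤ n))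
    rw [div_le_iff₀ hδ] at hn1
    set j := ⌊δ * n⌋₊ + 1
    have hj1 : δ * n ≤ j := by
      simp only [j]; push_cast; exact (Nat.lt_floor_add_one _).le
    have hj2 : (j : ℝ) ≤ 2 * (δ * n) := by
      simp only [j]; push_cast
      linarith [Nat.floor_le (show 0 ≤ δ * (n : ℝ) by positivity)]
    have hn8 : (10 : ℝ) ≤ n := by exact_mod_cast (by omega : 10 ≤ n)
    have hjn : (j : ℝ) ≤ n / 8 := by
      have : δ * (n : ℝ) ≤ (1 / 16) * n := mul_le_mul_of_nonneg_right (by simp only [δ]; linarith) (by positivity)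
      linarith
    have hjn' : j + 2 ≤ n := by
      have : (j : ℝ) + 2 ≤ n := by linarith
      exact_mod_cast this
    set J := n - j
    have hJr : (J : ℝ) = n - j := by simp only [J]; rw [Nat.cast_sub (by omega)]
    have hJ1r : ((J - 1 : ℕ) : ℝ) = n - j - 1 := by
      rw [Nat.cast_sub (by omega), hJr]; simp
    -- a good overlap path at the bound
    have hlt : Casc.valL (k + 1) L0 α P.f < ((ℓ + ε / 4 : ℝ) : EReal) :=
      hK.2.trans_lt (EReal.coe_lt_coe_iff.2 (by linarith))
    simp only [Casc.valL, iInf_lt_iff] at hlt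
    obtain ⟨q, hq, hlt⟩ := hlt
    set S := ℓ + ε / 4 - α * Casc.psiF P.f q with hSdef
    have hS : ∀ p ∈ Casc.pathsP (k + 1) L0,
        Casc.psiI p + Casc.pi0 (k + 1) / 2 * ∑ l, p l * q l ≤ S := fun p hp => by
      have := (le_iSup₂_of_le (f := fun p _ => ((Casc.pfun Casc.psiI α P.f p q : ℝ) : EReal))
        p hp le_rfl).trans hlt.le
      have := EReal.coe_le_coe_iff.1 this
      simp only [Casc.pfun] at this
      linarith
    have hL1 : 1 ≤ L0 := le_of_max_le_left hL0b
    have hF := abs_le.1 (abs_psiF_le hfm P.hF hq.1)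
    have hSL : S ≤ θ * (Casc.pi0 (k + 1) / 2 * ((n : ℕ) - J : ℝ)) * L0 := by
      have h1 : S ≤ |ℓ| + 1 + α * P.bF := by
        rw [hSdef]
        linarith [le_abs_self ℓ, mul_le_mul_of_nonneg_left hF.1 hα]
      have h2 := (div_le_iff₀ (by positivity)).1 (le_of_max_le_right hL0b)
      have h3 : δ / 2 ≤ Casc.pi0 (k + 1) / 2 * ((n : ℕ) - J : ℝ) := by
        rw [hJr, Casc.pi0, sub_sub_cancel]
        have e : ((k + 1 : ℕ) : ℝ) + 1 = (n : ℝ) := by simp [n]
        rw [e, show 1 / (n : ℝ) / 2 * j = (j : ℝ) / n / 2 by ring]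
        have hn0 : (0 : ℝ) < n := by linarith
        exact div_le_div_of_nonneg_right ((le_div_iff₀ hn0).2 hj1) two_pos.le
      refine h1.trans (h2.trans ?_)
      rw [mul_comm L0]
      gcongr
    have hmix := mixQ_mem hθ0.le hθ1 hq
    refine (iInf₂_le (mixQ θ q) hmix).trans (iSup₂_le fun p hp => EReal.coe_le_coe_iff.2 ?_)
    have hs := sup_mix (J := J) (by omega) (by omega) hq hθ0.le hθ1 (by linarith) hS hSL hp.1 hp.2
    have hf := mul_le_mul_of_nonneg_left (psiF_mix P hq hθ0.le hθ1) hα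
    have hlog : Real.log 2 ≤ 1 := by
      linarith [Real.log_le_sub_one_of_pos (two_pos (α := ℝ))]
    have hlog0 : 0 ≤ Real.log 2 := Real.log_nonneg one_le_two
    have c1 : ((n : ℝ) / J - 1) * Real.log 2 ≤ 3 * δ := by
      have h0 : (0 : ℝ) < J := by rw [hJr]; linarith
      have : (n : ℝ) / J - 1 ≤ 3 * δ := by
        rw [div_sub_one h0.ne', div_le_iff₀ h0, hJr]
        linarith [mul_le_mul_of_nonneg_left hjn (show 0 ≤ 3 * δ by positivity)]
      have h' : 0 ≤ (n : ℝ) / J - 1 := by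
        rw [sub_nonneg, one_le_div h0, hJr]; linarith [show (0:ℝ) ≤ (j : ℝ) from Nat.cast_nonneg j]
      exact (mul_le_of_le_one_right h' hlog).trans this
    have c2 : ((n : ℝ) / (J - 1 : ℕ) - 1) * Real.log 2 ≤ 1 := by
      have h0 : (0 : ℝ) < (J - 1 : ℕ) := by rw [hJ1r]; linarith
      have : (n : ℝ) / (J - 1 : ℕ) - 1 ≤ 1 := by
        rw [div_sub_one h0.ne', div_le_iff₀ h0, hJ1r]
        linarith
      exact (mul_le_mul_of_nonneg_right this hlog0).trans (by rwa [one_mul])
    have c3 := mul_le_mul_of_nonneg_left c2 hθ0.le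
    have hθsq : θ ≤ √θ := by
      rw [hsq]
      exact (sq (ε / (4 * A))).trans_le (mul_le_of_le_one_left (by positivity) hsq1)
    have hω : A * √θ = ε / 4 := by rw [hsq]; field_simp
    simp only [Casc.pfun]
    simp only [A] at hω
    simp only [δ] at c1
    linarith [hSdef]
  rw [tendsto_order]
  constructor
  · intro a ha
    obtain ⟨r, har, hr⟩ := EReal.exists_between_coe_real ha
    have hr' := EReal.coe_lt_coe_iff.1 hr
    filter_upwards [key (min (ℓ - r) 1) (lt_min (by linarith) one_pos) (min_le_right _ _)] with K hK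
    exact har.trans_le ((EReal.coe_le_coe_iff.2 (by linarith [min_le_left (ℓ - r) 1])).trans hK.1)
  · intro a ha
    obtain ⟨r, hr, hra⟩ := EReal.exists_between_coe_real ha
    have hr' := EReal.coe_lt_coe_iff.1 hr
    filter_upwards [key (min (r - ℓ) 1) (lt_min (by linarith) one_pos) (min_le_right _ _)] with K hK
    exact (hK.2.trans (EReal.coe_le_coe_iff.2 (by linarith [min_le_left (r - ℓ) 1]))).trans_lt hra

end Vale.Agent.P157.Formula
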