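import Vale.Agent.P157.Formula.Energy

/-!
P157, formula: the maximiser in the spin path with its first-order condition, the variational
value, and the passage from two-sided estimates at fixed levels to the limit.
-/

open MeasureTheory ProbabilityTheory Filter Topology Set Function

namespace Vale.Agent.P157.Casc

open Formula

variable {K : ℕ}

theorem mem_pathsP_zero {L : ℝ} (hL : 0 ≤ L) : (fun _ => (0 : ℝ)) ∈ pathsP K L :=
  ⟨monotone_const, le_rfl, hL⟩

theorem isCompact_pathsP (L : ℝ) : IsCompact (pathsP K L) := by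
  have h : IsClosed (pathsP K L) := by
    have e : pathsP K L = {p | Monotone p} ∩ ({p | 0 ≤ p 0} ∩ {p | p (Fin.last K) ≤ L}) := rfl
    rw [e]
    exact isClosed_monotone.inter ((isClosed_le continuous_const (continuous_apply _)).inter
      (isClosed_le (continuous_apply _) continuous_const))
  exact (isCompact_univ_pi fun _ => isCompact_Icc (a := (0 : ℝ)) (b := L)).of_isClosed_subset h
    fun p hp i _ => ⟨hp.2.1.trans (hp.1 (Fin.zero_le i)), (hp.1 (Fin.le_last i)).trans hp.2.2⟩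

theorem convex_pathsP (L : ℝ) : Convex ℝ (pathsP K L) := fun x hx y hy θ φ hθ hφ h =>
  ⟨fun _ _ hij => add_le_add (mul_le_mul_of_nonneg_left (hx.1 hij) hθ)
    (mul_le_mul_of_nonneg_left (hy.1 hij) hφ),
    add_nonneg (mul_nonneg hθ hx.2.1) (mul_nonneg hφ hy.2.1), by
    calc (θ • x + φ • y) (Fin.last K) ≤ θ * L + φ * L :=
          add_le_add (mul_le_mul_of_nonneg_left hx.2.2 hθ) (mul_le_mul_of_nonneg_left hy.2.2 hφ)
      _ = L := by rw [← add_mul, h, one_mul]⟩

/-- A maximiser in the spin path, with its first-order condition. -/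
theorem exists_argmax {L : ℝ} (hL : 0 ≤ L) (q : Fin (K + 1) → ℝ) :
    ∃ p0 ∈ pathsP K L,
      (∀ p ∈ pathsP K L, psiI p + pi0 K / 2 * ∑ l, p l * q l ≤ psiI p0 + pi0 K / 2 * ∑ l, p0 l * q l) ∧
      ∀ p ∈ pathsP K L, ∑ l, (q l - vI p0 l) * (p l - p0 l) ≤ 0 := by
  obtain ⟨p0, hp0, hmax⟩ := (isCompact_pathsP (K := K) L).exists_isMaxOn ⟨_, mem_pathsP_zero hL⟩
    (continuous_psiI.add (continuous_const.mul (continuous_finsetSum _ fun l _ =>
      (continuous_apply l).mul continuous_const))).continuousOn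
      (f := fun p => psiI p + pi0 K / 2 * ∑ l, p l * q l)
  refine ⟨p0, hp0, fun p hp => hmax hp, fun p hp => ?_⟩
  set γ := pi0 K / 2 with hγ
  have hγ0 : 0 < γ := by rw [hγ]; unfold pi0; positivity
  set w : ℝ → Fin (K + 1) → ℝ := fun t l => (1 - t) * p0 l + t * p l with hw
  have hc : Continuous fun t => ∑ l, (q l - vI (w t) l) * (p l - p0 l) :=
    continuous_finsetSum _ fun l _ => (continuous_const.sub ((continuous_vI l).comp
      (continuous_pi fun i => by simp only [hw]; fun_prop))).mul continuous_const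
  have hw0 : w 0 = p0 := funext fun l => by simp [hw]
  have key : ∀ t ∈ Ioo (0 : ℝ) 1, ∑ l, (q l - vI (w t) l) * (p l - p0 l) ≤ 0 := fun t ht => by
    have hm : w t ∈ pathsP K L :=
      convex_pathsP L hp0 hp (sub_nonneg.2 ht.2.le) ht.1.le (by ring)
    have h1 : psiI (w t) + γ * ∑ l, w t l * q l ≤ psiI p0 + γ * ∑ l, p0 l * q l := hmax hm
    have h2 := psiI_tangent hp0.1 hp0.2.1 hm.1 hm.2.1
    rw [← hγ] at h2
    have e1 : ∑ l, vI (w t) l * (p0 l - w t l) = -(t * ∑ l, vI (w t) l * (p l - p0 l)) := by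
      rw [Finset.mul_sum, ← Finset.sum_neg_distrib]
      exact Finset.sum_congr rfl fun l _ => by simp only [hw]; ring
    have e2 : ∑ l, w t l * q l = ∑ l, p0 l * q l + t * ∑ l, q l * (p l - p0 l) := by
      rw [Finset.mul_sum, ← Finset.sum_add_distrib]
      exact Finset.sum_congr rfl fun l _ => by simp only [hw]; ring
    have e3 : ∑ l, (q l - vI (w t) l) * (p l - p0 l) =
        ∑ l, q l * (p l - p0 l) - ∑ l, vI (w t) l * (p l - p0 l) := by
      rw [← Finset.sum_sub_distrib]; exact Finset.sum_congr rfl fun l _ => by ring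
    rw [e1] at h2
    rw [e2] at h1
    rw [e3]
    nlinarith [mul_pos hγ0 ht.1]
  have h := le_of_tendsto ((hc.tendsto 0).mono_left (nhdsWithin_le_nhds (s := Ioi 0)))
    (eventually_of_mem (Ioo_mem_nhdsGT zero_lt_one) key)
  rwa [hw0] at h

/-- The variational value at `K + 1` levels and bound `L` on the spin path. -/
noncomputable def valL (K : ℕ) (L α : ℝ) (f : ℝ → ℝ) : EReal :=
  ⨅ q ∈ pathsQ K, ⨆ p ∈ pathsP K L, ((pfun psiI α f p q : ℝ) : EReal)

/-- The variational value at `K + 1` levels. -/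
noncomputable def val (K : ℕ) (α : ℝ) (f : ℝ → ℝ) : EReal :=
  ⨅ q ∈ pathsQ K, ⨆ p ∈ {p : Fin (K + 1) → ℝ | Monotone p ∧ 0 ≤ p 0},
    ((pfun psiI α f p q : ℝ) : EReal)

theorem isCompact_pathsQ : IsCompact (pathsQ K) := by
  have h : IsClosed (pathsQ K) := by
    have e : pathsQ K = {p | Monotone p} ∩ ({p | 0 ≤ p 0} ∩ {p | p (Fin.last K) = 1}) := rfl
    rw [e]
    exact isClosed_monotone.inter ((isClosed_le continuous_const (continuous_apply _)).inter
      (isClosed_eq (continuous_apply _) continuous_const))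
  exact (isCompact_univ_pi fun _ => isCompact_Icc (a := (0 : ℝ)) (b := 1)).of_isClosed_subset h
    fun p hp i _ => ⟨hp.2.1.trans (hp.1 (Fin.zero_le i)), (hp.1 (Fin.le_last i)).trans hp.2.2.le⟩

theorem continuous_pfun_q {α : ℝ} {f : ℝ → ℝ} (hf : Continuous f) {B : ℝ} (hB : ∀ x, |f x| ≤ B)
    (p : Fin (K + 1) → ℝ) : Continuous fun q => pfun psiI α f p q :=
  (continuous_const.add (continuous_const.mul (continuous_casc_psiF hf hB))).add
    (continuous_const.mul (continuous_finsetSum _ fun l _ => continuous_const.mul (continuous_apply l)))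

theorem valL_le_val (L α : ℝ) (f : ℝ → ℝ) : valL K L α f ≤ val K α f :=
  le_iInf₂ fun q hq => (iInf₂_le q hq).trans
    (iSup₂_le fun p hp => le_iSup₂_of_le p ⟨hp.1, hp.2.1⟩ le_rfl)

/-- Two-sided estimates at every bound `L` pass to the value without bound. -/
theorem val_le_of_forall {α : ℝ} {f : ℝ → ℝ} (hf : Continuous f) {B : ℝ} (hB : ∀ x, |f x| ≤ B)
    {c : ℝ} {L0 : ℝ} (h : ∀ L ≥ L0, valL K L α f ≤ (c : EReal)) : val K α f ≤ (c : EReal) := by
  refine EReal.le_of_forall_lt_iff_le.1 fun c' hc' => ?_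
  have hne : ∀ L ≥ L0, ∃ q ∈ pathsQ K, ∀ p ∈ pathsP K L, pfun psiI α f p q ≤ c' := fun L hL => by
    have := (h L hL).trans_lt hc'
    simp only [valL, iInf_lt_iff] at this
    obtain ⟨q, hq, hlt⟩ := this
    exact ⟨q, hq, fun p hp => EReal.coe_le_coe_iff.1
      ((le_iSup₂_of_le (f := fun p _ => ((pfun psiI α f p q : ℝ) : EReal)) p hp le_rfl).trans hlt.le)⟩
  set S : ℕ → Set (Fin (K + 1) → ℝ) := fun n =>
    pathsQ K ∩ ⋂ p ∈ pathsP K (|L0| + n), {q | pfun psiI α f p q ≤ c'} with hS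
  have hcl : ∀ n, IsClosed (S n) := fun n => isCompact_pathsQ.isClosed.inter
    (isClosed_biInter fun p _ => isClosed_le (continuous_pfun_q hf hB p) continuous_const)
  have hmono : ∀ n, S (n + 1) ⊆ S n := fun n q ⟨hq, hq'⟩ => ⟨hq, by
    simp only [mem_iInter] at hq' ⊢
    intro p hp
    exact hq' p ⟨hp.1, hp.2.1, hp.2.2.trans (by push_cast; linarith)⟩⟩
  have hnon : ∀ n, (S n).Nonempty := fun n => by
    obtain ⟨q, hq, hq'⟩ := hne (|L0| + n) (by linarith [le_abs_self L0, Nat.cast_nonneg (α := ℝ) n])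
    exact ⟨q, hq, mem_iInter₂.2 hq'⟩
  obtain ⟨q, hq⟩ := IsCompact.nonempty_iInter_of_sequence_nonempty_isCompact_isClosed S hmono hnon
    (isCompact_pathsQ.of_isClosed_subset (hcl 0) inter_subset_left) hcl
  simp only [mem_iInter] at hq
  refine (iInf₂_le q (hq 0).1).trans (iSup₂_le fun p hp => EReal.coe_le_coe_iff.2 ?_)
  obtain ⟨n, hn⟩ := exists_nat_ge (p (Fin.last K))
  have := (hq n).2
  simp only [mem_iInter] at this
  exact this p ⟨hp.1, hp.2, by linarith [abs_nonneg L0]⟩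

/-- The limit and the formula from two-sided estimates at fixed levels and bounds. -/
theorem tendsto_val {α : ℝ} {f : ℝ → ℝ} (hf : Continuous f) {B : ℝ} (hB : ∀ x, |f x| ≤ B)
    {F : ℕ → ℝ}
    (h : ∀ ε > (0 : ℝ), ∃ K0 : ℕ, ∀ K ≥ K0, ∃ L0 : ℝ, ∀ L ≥ L0, ∀ᶠ N in atTop,
      valL K L α f ≤ ((F N + ε : ℝ) : EReal) ∧ ((F N - ε : ℝ) : EReal) ≤ valL K L α f) :
    ∃ ℓ : ℝ, Tendsto F atTop (𝓝 ℓ) ∧ Tendsto (fun K => val K α f) atTop (𝓝 (ℓ : EReal)) := by
  have hc : CauchySeq F := by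
    refine Metric.cauchySeq_iff'.2 fun ε hε => ?_
    obtain ⟨K0, hK⟩ := h (ε / 4) (by linarith)
    obtain ⟨L0, hL⟩ := hK K0 le_rfl
    obtain ⟨N0, hN⟩ := eventually_atTop.1 (hL L0 le_rfl)
    refine ⟨N0, fun n hn => ?_⟩
    have h1 := EReal.coe_le_coe_iff.1 ((hN n hn).2.trans (hN N0 le_rfl).1)
    have h2 := EReal.coe_le_coe_iff.1 ((hN N0 le_rfl).2.trans (hN n hn).1)
    rw [Real.dist_eq, abs_lt]
    constructor <;> linarith
  obtain ⟨ℓ, hℓ⟩ := cauchySeq_tendsto_of_complete hc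
  refine ⟨ℓ, hℓ, ?_⟩
  have key : ∀ ε > (0 : ℝ), ∀ᶠ K in atTop,
      ((ℓ - ε : ℝ) : EReal) ≤ val K α f ∧ val K α f ≤ ((ℓ + ε : ℝ) : EReal) := fun ε hε => by
    obtain ⟨K0, hK⟩ := h (ε / 2) (by linarith)
    filter_upwards [eventually_ge_atTop K0] with K hK'
    obtain ⟨L0, hL⟩ := hK K hK'
    have hd := Metric.tendsto_nhds.1 hℓ (ε / 2) (by linarith)
    refine ⟨?_, val_le_of_forall hf hB (L0 := L0) fun L hL' => ?_⟩
    · obtain ⟨n, ⟨-, h2⟩, h3⟩ := ((hL L0 le_rfl).and hd).exists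
      rw [Real.dist_eq, abs_lt] at h3
      exact (EReal.coe_le_coe_iff.2 (by linarith)).trans (h2.trans (valL_le_val _ _ _))
    · obtain ⟨n, ⟨h1, -⟩, h3⟩ := ((hL L hL').and hd).exists
      rw [Real.dist_eq, abs_lt] at h3
      exact h1.trans (EReal.coe_le_coe_iff.2 (by linarith))
  rw [tendsto_order]
  constructor
  · intro a ha
    obtain ⟨r, har, hr⟩ := EReal.exists_between_coe_real ha
    filter_upwards [key (ℓ - r) (by have := EReal.coe_lt_coe_iff.1 hr; linarith)] with K hK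
    rw [sub_sub_cancel] at hK
    exact har.trans_le hK.1
  · intro a ha
    obtain ⟨r, hr, hra⟩ := EReal.exists_between_coe_real ha
    filter_upwards [key (r - ℓ) (by have := EReal.coe_lt_coe_iff.1 hr; linarith)] with K hK
    rw [add_sub_cancel] at hK
    exact hK.2.trans_lt hra

/-- `L¹` stability of the value, uniformly in the levels and the bound. -/
theorem val_le_add {α : ℝ} (hα : 0 ≤ α) {f g : ℝ → ℝ} (hf : Measurable f) (hg : Measurable g)
    {B : ℝ} (hfB : ∀ x, |f x| ≤ B) (hgB : ∀ x, |g x| ≤ B) :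
    val K α f ≤ val K α g + ((α * (Real.exp (3 * B) * ∫ x, |f x - g x| ∂gm) : ℝ) : EReal) := by
  set δ := α * (Real.exp (3 * B) * ∫ x, |f x - g x| ∂gm)
  have h : ∀ q ∈ pathsQ K, ∀ p : Fin (K + 1) → ℝ, pfun psiI α f p q ≤ pfun psiI α g p q + δ :=
    fun q hq p => by
      have := mul_le_mul_of_nonneg_left
        (le_abs_self _ |>.trans (psiF_sub_le hf hg hfB hgB hq)) hα
      simp only [pfun]
      linarith [mul_sub α (Casc.psiF f q) (Casc.psiF g q)]
  refine EReal.le_add_of_forall_gt (Or.inr (EReal.coe_ne_top _)) (Or.inr (EReal.coe_ne_bot _))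
    fun a ha b hb => ?_
  simp only [val, gt_iff_lt, iInf_lt_iff] at ha
  obtain ⟨q, hq, hlt⟩ := ha
  refine (iInf₂_le q hq).trans (iSup₂_le fun p hp => ?_)
  calc ((pfun psiI α f p q : ℝ) : EReal) ≤ ((pfun psiI α g p q + δ : ℝ) : EReal) :=
        EReal.coe_le_coe_iff.2 (h q hq p)
    _ = ((pfun psiI α g p q : ℝ) : EReal) + (δ : EReal) := EReal.coe_add _ _
    _ ≤ a + b := add_le_add ((le_iSup₂_of_le p hp le_rfl).trans hlt.le) hb.le

end Vale.Agent.P157.Casc
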