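import Vale.Agent.P157.Formula.Bridge

/-!
P157, formula: the energy functional for bounded measurable potentials: bound, `L¹` Lipschitz
estimate uniform in the number of levels, continuity in the path.
-/

open MeasureTheory ProbabilityTheory Filter Topology Set Function

namespace Vale.Agent.P157.Formula

/-- The recursion applied to `f` at `x` plus the increments. -/
noncomputable def nest (n : ℕ) (m d : Fin n → ℝ) (f : ℝ → ℝ) (x : ℝ) : ℝ :=
  Casc.casc gm n m (fun y => f (x + ∑ i, √(d i) * y i))

theorem nest_succ {n : ℕ} (m d : Fin (n + 1) → ℝ) (hm : m 0 ≠ 0) (f : ℝ → ℝ) :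
    nest (n + 1) m d f = step (m 0) (d 0) (nest n (m ∘ Fin.succ) (d ∘ Fin.succ) f) := by
  funext x
  rw [step_eq hm]
  simp only [nest, Casc.casc, heat, Fin.sum_univ_succ, Fin.cons_zero, Fin.cons_succ, ← add_assoc,
    Function.comp_apply]
  rfl

theorem measurable_step {F : ℝ → ℝ} (hF : Measurable F) (m s : ℝ) : Measurable (step m s F) := by
  rcases eq_or_ne m 0 with rfl | hm
  · simp only [step_zero_left]
    exact (MeasureTheory.StronglyMeasurable.integral_prod_right
      (f := fun (x : ℝ) (g : ℝ) => F (x + √s * g))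
      (hF.comp (by fun_prop)).stronglyMeasurable).measurable
  · simp only [step_eq hm]
    exact (((MeasureTheory.StronglyMeasurable.integral_prod_right
      (f := fun (x : ℝ) (g : ℝ) => Real.exp (m * F (x + √s * g)))
      (Real.measurable_exp.comp ((hF.comp (by fun_prop)).const_mul m)).stronglyMeasurable).measurable).log).const_mul _

/-- The first parameter of a list, `1` for the empty list. -/
def hd {n : ℕ} (m : Fin n → ℝ) : ℝ := if h : 0 < n then m ⟨0, h⟩ else 1

theorem integrable_bdd {Ω : Type*} [MeasurableSpace Ω] {μ : Measure Ω} [IsFiniteMeasure μ]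
    {h : Ω → ℝ} (hm : Measurable h) {B : ℝ} (hB : ∀ x, |h x| ≤ B) : Integrable h μ :=
  Integrable.of_bound hm.aestronglyMeasurable B (ae_of_all _ fun x => by
    rw [Real.norm_eq_abs]; exact hB x)

theorem abs_integral_le {h : ℝ → ℝ} {B : ℝ} (hB : ∀ x, |h x| ≤ B) : |∫ x, h x ∂gm| ≤ B := by
  have := norm_integral_le_of_norm_le_const (μ := gm) (f := h) (C := B)
    (ae_of_all _ fun x => (Real.norm_eq_abs _).trans_le (hB x))
  simpa using this

theorem abs_step_le' {F : ℝ → ℝ} (hF : Measurable F) {B : ℝ} (h : ∀ x, |F x| ≤ B) {m : ℝ}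
    (hm : 0 < m) (s x : ℝ) : |step m s F x| ≤ B := by
  have hb : ∀ g, Real.exp (m * -B) ≤ Real.exp (m * F (x + √s * g)) ∧
      Real.exp (m * F (x + √s * g)) ≤ Real.exp (m * B) := fun g =>
    ⟨Real.exp_le_exp.2 (mul_le_mul_of_nonneg_left (abs_le.1 (h _)).1 hm.le),
      Real.exp_le_exp.2 (mul_le_mul_of_nonneg_left (abs_le.1 (h _)).2 hm.le)⟩
  have hi : Integrable (fun g => Real.exp (m * F (x + √s * g))) gm :=
    integrable_bdd (Real.measurable_exp.comp ((hF.comp (by fun_prop)).const_mul m)) fun g => by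
      rw [Real.abs_exp]; exact (hb g).2
  have h1 := integral_mono (integrable_const _) hi fun g => (hb g).1
  have h2 := integral_mono hi (integrable_const _) fun g => (hb g).2
  simp only [integral_const, probReal_univ, one_smul] at h1 h2
  simp only [step, if_neg hm.ne', abs_le]
  constructor
  · rw [le_inv_mul_iff₀' hm, mul_comm]
    simpa using Real.log_le_log (Real.exp_pos _) h1
  · rw [inv_mul_le_iff₀ hm]
    simpa using Real.log_le_log ((Real.exp_pos _).trans_le h1) h2

theorem heat_heat_bdd {F : ℝ → ℝ} (hm : Measurable F) {B : ℝ} (hB : ∀ x, |F x| ≤ B) {a b : ℝ}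
    (ha : 0 ≤ a) (hb : 0 ≤ b) (x : ℝ) : heat (heat F b) a x = heat F (a + b) x := by
  have hF2 : Measurable fun z : ℝ × ℝ => F (x + √a * z.1 + √b * z.2) := hm.comp (by fun_prop)
  have hi : Integrable (fun z : ℝ × ℝ => F (x + √a * z.1 + √b * z.2)) (gm.prod gm) :=
    integrable_bdd hF2 fun z => hB _
  have hFx : Measurable fun y => F (x + y) := hm.comp (by fun_prop)
  calc heat (heat F b) a x = ∫ z : ℝ × ℝ, F (x + √a * z.1 + √b * z.2) ∂gm.prod gm := by
        rw [integral_prod _ hi]; rfl
    _ = ∫ y, F (x + y) ∂((gm.map (fun g => √a * g)) ∗ (gm.map fun g => √b * g)) := by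
        rw [Measure.conv, Measure.map_prod_map _ _ (by fun_prop) (by fun_prop),
          Measure.map_map (by fun_prop) (by fun_prop),
          integral_map (by fun_prop) hFx.aestronglyMeasurable]
        simp [Function.comp, add_assoc]
    _ = ∫ y, F (x + y) ∂(gm.map fun g => √(a + b) * g) := by
        rw [map_sqrt_mul ha, map_sqrt_mul hb, map_sqrt_mul (add_nonneg ha hb),
          gaussianReal_conv_gaussianReal, add_zero, Real.toNNReal_add ha hb]
    _ = heat F (a + b) x := integral_map (by fun_prop) hFx.aestronglyMeasurable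

theorem nest_facts {f g : ℝ → ℝ} (hf : Measurable f) (hg : Measurable g) {B : ℝ}
    (hfB : ∀ x, |f x| ≤ B) (hgB : ∀ x, |g x| ≤ B) : ∀ (n : ℕ) (m d : Fin n → ℝ), Monotone m →
    (∀ i, 0 < m i ∧ m i ≤ 1) → (∀ i, 0 ≤ d i) →
    Measurable (nest n m d f) ∧ (∀ x, |nest n m d f x| ≤ B) ∧ Measurable (nest n m d g) ∧
      (∀ x, |nest n m d g x| ≤ B) ∧ ∀ x, nest n m d f x - nest n m d g x ≤
        Real.exp ((2 - hd m) * B - hd m * nest n m d f x) *
          heat (fun y => |f y - g y|) (∑ i, d i) x
  | 0, m, d, _, _, _ => by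
    have e : ∀ h : ℝ → ℝ, nest 0 m d h = h := fun h => funext fun x => by
      simp [nest, Casc.casc]
    simp only [e, hd, lt_irrefl, dite_false, Finset.univ_eq_empty, Finset.sum_empty, heat_zero]
    refine ⟨hf, hfB, hg, hgB, fun x => (le_abs_self _).trans ?_⟩
    refine le_mul_of_one_le_left (abs_nonneg _) (Real.one_le_exp ?_)
    linarith [(abs_le.1 (hfB x)).2]
  | n + 1, m, d, hmono, hm, hd' => by
    have hm0 := (hm 0).1
    set m' := m ∘ Fin.succ with hm'
    set d' := d ∘ Fin.succ with hd''
    obtain ⟨af, bf, ag, bg, ih⟩ := nest_facts hf hg hfB hgB n m' d'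
      (hmono.comp fun _ _ h => Fin.succ_le_succ_iff.2 h) (fun i => hm _) fun i => hd' _
    rw [nest_succ m d hm0.ne', nest_succ m d hm0.ne']
    refine ⟨measurable_step af _ _, abs_step_le' af bf hm0 _, measurable_step ag _ _,
      abs_step_le' ag bg hm0 _, fun x => ?_⟩
    have h1 : m 0 ≤ hd m' := by
      unfold hd
      split
      · exact hmono (Fin.zero_le _)
      · exact (hm 0).2
    have hh : hd m = m 0 := by simp [hd]
    rw [hh, Fin.sum_univ_succ]
    set r := m 0
    set s := d 0
    set A := nest n m' d' f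
    set C := nest n m' d' g
    set H := heat (fun y => |f y - g y|) (∑ i : Fin n, d i.succ)
    have hb : ∀ y, |(fun y => |f y - g y|) y| ≤ 2 * B := fun y => by
      rw [abs_abs]; linarith [abs_sub (f y) (g y), hfB y, hgB y]
    have hh2 : Measurable fun y => |f y - g y| := (hf.sub hg).abs
    have hS : 0 ≤ ∑ i : Fin n, d i.succ := Finset.sum_nonneg fun i _ => hd' _
    rw [← heat_heat_bdd hh2 hb (hd' 0) hS]
    have hHm : Measurable H := (MeasureTheory.StronglyMeasurable.integral_prod_right
      (f := fun (x : ℝ) (g' : ℝ) => |f (x + √(∑ i : Fin n, d i.succ) * g') -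
        g (x + √(∑ i : Fin n, d i.succ) * g')|)
      (hh2.comp (by fun_prop)).stronglyMeasurable).measurable
    have hH : ∀ y, 0 ≤ H y ∧ H y ≤ 2 * B := fun y => by
      refine ⟨integral_nonneg fun _ => abs_nonneg _, (le_abs_self _).trans ?_⟩
      exact abs_integral_le fun g' => hb _
    have iA : Integrable (fun g' => Real.exp (r * A (x + √s * g'))) gm :=
      integrable_bdd (Real.measurable_exp.comp ((af.comp (by fun_prop)).const_mul r)) fun g' => by
        rw [Real.abs_exp, Real.exp_le_exp]
        exact mul_le_mul_of_nonneg_left (abs_le.1 (bf _)).2 hm0.le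
    have iAC : Integrable (fun g' => Real.exp (r * A (x + √s * g')) *
        (A (x + √s * g') - C (x + √s * g'))) gm := by
      refine integrable_bdd (B := Real.exp (r * B) * (2 * B)) ((Real.measurable_exp.comp
        ((af.comp (by fun_prop)).const_mul r)).mul ((af.comp (by fun_prop)).sub (ag.comp (by fun_prop))))
        fun g' => ?_
      rw [abs_mul, Real.abs_exp]
      exact mul_le_mul (Real.exp_le_exp.2 (mul_le_mul_of_nonneg_left (abs_le.1 (bf _)).2 hm0.le))
        (by linarith [abs_sub (A (x + √s * g')) (C (x + √s * g')), bf (x + √s * g'), bg (x + √s * g')])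
        (abs_nonneg _) (Real.exp_pos _).le
    have iH : Integrable (fun g' => H (x + √s * g')) gm :=
      integrable_bdd (hHm.comp (by fun_prop)) fun g' => by
        rw [abs_of_nonneg (hH _).1]; exact (hH _).2
    set Z := ∫ g', Real.exp (r * A (x + √s * g')) ∂gm with hZdef
    have hZ : 0 < Z := by
      refine (integral_pos_iff_support_of_nonneg (fun _ => (Real.exp_pos _).le) iA).2 ?_
      rw [Function.support_eq_univ fun _ => (Real.exp_pos _).ne']
      simp
    have ef : step r s A x = r⁻¹ * Real.log Z := by simp [step, hm0.ne', hZdef]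
    have eexp : Real.exp (r * step r s A x) = Z := by
      rw [ef, mul_inv_cancel_left₀ hm0.ne', Real.exp_log hZ]
    -- Jensen under the tilt of `A`
    have jen : step r s A x - step r s C x ≤
        (∫ g', Real.exp (r * A (x + √s * g')) * (A (x + √s * g') - C (x + √s * g')) ∂gm) / Z := by
      set J := (∫ g', Real.exp (r * A (x + √s * g')) * (A (x + √s * g') - C (x + √s * g')) ∂gm) / Z
        with hJ
      have iC : Integrable (fun g' => Real.exp (r * C (x + √s * g'))) gm :=
        integrable_bdd (Real.measurable_exp.comp ((ag.comp (by fun_prop)).const_mul r)) fun g' => by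
          rw [Real.abs_exp, Real.exp_le_exp]
          exact mul_le_mul_of_nonneg_left (abs_le.1 (bg _)).2 hm0.le
      have hlow : Z * Real.exp (-(r * J)) ≤ ∫ g', Real.exp (r * C (x + √s * g')) ∂gm := by
        have hi2 : Integrable (fun g' => Real.exp (-(r * J)) * ((1 + r * J) *
            Real.exp (r * A (x + √s * g')) -
            r * (Real.exp (r * A (x + √s * g')) * (A (x + √s * g') - C (x + √s * g'))))) gm :=
          ((iA.const_mul _).sub (iAC.const_mul _)).const_mul _
        have h := integral_mono hi2 iC fun g' => by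
          have := Real.add_one_le_exp (r * J - r * (A (x + √s * g') - C (x + √s * g')))
          have h2 := mul_le_mul_of_nonneg_left this
            (mul_nonneg (Real.exp_pos (-(r * J))).le (Real.exp_pos (r * A (x + √s * g'))).le)
          refine le_trans (le_of_eq (by ring)) (h2.trans (le_of_eq ?_))
          rw [← Real.exp_add, ← Real.exp_add]; ring_nf
        rw [integral_const_mul, integral_sub (iA.const_mul _) (iAC.const_mul _), integral_const_mul,
          integral_const_mul, ← hZdef] at h
        refine le_trans (le_of_eq ?_) h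
        rw [hJ]; field_simp; ring
      have := Real.log_le_log (mul_pos hZ (Real.exp_pos _)) hlow
      rw [Real.log_mul hZ.ne' (Real.exp_pos _).ne', Real.log_exp] at this
      rw [ef]
      simp only [step, if_neg hm0.ne']
      have h3 := mul_le_mul_of_nonneg_left this (inv_nonneg.2 hm0.le)
      rw [mul_add, mul_neg, inv_mul_cancel_left₀ hm0.ne'] at h3
      linarith
    refine jen.trans ?_
    rw [div_le_iff₀ hZ]
    calc ∫ g', Real.exp (r * A (x + √s * g')) * (A (x + √s * g') - C (x + √s * g')) ∂gm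
        ≤ ∫ g', Real.exp ((2 - r) * B) * H (x + √s * g') ∂gm := by
          refine integral_mono iAC (iH.const_mul _) fun g' => ?_
          set u := x + √s * g'
          refine (mul_le_mul_of_nonneg_left (ih u) (Real.exp_pos _).le).trans ?_
          rw [← mul_assoc, ← Real.exp_add]
          refine mul_le_mul_of_nonneg_right (Real.exp_le_exp.2 ?_) (hH u).1
          nlinarith [(abs_le.1 (bf u)).1]
      _ = _ := by
          rw [integral_const_mul, ← eexp, mul_right_comm (Real.exp _), ← Real.exp_add]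
          unfold heat
          congr 2
          ring

theorem psiF_eq_nest {K : ℕ} (f : ℝ → ℝ) (Q : Fin (K + 1) → ℝ) :
    Casc.psiF f Q = heat (nest K (Casc.mlev K) (fun l => Q l.succ - Q l.castSucc) f) (Q 0) 0 := by
  simp [Casc.psiF, heat, nest, Casc.pathField]

theorem mlev_facts (K : ℕ) : Monotone (Casc.mlev K) ∧ ∀ i, 0 < Casc.mlev K i ∧ Casc.mlev K i ≤ 1 := by
  refine ⟨fun i j h => ?_, fun i => ⟨by unfold Casc.mlev; positivity, ?_⟩⟩
  · have h' : ((i : ℕ) : ℝ) ≤ (j : ℕ) := by exact_mod_cast h
    unfold Casc.mlev; gcongr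
  · have h' : ((i : ℕ) : ℝ) + 1 ≤ (K : ℝ) := by exact_mod_cast i.2
    unfold Casc.mlev
    rw [div_le_one (by positivity)]; linarith

theorem sum_incr {K : ℕ} (Q : Fin (K + 1) → ℝ) :
    Q 0 + ∑ l : Fin K, (Q l.succ - Q l.castSucc) = Q (Fin.last K) := by
  have h1 := Fin.sum_univ_succ Q
  have h2 := Fin.sum_univ_castSucc Q
  rw [Finset.sum_sub_distrib]
  linarith

theorem abs_psiF_le {K : ℕ} {f : ℝ → ℝ} (hf : Measurable f) {B : ℝ} (hB : ∀ x, |f x| ≤ B)
    {Q : Fin (K + 1) → ℝ} (hQ : Monotone Q) : |Casc.psiF f Q| ≤ B := by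
  obtain ⟨-, hb, -⟩ := nest_facts hf hf hB hB K (Casc.mlev K) (fun l => Q l.succ - Q l.castSucc)
    (mlev_facts K).1 (mlev_facts K).2 fun l => sub_nonneg.2 (hQ (Fin.castSucc_le_succ l))
  rw [psiF_eq_nest]
  exact abs_integral_le fun g => hb _

/-- The energy functional is Lipschitz for the Gaussian `L¹` distance, uniformly in the path. -/
theorem psiF_sub_le {K : ℕ} {f g : ℝ → ℝ} (hf : Measurable f) (hg : Measurable g) {B : ℝ}
    (hfB : ∀ x, |f x| ≤ B) (hgB : ∀ x, |g x| ≤ B) {Q : Fin (K + 1) → ℝ} (hQ : Q ∈ Casc.pathsQ K) :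
    |Casc.psiF f Q - Casc.psiF g Q| ≤ Real.exp (3 * B) * ∫ x, |f x - g x| ∂gm := by
  have key : ∀ {f g : ℝ → ℝ}, Measurable f → Measurable g → (∀ x, |f x| ≤ B) → (∀ x, |g x| ≤ B) →
      Casc.psiF f Q - Casc.psiF g Q ≤ Real.exp (3 * B) * ∫ x, |f x - g x| ∂gm := by
    intro f g hf hg hfB hgB
    set d : Fin K → ℝ := fun l => Q l.succ - Q l.castSucc
    have hd0 : ∀ l, 0 ≤ d l := fun l => sub_nonneg.2 (hQ.1 (Fin.castSucc_le_succ l))
    have hB0 : 0 ≤ B := (abs_nonneg _).trans (hfB 0)
    obtain ⟨af, bf, ag, bg, h⟩ := nest_facts hf hg hfB hgB K (Casc.mlev K) d (mlev_facts K).1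
      (mlev_facts K).2 hd0
    have hh : 0 ≤ hd (Casc.mlev K) ∧ hd (Casc.mlev K) ≤ 1 := by
      unfold Formula.hd
      split
      · exact ⟨((mlev_facts K).2 _).1.le, ((mlev_facts K).2 _).2⟩
      · exact ⟨zero_le_one, le_rfl⟩
    have hb : ∀ y, |(fun y => |f y - g y|) y| ≤ 2 * B := fun y => by
      rw [abs_abs]; linarith [abs_sub (f y) (g y), hfB y, hgB y]
    have hh2 : Measurable fun y => |f y - g y| := (hf.sub hg).abs
    set S := ∑ l, d l
    have hHm : Measurable (heat (fun y => |f y - g y|) S) :=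
      (MeasureTheory.StronglyMeasurable.integral_prod_right
        (f := fun (x : ℝ) (g' : ℝ) => |f (x + √S * g') - g (x + √S * g')|)
        (hh2.comp (by fun_prop)).stronglyMeasurable).measurable
    have iH : Integrable (fun z => heat (fun y => |f y - g y|) S (0 + √(Q 0) * z)) gm :=
      integrable_bdd (B := 2 * B) (hHm.comp (by fun_prop)) fun z =>
        abs_integral_le fun g' => hb _
    have ia : Integrable (fun z => nest K (Casc.mlev K) d f (0 + √(Q 0) * z)) gm :=
      integrable_bdd (af.comp (by fun_prop)) fun z => bf _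
    have ib : Integrable (fun z => nest K (Casc.mlev K) d g (0 + √(Q 0) * z)) gm :=
      integrable_bdd (ag.comp (by fun_prop)) fun z => bg _
    rw [psiF_eq_nest, psiF_eq_nest]
    calc heat (nest K (Casc.mlev K) d f) (Q 0) 0 - heat (nest K (Casc.mlev K) d g) (Q 0) 0
        = ∫ z, (nest K (Casc.mlev K) d f (0 + √(Q 0) * z) -
            nest K (Casc.mlev K) d g (0 + √(Q 0) * z)) ∂gm := (integral_sub ia ib).symm
      _ ≤ ∫ z, Real.exp (3 * B) * heat (fun y => |f y - g y|) S (0 + √(Q 0) * z) ∂gm := by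
          refine integral_mono (ia.sub ib) (iH.const_mul _) fun z => ?_
          refine (h _).trans (mul_le_mul_of_nonneg_right (Real.exp_le_exp.2 ?_)
            (integral_nonneg fun _ => abs_nonneg _))
          nlinarith [(abs_le.1 (bf (0 + √(Q 0) * z))).1, mul_le_mul_of_nonneg_left hh.2 hB0]
      _ = Real.exp (3 * B) * ∫ x, |f x - g x| ∂gm := by
          rw [integral_const_mul]
          congr 1
          have := heat_heat_bdd hh2 hb hQ.2.1 (b := S) (Finset.sum_nonneg fun l _ => hd0 l) 0
          rw [sum_incr Q, hQ.2.2] at this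
          refine (show _ = heat (fun y => |f y - g y|) 1 0 from this).trans ?_
          simp [heat]
  rw [abs_le]
  refine ⟨?_, key hf hg hfB hgB⟩
  have := key hg hf hgB hfB
  simp only [abs_sub_comm (g _)] at this
  linarith

theorem continuous_nest {T : Type*} [TopologicalSpace T] [FirstCountableTopology T] {f : ℝ → ℝ}
    (hf : Continuous f) {B : ℝ} (hB : ∀ x, |f x| ≤ B) : ∀ (n : ℕ) (m : Fin n → ℝ),
    (∀ i, 0 < m i) → ∀ d : T → Fin n → ℝ, (∀ i, Continuous fun t => d t i) →
    (Continuous fun z : T × ℝ => nest n m (d z.1) f z.2) ∧ ∀ t x, |nest n m (d t) f x| ≤ B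
  | 0, m, _, d, _ => by
    simp only [nest, Casc.casc, Finset.univ_eq_empty, Finset.sum_empty, add_zero]
    exact ⟨hf.comp continuous_snd, fun _ => hB⟩
  | n + 1, m, hm, d, hd => by
    obtain ⟨hc, hb⟩ := continuous_nest hf hB n (m ∘ Fin.succ) (fun i => hm _)
      (fun t => d t ∘ Fin.succ) fun i => hd _
    simp only [fun t => nest_succ m (d t) (hm 0).ne' f]
    refine ⟨continuous_step (H := fun t => nest n (m ∘ Fin.succ) (d t ∘ Fin.succ) f) hc
      (fun t₀ => ⟨B, Eventually.of_forall fun t x => (hb t x).trans (by linarith [abs_nonneg x])⟩)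
      (hm 0).le (hd 0), fun t x => ?_⟩
    exact abs_step_le (hc.comp (Continuous.prodMk continuous_const continuous_id)) (hb t) (hm 0).le _ x

theorem continuous_casc_psiF {K : ℕ} {f : ℝ → ℝ} (hf : Continuous f) {B : ℝ} (hB : ∀ x, |f x| ≤ B) :
    Continuous (Casc.psiF f : (Fin (K + 1) → ℝ) → ℝ) := by
  obtain ⟨hc, hb⟩ := continuous_nest (T := Fin (K + 1) → ℝ) hf hB K (Casc.mlev K)
    (fun i => ((mlev_facts K).2 i).1) (fun Q l => Q l.succ - Q l.castSucc)
    fun l => (continuous_apply _).sub (continuous_apply _)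
  have h := continuous_step (H := fun Q : Fin (K + 1) → ℝ =>
      nest K (Casc.mlev K) (fun l => Q l.succ - Q l.castSucc) f) hc
    (fun _ => ⟨B, Eventually.of_forall fun t x => (hb t x).trans (by linarith [abs_nonneg x])⟩)
    le_rfl (continuous_apply (0 : Fin (K + 1)))
  rw [funext fun Q => psiF_eq_nest (K := K) f Q]
  simp only [step_zero_left] at h
  exact h.comp (Continuous.prodMk continuous_id continuous_const)

end Vale.Agent.P157.Formula
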