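import Vale.Agent.P157.Formula.Grad
import Vale.Agent.P157.Casc.Model

/-!
P157, formula: the cascade functionals of `Casc.Model` are the recursion; concavity and tangent of
`psiI`, continuity of `psiI` and `vI`.
-/

open MeasureTheory ProbabilityTheory Filter Topology Set Function

namespace Vale.Agent.P157.Formula

theorem deriv_lcosh : deriv lcosh = Real.tanh := funext fun x => by
  show deriv (fun x => Real.log (Real.cosh x)) x = _
  rw [((Real.hasDerivAt_cosh x).log (Real.cosh_pos x).ne').deriv, Real.tanh_eq_sinh_div_cosh]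

/-- The recursion of exponential means is the recursion of steps. -/
theorem casc_eq_lvl (K : ℕ) (b : ℕ → ℝ) (hb : b (K + 1) = b K) : ∀ (n l : ℕ), l + n = K → 1 ≤ l →
    ∀ x : ℝ,
      Casc.casc gm n (fun i => ((l + i : ℕ) : ℝ) / K)
          (fun y => Real.log (Real.cosh (x + ∑ i : Fin n, √(b (l + i + 1) - b (l + i)) * y i)))
        = lvl K b l x ∧
      Casc.cmean gm n (fun i => ((l + i : ℕ) : ℝ) / K)
          (fun y => Real.log (Real.cosh (x + ∑ i : Fin n, √(b (l + i + 1) - b (l + i)) * y i)))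
          (fun y => Real.tanh (x + ∑ i : Fin n, √(b (l + i + 1) - b (l + i)) * y i))
        = deriv (lvl K b l) x ∧
      ∀ k : Fin (n + 1), Casc.csq gm n (fun i => ((l + i : ℕ) : ℝ) / K)
          (fun y => Real.log (Real.cosh (x + ∑ i : Fin n, √(b (l + i + 1) - b (l + i)) * y i)))
          (fun y => Real.tanh (x + ∑ i : Fin n, √(b (l + i + 1) - b (l + i)) * y i)) k
        = low K b (l + k) k x := by
  intro n
  induction n with
  | zero =>
    intro l hl _ x
    obtain rfl : l = K := by omega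
    have e : lvl l b l = lcosh := by rw [lvl_eq _ le_rfl, lvl_top, hb, sub_self, step_zero_right]
    refine ⟨by simp [Casc.casc, e, lcosh], by simp [Casc.cmean, e, deriv_lcosh], fun k => ?_⟩
    obtain rfl : k = 0 := Fin.eq_zero k
    simp [Casc.csq, low, e, deriv_lcosh]
  | succ n ih =>
    intro l hl hl1 x
    have hK : (0 : ℝ) < K := by exact_mod_cast (by omega : 0 < K)
    have hm : ((l + ((0 : Fin (n + 1)) : ℕ) : ℕ) : ℝ) / K ≠ 0 := by
      simp only [Fin.val_zero, add_zero]
      exact (div_pos (by exact_mod_cast (by omega : 0 < l)) hK).ne'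
    have eg : ∀ g : ℝ,
        (fun y : Fin n → ℝ => x + ∑ i : Fin (n + 1), √(b (l + i + 1) - b (l + i)) *
            (Fin.cons g y : Fin (n + 1) → ℝ) i) =
          fun y => x + √(b (l + 1) - b l) * g +
            ∑ i : Fin n, √(b (l + 1 + i + 1) - b (l + 1 + i)) * y i := fun g => funext fun y => by
      rw [Fin.sum_univ_succ]
      simp only [Fin.cons_zero, Fin.cons_succ, Fin.val_succ, Fin.val_zero, add_zero]
      rw [← add_assoc]
      congr 1
      refine Finset.sum_congr rfl fun i _ => ?_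
      rw [show l + ((i : ℕ) + 1) = l + 1 + i by omega]
    have em : (fun i : Fin n => ((l + ((i : ℕ) + 1) : ℕ) : ℝ) / K) =
        fun i : Fin n => ((l + 1 + i : ℕ) : ℝ) / K :=
      funext fun i => by congr 2; omega
    have h := fun g => ih (l + 1) (by omega) (by omega) (x + √(b (l + 1) - b l) * g)
    have E1 : ∀ g : ℝ, (fun y : Fin n → ℝ => Real.log (Real.cosh (x + ∑ i : Fin (n + 1),
        √(b (l + i + 1) - b (l + i)) * (Fin.cons g y : Fin (n + 1) → ℝ) i))) = fun y =>
          Real.log (Real.cosh (x + √(b (l + 1) - b l) * g +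
            ∑ i : Fin n, √(b (l + 1 + i + 1) - b (l + 1 + i)) * y i)) := fun g =>
      funext fun y => by rw [congrFun (eg g) y]
    have E2 : ∀ g : ℝ, (fun y : Fin n → ℝ => Real.tanh (x + ∑ i : Fin (n + 1),
        √(b (l + i + 1) - b (l + i)) * (Fin.cons g y : Fin (n + 1) → ℝ) i)) = fun y =>
          Real.tanh (x + √(b (l + 1) - b l) * g +
            ∑ i : Fin n, √(b (l + 1 + i + 1) - b (l + 1 + i)) * y i) := fun g =>
      funext fun y => by rw [congrFun (eg g) y]
    have hc : lvl K b l = step ((l : ℝ) / K) (b (l + 1) - b l) (lvl K b (l + 1)) :=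
      lvl_eq b (by omega)
    have hcm : Casc.cmean gm (n + 1) (fun i => ((l + i : ℕ) : ℝ) / K)
          (fun y => Real.log (Real.cosh (x + ∑ i : Fin (n + 1), √(b (l + i + 1) - b (l + i)) * y i)))
          (fun y => Real.tanh (x + ∑ i : Fin (n + 1), √(b (l + i + 1) - b (l + i)) * y i))
        = deriv (lvl K b l) x := by
      rw [hc, deriv_step (nice_lvl _ _ _)]
      simp only [Casc.cmean, E1, E2, Fin.val_succ, em, (h _).1, (h _).2.1, ker, heat, Fin.val_zero, add_zero,
        mul_comm (deriv (lvl K b (l + 1)) _)]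
    refine ⟨?_, hcm, fun k => ?_⟩
    · rw [hc, step_eq (by simpa using hm)]
      simp only [Casc.casc, E1, Fin.val_succ, em, (h _).1, heat, Fin.val_zero, add_zero]
    · refine Fin.cases ?_ (fun i => ?_) k
      · simp only [Casc.csq, Fin.cases_zero, hcm, Fin.val_zero, add_zero, low]
      · simp only [Casc.csq, Fin.cases_succ, E1, E2, em, (h _).1, (h _).2.2, ker, heat,
          Fin.val_zero, Fin.val_succ, add_zero, low]
        rw [show l + ((i : ℕ) + 1) = l + 1 + i by omega,
          show l + 1 + (i : ℕ) - ((i : ℕ) + 1) = l by omega,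
          show l + 1 + (i : ℕ) - (i : ℕ) = l + 1 by omega]
        simp only [mul_comm (low K b (l + 1 + i) i _)]

theorem bk_top_last {K : ℕ} (p : Fin K → ℝ) : bk (top p) p (K + 1) = bk (top p) p K := by
  rcases Nat.eq_zero_or_pos K with rfl | h
  · simp [top, bk]
  · simp [top, bk, h.ne', show K - 1 < K by omega]

theorem pathField_eq {K : ℕ} (C : Fin (K + 1) → ℝ) (z : ℝ) (y : Fin K → ℝ) :
    Casc.pathField C z y = √(bk (top C) C 1) * z +
      ∑ i : Fin K, √(bk (top C) C (1 + i + 1) - bk (top C) C (1 + i)) * y i := by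
  rw [Casc.pathField]
  have e : ∀ r : Fin (K + 1), bk (top C) C (1 + (r : ℕ)) = C r := fun r => by
    rw [Nat.add_comm 1, bk_succ]
  congr 1
  refine Finset.sum_congr rfl fun i _ => ?_
  have h1 := e i.succ
  have h2 := e i.castSucc
  rw [Fin.val_succ, ← Nat.add_assoc] at h1
  rw [Fin.val_castSucc] at h2
  rw [← h1, ← h2]

theorem mlev_eq (K : ℕ) : Casc.mlev K = fun i : Fin K => ((1 + i : ℕ) : ℝ) / ((K + 1 : ℕ) : ℝ) :=
  funext fun i => by rw [Casc.mlev]; push_cast; ring

theorem psiI_eq {K : ℕ} (C : Fin (K + 1) → ℝ) : Casc.psiI C = psi C := by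
  rw [psi, Phi, ← lvl_zero, lvl_eq _ (Nat.zero_le _), Nat.cast_zero, zero_div, step_zero_left]
  unfold Casc.psiI heat
  congr 1
  · refine integral_congr_ae (ae_of_all _ fun z => ?_)
    simp only [pathField_eq, mlev_eq]
    simp only [show bk (top C) C 0 = 0 by simp [bk], sub_zero, zero_add]
    exact (casc_eq_lvl (K + 1) (bk (top C) C) (bk_top_last C) K 1 (by omega) le_rfl _).1
  · simp [top, bk, Fin.last]

theorem vI_eq {K : ℕ} (C : Fin (K + 1) → ℝ) (l : Fin (K + 1)) : Casc.vI C l = ovl C l := by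
  simp only [ovl, low, Nat.sub_self, Nat.cast_zero, zero_div, ker, zero_mul, Real.exp_zero,
    mul_one, heat_const, div_one, show ((l : ℕ) + 1 - (l : ℕ)) = 1 by omega]
  unfold Casc.vI heat
  refine integral_congr_ae (ae_of_all _ fun z => ?_)
  simp only [pathField_eq, mlev_eq]
  simp only [show bk (top C) C 0 = 0 by simp [bk], sub_zero, zero_add]
  rw [show (l : ℕ) + 1 = 1 + l by omega]
  exact (casc_eq_lvl (K + 1) (bk (top C) C) (bk_top_last C) K 1 (by omega) le_rfl _).2.2 l

theorem mem_path_iff {K : ℕ} {p : Fin (K + 1) → ℝ} : p ∈ Path (K + 1) ↔ Monotone p ∧ 0 ≤ p 0 :=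
  ⟨fun h => ⟨h.1, h.2 0⟩, fun h => ⟨h.1, fun i => h.2.trans (h.1 (Fin.zero_le i))⟩⟩

end Vale.Agent.P157.Formula

namespace Vale.Agent.P157.Casc

open Formula

/-- The tangent inequality of the Ising entropy functional. -/
theorem psiI_tangent {K : ℕ} {p p0 : Fin (K + 1) → ℝ} (hp : Monotone p) (hp0 : 0 ≤ p 0)
    (hq : Monotone p0) (hq0 : 0 ≤ p0 0) :
    psiI p ≤ psiI p0 - pi0 K / 2 * ∑ l, vI p0 l * (p l - p0 l) := by
  simp only [psiI_eq, vI_eq, pi0, one_div]
  simpa using psi_tangent (mem_path_iff.2 ⟨hp, hp0⟩) (mem_path_iff.2 ⟨hq, hq0⟩)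

theorem continuous_psiI {K : ℕ} : Continuous (psiI : (Fin (K + 1) → ℝ) → ℝ) :=
  (funext fun C => psiI_eq C : (psiI : (Fin (K + 1) → ℝ) → ℝ) = _) ▸ continuous_psi

theorem continuous_vI {K : ℕ} (l : Fin (K + 1)) : Continuous fun C : Fin (K + 1) → ℝ => vI C l :=
  (funext fun C => vI_eq C l : (fun C : Fin (K + 1) → ℝ => vI C l) = _) ▸ continuous_ovl l

theorem psiI_concave {K : ℕ} : ConcaveOn ℝ {p : Fin (K + 1) → ℝ | Monotone p ∧ 0 ≤ p 0} psiI := by
  have e : {p : Fin (K + 1) → ℝ | Monotone p ∧ 0 ≤ p 0} = Formula.Path (K + 1) :=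
    Set.ext fun p => mem_path_iff.symm
  rw [e, show (psiI : (Fin (K + 1) → ℝ) → ℝ) = psi from funext psiI_eq]
  exact psi_concave

end Vale.Agent.P157.Casc
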