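import Vale.Agent.P157.Formula.Opt
import Vale.Agent.P157.Hybrid
import Vale.Agent.P166.Tame

/-!
P157, formula: `L¹` stability of the pressure, smoothing, and the passage from smooth bounded
potentials to all bounded Borel potentials.
-/

open MeasureTheory ProbabilityTheory Filter Topology Set Function

namespace Vale.Agent.P157.Formula

theorem integral_fld {n : ℕ} (hn : 0 < n) (σ : Fin n → Bool) {h : ℝ → ℝ} (hm : Measurable h) :
    ∫ g, h (fld g σ) ∂gs n = ∫ x, h x ∂gm := by
  set v : Fin n → ℝ := fun i => sg (σ i) / √n with hv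
  have hv1 : ∑ i, v i ^ 2 = 1 := by
    have e : ∀ i, v i ^ 2 = 1 / n := fun i => by
      rw [hv]; dsimp only
      rw [div_pow, Real.sq_sqrt (Nat.cast_nonneg n)]
      congr 1
      cases σ i <;> simp [sg]
    simp only [e, Finset.sum_const, Finset.card_univ, Fintype.card_fin, nsmul_eq_mul]
    have : (n : ℝ) ≠ 0 := by exact_mod_cast hn.ne'
    field_simp
  have hf : ∀ g : Fin n → ℝ, fld g σ = ∑ i, g i * v i := fun g => by
    simp only [fld, hv, Finset.sum_div, mul_div_assoc]
  simp only [hf]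
  conv_rhs => rw [show gm = gaussianReal 0 1 from rfl, ← P166.map_lin v hv1]
  exact (integral_map (Measurable.aemeasurable (by fun_prop)) hm.aestronglyMeasurable).symm

theorem measurable_fld {n : ℕ} (σ : Fin n → Bool) : Measurable fun g : Fin n → ℝ => fld g σ := by
  unfold fld; fun_prop

/-- Gibbs average of a function of the fields. -/
noncomputable def gav {n m : ℕ} (f : ℝ → ℝ) (h : (Fin n → Bool) → ℝ) (G : Fin m → Fin n → ℝ) : ℝ :=
  (∑ σ, Real.exp (∑ i, f (fld (G i) σ)) * h σ) / ∑ σ, Real.exp (∑ i, f (fld (G i) σ))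

theorem gav_le {f : ℝ → ℝ} {B : ℝ} (hB : ∀ x, |f x| ≤ B) {n m : ℕ} (a : Fin (m + 1))
    {h : (Fin n → Bool) → ℝ} (h0 : ∀ σ, 0 ≤ h σ) (G : Fin (m + 1) → Fin n → ℝ) :
    gav f h G ≤ Real.exp (2 * B) * gav f h (fun i => G (a.succAbove i)) := by
  set R := fun σ => ∑ i, f (fld (G (a.succAbove i)) σ)
  have e : ∀ σ, Real.exp (∑ i, f (fld (G i) σ)) = Real.exp (f (fld (G a) σ)) * Real.exp (R σ) :=
    fun σ => by rw [Fin.sum_univ_succAbove _ a, Real.exp_add]
  have hS : 0 < ∑ σ, Real.exp (R σ) :=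
    Finset.sum_pos (fun σ _ => Real.exp_pos _) Finset.univ_nonempty
  have hN : 0 ≤ ∑ σ, Real.exp (R σ) * h σ :=
    Finset.sum_nonneg fun σ _ => mul_nonneg (Real.exp_pos _).le (h0 σ)
  have h1 : ∑ σ, Real.exp (∑ i, f (fld (G i) σ)) * h σ ≤
      Real.exp B * ∑ σ, Real.exp (R σ) * h σ := by
    rw [Finset.mul_sum]
    refine Finset.sum_le_sum fun σ _ => ?_
    rw [e, mul_assoc]
    exact mul_le_mul_of_nonneg_right (Real.exp_le_exp.2 (abs_le.1 (hB _)).2)
      (mul_nonneg (Real.exp_pos _).le (h0 σ))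
  have h2 : Real.exp (-B) * ∑ σ, Real.exp (R σ) ≤ ∑ σ, Real.exp (∑ i, f (fld (G i) σ)) := by
    rw [Finset.mul_sum]
    refine Finset.sum_le_sum fun σ _ => ?_
    rw [e]
    exact mul_le_mul_of_nonneg_right (Real.exp_le_exp.2 (abs_le.1 (hB _)).1) (Real.exp_pos _).le
  refine (div_le_div₀ (mul_nonneg (Real.exp_pos B).le hN) h1
    (mul_pos (Real.exp_pos _) hS) h2).trans_eq ?_
  simp only [gav]
  rw [mul_div_mul_comm, ← Real.exp_sub]
  simp only [R]
  ring_nf

theorem measurable_gav {f : ℝ → ℝ} (hf : Measurable f) {n m : ℕ}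
    {h : (Fin m → Fin n → ℝ) → (Fin n → Bool) → ℝ} (hh : ∀ σ, Measurable fun G => h G σ) :
    Measurable fun G : Fin m → Fin n → ℝ => gav f (h G) G := by
  have he : ∀ σ, Measurable fun G : Fin m → Fin n → ℝ => Real.exp (∑ i, f (fld (G i) σ)) :=
    fun σ => Real.measurable_exp.comp (Finset.measurable_sum _ fun i _ =>
      hf.comp ((measurable_fld σ).comp (measurable_pi_apply i)))
  exact (Finset.measurable_sum _ fun σ _ => (he σ).mul (hh σ)).div
    (Finset.measurable_sum _ fun σ _ => he σ)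

theorem abs_gav_le {f : ℝ → ℝ} {n m : ℕ} {h : (Fin n → Bool) → ℝ} {C : ℝ} (hC : ∀ σ, |h σ| ≤ C)
    (G : Fin m → Fin n → ℝ) : |gav f h G| ≤ C := by
  have hS : 0 < ∑ σ, Real.exp (∑ i, f (fld (G i) σ)) :=
    Finset.sum_pos (fun σ _ => Real.exp_pos _) Finset.univ_nonempty
  rw [gav, abs_div, abs_of_pos hS, div_le_iff₀ hS, Finset.mul_sum]
  refine (Finset.abs_sum_le_sum_abs _ _).trans (Finset.sum_le_sum fun σ _ => ?_)
  rw [abs_mul, Real.abs_exp, mul_comm]
  exact mul_le_mul_of_nonneg_right (hC σ) (Real.exp_pos _).le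

theorem integral_gav_one {f : ℝ → ℝ} (hf : Measurable f) {B : ℝ} (hB : ∀ x, |f x| ≤ B) {n m : ℕ}
    (hn : 0 < n) (a : Fin (m + 1)) {h : ℝ → ℝ} (hh : Measurable h) {C : ℝ} (h0 : ∀ x, 0 ≤ h x)
    (hC : ∀ x, h x ≤ C) :
    ∫ G, gav f (fun σ => h (fld (G a) σ)) G ∂pats n (m + 1) ≤
      Real.exp (2 * B) * ∫ x, h x ∂gm := by
  have habs : ∀ x, |h x| ≤ C := fun x => by rw [abs_of_nonneg (h0 x)]; exact hC x
  have hmp := measurePreserving_piFinSuccAbove (fun _ : Fin (m + 1) => gs n) a
  set Φ : (Fin n → ℝ) × (Fin m → Fin n → ℝ) → ℝ :=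
    fun z => gav f (fun σ => h (fld z.1 σ)) z.2 with hΦ
  have hΦm : Measurable Φ := by
    have he : ∀ σ, Measurable fun z : (Fin n → ℝ) × (Fin m → Fin n → ℝ) =>
        Real.exp (∑ i, f (fld (z.2 i) σ)) := fun σ => Real.measurable_exp.comp
      (Finset.measurable_sum _ fun i _ => hf.comp ((measurable_fld σ).comp
        ((measurable_pi_apply i).comp measurable_snd)))
    exact (Finset.measurable_sum _ fun σ _ => (he σ).mul
      (hh.comp ((measurable_fld σ).comp measurable_fst))).div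
      (Finset.measurable_sum _ fun σ _ => he σ)
  have hi : Integrable Φ ((gs n).prod (pats n m)) :=
    integrable_bdd hΦm fun z => abs_gav_le (fun σ => habs _) _
  have hiG : Integrable (fun G => gav f (fun σ => h (fld (G a) σ)) G) (pats n (m + 1)) :=
    integrable_bdd (measurable_gav hf fun σ => hh.comp ((measurable_fld σ).comp
      (measurable_pi_apply a))) fun G => abs_gav_le (fun σ => habs _) _
  have hmp' : MeasurePreserving (MeasurableEquiv.piFinSuccAbove (fun _ => Fin n → ℝ) a)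
      (pats n (m + 1)) ((gs n).prod (pats n m)) := hmp
  calc ∫ G, gav f (fun σ => h (fld (G a) σ)) G ∂pats n (m + 1)
      ≤ ∫ G, Real.exp (2 * B) * Φ (MeasurableEquiv.piFinSuccAbove (fun _ => Fin n → ℝ) a G)
          ∂pats n (m + 1) := by
        refine integral_mono hiG ((hmp'.integrable_comp_of_integrable hi).const_mul _) fun G => ?_
        exact gav_le hB a (fun σ => h0 _) G
    _ = Real.exp (2 * B) * ∫ z, Φ z ∂(gs n).prod (pats n m) := by
        rw [integral_const_mul, hmp'.integral_comp']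
    _ = Real.exp (2 * B) * ∫ x, h x ∂gm := by
        congr 1
        rw [integral_prod_symm _ hi]
        have e : ∀ G' : Fin m → Fin n → ℝ, ∫ g, Φ (g, G') ∂gs n = ∫ x, h x ∂gm := fun G' => by
          have hS : 0 < ∑ σ, Real.exp (∑ i, f (fld (G' i) σ)) :=
            Finset.sum_pos (fun σ _ => Real.exp_pos _) Finset.univ_nonempty
          simp only [hΦ, gav]
          have hi' : ∀ σ, Integrable (fun g : Fin n → ℝ => h (fld g σ)) (gs n) := fun σ =>
            integrable_bdd (hh.comp (measurable_fld σ)) fun g => habs _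
          rw [integral_div, integral_finsetSum _ fun σ _ => (hi' σ).const_mul _]
          simp only [integral_const_mul, integral_fld hn _ hh, ← Finset.sum_mul]
          rw [mul_comm, mul_div_assoc, div_self hS.ne', mul_one]
        simp [e]

theorem press_sub_le {f g : ℝ → ℝ} (hf : Measurable f) (hg : Measurable g) {B : ℝ}
    (hfB : ∀ x, |f x| ≤ B) (hgB : ∀ x, |g x| ≤ B) {n : ℕ} (hn : 0 < n) (m : ℕ) :
    press f n m - press g n m ≤ m * (Real.exp (2 * B) * ∫ x, |f x - g x| ∂gm) := by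
  set d := fun x => |f x - g x| with hd
  have hdm : Measurable d := (hf.sub hg).abs
  have hdC : ∀ x, d x ≤ 2 * B := fun x => by
    rw [hd]; linarith [abs_sub (f x) (g x), hfB x, hgB x]
  have hd0 : ∀ x, 0 ≤ d x := fun x => abs_nonneg _
  have hpt : ∀ G : Fin m → Fin n → ℝ,
      Real.log (((2 : ℝ) ^ n)⁻¹ * ∑ σ : Fin n → Bool, Real.exp (∑ i, f (fld (G i) σ))) -
        Real.log (((2 : ℝ) ^ n)⁻¹ * ∑ σ : Fin n → Bool, Real.exp (∑ i, g (fld (G i) σ))) ≤
      gav f (fun σ => ∑ a, d (fld (G a) σ)) G := fun G => by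
    have hSf : 0 < ∑ σ : Fin n → Bool, Real.exp (∑ i, f (fld (G i) σ)) :=
      Finset.sum_pos (fun σ _ => Real.exp_pos _) Finset.univ_nonempty
    have hSg : 0 < ∑ σ : Fin n → Bool, Real.exp (∑ i, g (fld (G i) σ)) :=
      Finset.sum_pos (fun σ _ => Real.exp_pos _) Finset.univ_nonempty
    rw [Real.log_mul (by positivity) hSf.ne', Real.log_mul (by positivity) hSg.ne',
      add_sub_add_left_eq_sub]
    set J := gav f (fun σ => ∑ a, d (fld (G a) σ)) G with hJ
    have key : Real.exp (-J) * ∑ σ, Real.exp (∑ i, f (fld (G i) σ)) ≤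
        ∑ σ : Fin n → Bool, Real.exp (∑ i, g (fld (G i) σ)) := by
      have e : ∑ σ, Real.exp (∑ i, f (fld (G i) σ)) * (∑ a, d (fld (G a) σ)) =
          J * ∑ σ, Real.exp (∑ i, f (fld (G i) σ)) := by
        rw [hJ, gav, div_mul_cancel₀ _ hSf.ne']
      calc Real.exp (-J) * ∑ σ, Real.exp (∑ i, f (fld (G i) σ))
          = ∑ σ, Real.exp (-J) * (Real.exp (∑ i, f (fld (G i) σ)) *
              (1 + J - ∑ a, d (fld (G a) σ))) := by
            rw [← Finset.mul_sum]
            congr 1
            simp only [mul_sub, mul_add, mul_one, Finset.sum_sub_distrib, Finset.sum_add_distrib,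
              ← Finset.sum_mul, e]
            ring
        _ ≤ _ := Finset.sum_le_sum fun σ _ => by
            have h1 := Real.add_one_le_exp (J - ∑ a, d (fld (G a) σ))
            have h2 := mul_le_mul_of_nonneg_left h1
              (mul_nonneg (Real.exp_pos (-J)).le (Real.exp_pos (∑ i, f (fld (G i) σ))).le)
            refine le_trans (le_of_eq (by ring)) (h2.trans ?_)
            rw [← Real.exp_add, ← Real.exp_add, Real.exp_le_exp]
            have : ∑ i, f (fld (G i) σ) - ∑ a, d (fld (G a) σ) ≤ ∑ i, g (fld (G i) σ) := by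
              rw [← Finset.sum_sub_distrib]
              exact Finset.sum_le_sum fun i _ => by
                simp only [hd]; linarith [le_abs_self (f (fld (G i) σ) - g (fld (G i) σ))]
            linarith
    have := Real.log_le_log (mul_pos (Real.exp_pos _) hSf) key
    rw [Real.log_mul (Real.exp_pos _).ne' hSf.ne', Real.log_exp] at this
    linarith
  rw [press, press, ← integral_sub (integrable_press hf hfB n m) (integrable_press hg hgB n m)]
  have hiJ : ∀ a, Integrable (fun G => gav f (fun σ => d (fld (G a) σ)) G) (pats n m) := fun a =>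
    integrable_bdd (measurable_gav hf fun σ => hdm.comp ((measurable_fld σ).comp
      (measurable_pi_apply a))) fun G => abs_gav_le (fun σ => by
        rw [abs_of_nonneg (hd0 _)]; exact hdC _) _
  have esum : ∀ G : Fin m → Fin n → ℝ, gav f (fun σ => ∑ a, d (fld (G a) σ)) G =
      ∑ a, gav f (fun σ => d (fld (G a) σ)) G := fun G => by
    simp only [gav, Finset.mul_sum]
    rw [Finset.sum_comm, Finset.sum_div]
  refine (integral_mono ((integrable_press hf hfB n m).sub (integrable_press hg hgB n m))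
    (integrable_finsetSum _ fun a _ => hiJ a) fun G => (hpt G).trans_eq (esum G)).trans ?_
  rw [integral_finsetSum _ fun a _ => hiJ a]
  refine (Finset.sum_le_sum (g := fun _ => Real.exp (2 * B) * ∫ x, d x ∂gm) fun a _ => ?_).trans_eq
    (by simp [hd])
  obtain ⟨k, rfl⟩ : ∃ k, m = k + 1 := ⟨m - 1, by have := a.pos; omega⟩
  exact integral_gav_one hf hfB hn a hdm hd0 hdC

/-- Smooth bounded potentials approximating a bounded measurable one in Gaussian mean. -/
theorem exists_pot {f : ℝ → ℝ} (hf : Measurable f) {B : ℝ} (hB : ∀ x, |f x| ≤ B) :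
    ∃ B' : ℝ, B ≤ B' ∧ ∀ ε > (0 : ℝ), ∃ P : Casc.Pot, (∀ x, |P.f x| ≤ B') ∧
      ∫ x, |P.f x - f x| ∂gm ≤ ε := by
  have hB0 : 0 ≤ B := (abs_nonneg _).trans (hB 0)
  set χ : ContDiffBump (0 : ℝ) := ⟨B + 1, B + 2, by linarith, by linarith⟩ with hχ
  set φ : ℝ → ℝ := fun x => x * χ x with hφ
  have hφc : ContDiff ℝ 3 φ := contDiff_id.mul χ.contDiff
  have hφs : HasCompactSupport φ := χ.hasCompactSupport.mul_left
  obtain ⟨C, hC⟩ := hφc.lipschitzWith_of_hasCompactSupport hφs (by norm_num)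
  have hφb : ∀ x, |φ x| ≤ B + 2 := fun x => by
    by_cases h : |x| < B + 2
    · rw [hφ, abs_mul, abs_of_nonneg χ.nonneg]
      exact (mul_le_of_le_one_right (abs_nonneg x) χ.le_one).trans h.le
    · rw [hφ]; dsimp only
      rw [χ.zero_of_le_dist (by rw [dist_zero_right, Real.norm_eq_abs]; exact not_lt.1 h)]
      simp; linarith
  have hφid : ∀ x, |x| ≤ B → φ x = x := fun x hx => by
    rw [hφ]; dsimp only
    rw [χ.one_of_mem_closedBall (mem_closedBall_zero_iff.2 (by
      rw [Real.norm_eq_abs]; show |x| ≤ B + 1; linarith)), mul_one]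
  refine ⟨B + 2, by linarith, fun ε hε => ?_⟩
  have hmem : MemLp f 1 gm := MemLp.of_bound hf.aestronglyMeasurable B
    (ae_of_all _ fun x => by rw [Real.norm_eq_abs]; exact hB x)
  obtain ⟨g, hgs, hgc, hge⟩ := hmem.exist_eLpNorm_sub_le ENNReal.one_ne_top le_rfl
    (ε := ε / ((C : ℝ) + 1)) (by positivity)
  have hg2 : ContDiff ℝ 3 g := hgc.of_le (WithTop.coe_le_coe.2 le_top)
  set u := fun x => φ (g x) with hu
  have hu3 : ContDiff ℝ 3 u := hφc.comp hg2
  have hus : HasCompactSupport u := hgs.comp_left (g := φ) (by simp [hφ])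
  have hd1 : ContDiff ℝ 2 (deriv u) := (contDiff_succ_iff_deriv (n := 2)).1 hu3 |>.2.2
  have hd2 : ContDiff ℝ 1 (deriv (deriv u)) := (contDiff_succ_iff_deriv (n := 1)).1 hd1 |>.2.2
  obtain ⟨b1, hb1⟩ := hd1.continuous.bounded_above_of_compact_support hus.deriv
  obtain ⟨b2, hb2⟩ := hd2.continuous.bounded_above_of_compact_support hus.deriv.deriv
  have hd3 : Continuous (deriv (deriv (deriv u))) := hd2.continuous_deriv le_rfl
  obtain ⟨b3, hb3⟩ := hd3.bounded_above_of_compact_support hus.deriv.deriv.deriv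
  refine ⟨{ f := u, f1 := deriv u, f2 := deriv (deriv u), f3 := deriv (deriv (deriv u)),
            bF := B + 2, b1 := b1, b2 := b2, b3 := b3,
            d1 := fun x => (hu3.differentiable (by norm_num)).differentiableAt.hasDerivAt,
            d2 := fun x => (hd1.differentiable (by norm_num)).differentiableAt.hasDerivAt,
            d3 := fun x => (hd2.differentiable one_ne_zero).differentiableAt.hasDerivAt,
            c2 := hd2.continuous, c3 := hd3, hF := fun x => hφb _,
            h1 := fun x => by simpa [Real.norm_eq_abs] using hb1 x,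
            h2 := fun x => by simpa [Real.norm_eq_abs] using hb2 x,
            h3 := fun x => by simpa [Real.norm_eq_abs] using hb3 x }, fun x => hφb _, ?_⟩
  have hgi : Integrable g gm := hgc.continuous.integrable_of_hasCompactSupport hgs
  have hfi : Integrable f gm := integrable_bdd hf hB
  have h1 : ∫ x, |f x - g x| ∂gm ≤ ε / ((C : ℝ) + 1) := by
    have h := hge
    rw [eLpNorm_one_eq_lintegral_enorm] at h
    have h2 : ∫⁻ x, ‖(f - g) x‖ₑ ∂gm = ENNReal.ofReal (∫ x, ‖(f - g) x‖ ∂gm) :=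
      (ofReal_integral_norm_eq_lintegral_enorm (hfi.sub hgi)).symm
    rw [h2, ENNReal.ofReal_le_ofReal_iff (by positivity)] at h
    simpa [Real.norm_eq_abs] using h
  calc ∫ x, |u x - f x| ∂gm ≤ ∫ x, ((C : ℝ) + 1) * |f x - g x| ∂gm := by
        refine integral_mono ?_ ((hfi.sub hgi).abs.const_mul _) fun x => ?_
        · exact ((hu3.continuous.integrable_of_hasCompactSupport hus).sub hfi).abs
        · have h := hC.dist_le_mul (g x) (f x)
          rw [Real.dist_eq, Real.dist_eq, hφid _ (hB x), abs_sub_comm (g x)] at h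
          simp only [hu]
          nlinarith [abs_nonneg (f x - g x)]
    _ ≤ ε := by
        rw [integral_const_mul]
        exact (mul_le_mul_of_nonneg_left h1 (by positivity)).trans_eq (by field_simp)

/-- From smooth bounded potentials to bounded Borel potentials. -/
theorem tendsto_borel {α : ℝ} (hα : 0 ≤ α)
    (hP : ∀ P : Casc.Pot, ∃ ℓ : ℝ,
      Tendsto (fun N : ℕ => press P.f N ⌊α * N⌋₊ / N) atTop (𝓝 ℓ) ∧
      Tendsto (fun K => Casc.val K α P.f) atTop (𝓝 (ℓ : EReal)))
    {f : ℝ → ℝ} (hf : Measurable f) {B : ℝ} (hB : ∀ x, |f x| ≤ B) :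
    ∃ ℓ : ℝ, Tendsto (fun N : ℕ => press f N ⌊α * N⌋₊ / N) atTop (𝓝 ℓ) ∧
      Tendsto (fun K => Casc.val K α f) atTop (𝓝 (ℓ : EReal)) := by
  obtain ⟨B', hBB, happ⟩ := exists_pot hf hB
  have hfB' : ∀ x, |f x| ≤ B' := fun x => (hB x).trans hBB
  have hE := Real.exp_pos (3 * B')
  have happ' : ∀ ε > (0 : ℝ), ∃ P : Casc.Pot, (∀ x, |P.f x| ≤ B') ∧ ∃ ℓ : ℝ,
      Tendsto (fun N : ℕ => press P.f N ⌊α * N⌋₊ / N) atTop (𝓝 ℓ) ∧
      Tendsto (fun K => Casc.val K α P.f) atTop (𝓝 (ℓ : EReal)) ∧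
      (∀ N : ℕ, |press f N ⌊α * N⌋₊ / N - press P.f N ⌊α * N⌋₊ / N| ≤ ε) ∧
      (∀ K, Casc.val K α f ≤ Casc.val K α P.f + (ε : EReal)) ∧
      ∀ K, Casc.val K α P.f ≤ Casc.val K α f + (ε : EReal) := by
    intro ε hε
    obtain ⟨P, hPB, hPi⟩ := happ (ε / ((α + 1) * Real.exp (3 * B'))) (by positivity)
    have hPm : Measurable P.f :=
      (continuous_iff_continuousAt.2 fun x => (P.d1 x).continuousAt).measurable
    obtain ⟨ℓ, h1, h2⟩ := hP P
    set I := ∫ x, |P.f x - f x| ∂gm with hI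
    have hI0 : 0 ≤ I := integral_nonneg fun _ => abs_nonneg _
    have hI' : ∫ x, |f x - P.f x| ∂gm = I := by simp only [hI, abs_sub_comm (f _)]
    have hmain : (α + 1) * (Real.exp (3 * B') * I) ≤ ε := by
      rw [le_div_iff₀ (by positivity)] at hPi
      linarith
    have hsmall : α * (Real.exp (3 * B') * I) ≤ ε :=
      le_trans (mul_le_mul_of_nonneg_right (by linarith) (by positivity)) hmain
    refine ⟨P, hPB, ℓ, h1, h2, fun N => ?_, fun K => ?_, fun K => ?_⟩
    · rcases Nat.eq_zero_or_pos N with rfl | hN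
      · simp; linarith
      have hN' : (0 : ℝ) < N := by exact_mod_cast hN
      have h1 := press_sub_le hf hPm hfB' hPB hN ⌊α * N⌋₊
      have h2 := press_sub_le hPm hf hPB hfB' hN ⌊α * N⌋₊
      rw [hI'] at h1
      rw [← hI] at h2
      have hM := Nat.floor_le (show 0 ≤ α * (N : ℝ) by positivity)
      have hexp : Real.exp (2 * B') ≤ Real.exp (3 * B') :=
        Real.exp_le_exp.2 (by linarith [(abs_nonneg _).trans (hfB' 0)])
      have hb : (⌊α * N⌋₊ : ℝ) * (Real.exp (2 * B') * I) ≤ ε * N := by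
        refine (mul_le_mul hM (mul_le_mul_of_nonneg_right hexp hI0) (by positivity)
          (by positivity)).trans ?_
        rw [mul_right_comm]
        exact mul_le_mul_of_nonneg_right hsmall hN'.le
      rw [div_sub_div_same, abs_div, abs_of_pos hN', div_le_iff₀ hN', abs_le]
      constructor <;> linarith
    · refine (Casc.val_le_add hα hf hPm hfB' hPB).trans (add_le_add_right ?_ _)
      rw [hI']
      exact EReal.coe_le_coe_iff.2 hsmall
    · refine (Casc.val_le_add hα hPm hf hPB hfB').trans (add_le_add_right ?_ _)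
      exact EReal.coe_le_coe_iff.2 hsmall
  have hc : CauchySeq fun N : ℕ => press f N ⌊α * N⌋₊ / N := by
    refine Metric.cauchySeq_iff'.2 fun ε hε => ?_
    obtain ⟨P, -, ℓ, h1, -, hN, -, -⟩ := happ' (ε / 4) (by linarith)
    obtain ⟨N0, hN0⟩ := Metric.tendsto_atTop.1 h1 (ε / 8) (by linarith)
    refine ⟨N0, fun n hn => ?_⟩
    have a := hN0 n hn
    have b := hN0 N0 le_rfl
    have c := hN n
    have d := hN N0
    rw [Real.dist_eq, abs_lt] at a b ⊢
    rw [abs_le] at c d
    constructor <;> linarith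
  obtain ⟨L, hL⟩ := cauchySeq_tendsto_of_complete hc
  refine ⟨L, hL, ?_⟩
  have key : ∀ ε > (0 : ℝ), ∀ᶠ K in atTop,
      ((L - ε : ℝ) : EReal) ≤ Casc.val K α f ∧ Casc.val K α f ≤ ((L + ε : ℝ) : EReal) := by
    intro ε hε
    obtain ⟨P, -, ℓ, h1, h2, hN, hu, hl⟩ := happ' (ε / 4) (by linarith)
    have hdiff : |L - ℓ| ≤ ε / 4 := le_of_tendsto' (hL.sub h1).abs hN
    rw [abs_le] at hdiff
    filter_upwards [(tendsto_order.1 h2).1 ((ℓ - ε / 4 : ℝ) : EReal)
      (EReal.coe_lt_coe_iff.2 (by linarith)), (tendsto_order.1 h2).2 ((ℓ + ε / 4 : ℝ) : EReal)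
      (EReal.coe_lt_coe_iff.2 (by linarith))] with K hK1 hK2
    constructor
    · have h := hK1.le.trans (hl K)
      refine (EReal.addLECancellable_coe (ε / 4)).add_le_add_iff_right.1 (le_trans ?_ h)
      rw [← EReal.coe_add]
      exact EReal.coe_le_coe_iff.2 (by linarith)
    · refine (hu K).trans ((add_le_add hK2.le le_rfl).trans ?_)
      rw [← EReal.coe_add]
      exact EReal.coe_le_coe_iff.2 (by linarith)
  rw [tendsto_order]
  constructor
  · intro a ha
    obtain ⟨r, har, hr⟩ := EReal.exists_between_coe_real ha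
    filter_upwards [key (L - r) (by have := EReal.coe_lt_coe_iff.1 hr; linarith)] with K hK
    rw [sub_sub_cancel] at hK
    exact har.trans_le hK.1
  · intro a ha
    obtain ⟨r, hr, hra⟩ := EReal.exists_between_coe_real ha
    filter_upwards [key (r - L) (by have := EReal.coe_lt_coe_iff.1 hr; linarith)] with K hK
    rw [add_sub_cancel] at hK
    exact hK.2.trans_lt hra

end Vale.Agent.P157.Formula
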