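import Vale.Agent.P157.Formula.Borel

/-!
P157, formula: the value with a bound on the spin path, from smooth potentials to all bounded
Borel potentials.
-/

open MeasureTheory ProbabilityTheory Filter Topology Set Function

namespace Vale.Agent.P157.Formula

/-- `L¹` stability of the bounded value, uniformly in the levels and the bound. -/
theorem valL_le_add {K : ℕ} {L α : ℝ} (hα : 0 ≤ α) {f g : ℝ → ℝ} (hf : Measurable f)
    (hg : Measurable g) {B : ℝ} (hfB : ∀ x, |f x| ≤ B) (hgB : ∀ x, |g x| ≤ B) :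
    Casc.valL K L α f ≤ Casc.valL K L α g
      + ((α * (Real.exp (3 * B) * ∫ x, |f x - g x| ∂gm) : ℝ) : EReal) := by
  set δ := α * (Real.exp (3 * B) * ∫ x, |f x - g x| ∂gm)
  have h : ∀ q ∈ Casc.pathsQ K, ∀ p : Fin (K + 1) → ℝ,
      Casc.pfun Casc.psiI α f p q ≤ Casc.pfun Casc.psiI α g p q + δ :=
    fun q hq p => by
      have := mul_le_mul_of_nonneg_left
        (le_abs_self _ |>.trans (psiF_sub_le hf hg hfB hgB hq)) hα
      simp only [Casc.pfun]
      linarith [mul_sub α (Casc.psiF f q) (Casc.psiF g q)]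
  refine EReal.le_add_of_forall_gt (Or.inr (EReal.coe_ne_top _)) (Or.inr (EReal.coe_ne_bot _))
    fun a ha b hb => ?_
  simp only [Casc.valL, gt_iff_lt, iInf_lt_iff] at ha
  obtain ⟨q, hq, hlt⟩ := ha
  refine (iInf₂_le q hq).trans (iSup₂_le fun p hp => ?_)
  calc ((Casc.pfun Casc.psiI α f p q : ℝ) : EReal)
      ≤ ((Casc.pfun Casc.psiI α g p q + δ : ℝ) : EReal) := EReal.coe_le_coe_iff.2 (h q hq p)
    _ = ((Casc.pfun Casc.psiI α g p q : ℝ) : EReal) + (δ : EReal) := EReal.coe_add _ _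
    _ ≤ a + b := add_le_add ((le_iSup₂_of_le p hp le_rfl).trans hlt.le) hb.le

/-- From smooth bounded potentials to bounded Borel potentials, with the bound on the spin path. -/
theorem tendsto_borel_valL {α : ℝ} (hα : 0 ≤ α)
    (hP : ∀ P : Casc.Pot, ∃ ℓ : ℝ,
      Tendsto (fun N : ℕ => press P.f N ⌊α * N⌋₊ / N) atTop (𝓝 ℓ) ∧
      ∀ ε > (0 : ℝ), ∀ᶠ L in atTop, ∀ᶠ K in atTop,
        ((ℓ - ε : ℝ) : EReal) ≤ Casc.valL K L α P.f ∧
          Casc.valL K L α P.f ≤ ((ℓ + ε : ℝ) : EReal))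
    {f : ℝ → ℝ} (hf : Measurable f) {B : ℝ} (hB : ∀ x, |f x| ≤ B) :
    ∃ ℓ : ℝ, Tendsto (fun N : ℕ => press f N ⌊α * N⌋₊ / N) atTop (𝓝 ℓ) ∧
      ∀ ε > (0 : ℝ), ∀ᶠ L in atTop, ∀ᶠ K in atTop,
        ((ℓ - ε : ℝ) : EReal) ≤ Casc.valL K L α f ∧
          Casc.valL K L α f ≤ ((ℓ + ε : ℝ) : EReal) := by
  obtain ⟨B', hBB, happ⟩ := exists_pot hf hB
  have hfB' : ∀ x, |f x| ≤ B' := fun x => (hB x).trans hBB
  have hE := Real.exp_pos (3 * B')
  have happ' : ∀ ε > (0 : ℝ), ∃ P : Casc.Pot, ∃ ℓ : ℝ,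
      Tendsto (fun N : ℕ => press P.f N ⌊α * N⌋₊ / N) atTop (𝓝 ℓ) ∧
      (∀ δ > (0 : ℝ), ∀ᶠ L in atTop, ∀ᶠ K in atTop,
        ((ℓ - δ : ℝ) : EReal) ≤ Casc.valL K L α P.f ∧
          Casc.valL K L α P.f ≤ ((ℓ + δ : ℝ) : EReal)) ∧
      (∀ N : ℕ, |press f N ⌊α * N⌋₊ / N - press P.f N ⌊α * N⌋₊ / N| ≤ ε) ∧
      (∀ K L, Casc.valL K L α f ≤ Casc.valL K L α P.f + (ε : EReal)) ∧
      ∀ K L, Casc.valL K L α P.f ≤ Casc.valL K L α f + (ε : EReal) := by
    intro ε hε
    obtain ⟨P, hPB, hPi⟩ := happ (ε / ((α + 1) * Real.exp (3 * B'))) (by positivity)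
    have hPm : Measurable P.f :=
      (continuous_iff_continuousAt.2 fun x => (P.d1 x).continuousAt).measurable
    obtain ⟨ℓ, h1, h2⟩ := hP P
    set I := ∫ x, |P.f x - f x| ∂gm with hI
    have hI0 : 0 ≤ I := integral_nonneg fun _ => abs_nonneg _
    have hI' : ∫ x, |f x - P.f x| ∂gm = I := by simp only [hI, abs_sub_comm (f _)]
    have hmain : (α + 1) * (Real.exp (3 * B') * I) ≤ ε := by
      rw [le_div_iff₀ (by positivity)] at hPi
      linarith
    have hsmall : α * (Real.exp (3 * B') * I) ≤ ε :=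
      le_trans (mul_le_mul_of_nonneg_right (by linarith) (by positivity)) hmain
    refine ⟨P, ℓ, h1, h2, fun N => ?_, fun K L => ?_, fun K L => ?_⟩
    · rcases Nat.eq_zero_or_pos N with rfl | hN
      · simp; linarith
      have hN' : (0 : ℝ) < N := by exact_mod_cast hN
      have h1 := press_sub_le hf hPm hfB' hPB hN ⌊α * N⌋₊
      have h2 := press_sub_le hPm hf hPB hfB' hN ⌊α * N⌋₊
      rw [hI'] at h1
      rw [← hI] at h2
      have hM := Nat.floor_le (show 0 ≤ α * (N : ℝ) by positivity)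
      have hexp : Real.exp (2 * B') ≤ Real.exp (3 * B') :=
        Real.exp_le_exp.2 (by linarith [(abs_nonneg _).trans (hfB' 0)])
      have hb : (⌊α * N⌋₊ : ℝ) * (Real.exp (2 * B') * I) ≤ ε * N := by
        refine (mul_le_mul hM (mul_le_mul_of_nonneg_right hexp hI0) (by positivity)
          (by positivity)).trans ?_
        rw [mul_right_comm]
        exact mul_le_mul_of_nonneg_right hsmall hN'.le
      rw [div_sub_div_same, abs_div, abs_of_pos hN', div_le_iff₀ hN', abs_le]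
      constructor <;> linarith
    · refine (valL_le_add hα hf hPm hfB' hPB).trans (add_le_add_right ?_ _)
      rw [hI']
      exact EReal.coe_le_coe_iff.2 hsmall
    · refine (valL_le_add hα hPm hf hPB hfB').trans (add_le_add_right ?_ _)
      exact EReal.coe_le_coe_iff.2 hsmall
  have hc : CauchySeq fun N : ℕ => press f N ⌊α * N⌋₊ / N := by
    refine Metric.cauchySeq_iff'.2 fun ε hε => ?_
    obtain ⟨P, ℓ, h1, -, hN, -, -⟩ := happ' (ε / 4) (by linarith)
    obtain ⟨N0, hN0⟩ := Metric.tendsto_atTop.1 h1 (ε / 8) (by linarith)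
    refine ⟨N0, fun n hn => ?_⟩
    have a := hN0 n hn
    have b := hN0 N0 le_rfl
    have c := hN n
    have d := hN N0
    rw [Real.dist_eq, abs_lt] at a b ⊢
    rw [abs_le] at c d
    constructor <;> linarith
  obtain ⟨l, hl⟩ := cauchySeq_tendsto_of_complete hc
  refine ⟨l, hl, fun ε hε => ?_⟩
  obtain ⟨P, ℓ, h1, h2, hN, hu, hlo⟩ := happ' (ε / 4) (by linarith)
  have hdiff : |l - ℓ| ≤ ε / 4 := le_of_tendsto' (hl.sub h1).abs hN
  rw [abs_le] at hdiff
  filter_upwards [h2 (ε / 4) (by linarith)] with L hL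
  filter_upwards [hL] with K hK
  constructor
  · refine (EReal.addLECancellable_coe (ε / 4)).add_le_add_iff_right.1
      (le_trans ?_ (hK.1.trans (hlo K L)))
    rw [← EReal.coe_add]
    exact EReal.coe_le_coe_iff.2 (by linarith)
  · refine (hu K L).trans ((add_le_add hK.2 le_rfl).trans ?_)
    rw [← EReal.coe_add]
    exact EReal.coe_le_coe_iff.2 (by linarith)

end Vale.Agent.P157.Formula
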