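import Vale.Agent.P157.Formula.Cont

/-!
P157, formula: the spin functional is concave on paths.
-/

open Filter Topology Set Function

namespace Vale.Agent.P157.Formula

variable {K : ℕ}

/-- Entries from `k` on from `a`, the others from `b`. -/
def hyb (k : ℕ) (a b : Fin K → ℝ) : Fin K → ℝ := fun i => if k ≤ (i : ℕ) then a i else b i

theorem hyb_zero (a b : Fin K → ℝ) : hyb 0 a b = a := funext fun i => if_pos i.1.zero_le

theorem hyb_top (a b : Fin K → ℝ) : hyb K a b = b := funext fun i => if_neg i.2.not_ge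

theorem hyb_succ (a b : Fin K → ℝ) (k : ℕ) (hk : k < K) :
    hyb k a b = update (hyb (k + 1) a b) ⟨k, hk⟩ (a ⟨k, hk⟩) := by
  funext i
  rcases eq_or_ne i ⟨k, hk⟩ with rfl | h
  · simp [hyb]
  · have : (i : ℕ) ≠ k := fun e => h (Fin.ext e)
    rw [update_of_ne h]
    simp only [hyb]
    by_cases hi : k ≤ (i : ℕ)
    · rw [if_pos hi, if_pos (by omega)]
    · rw [if_neg hi, if_neg (by omega)]

theorem hyb_mem {a b : Fin K → ℝ} (ha : a ∈ Path K) (hb : b ∈ Path K) (h : ∀ i, b i ≤ a i)
    (k : ℕ) : hyb k a b ∈ Path K := by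
  refine ⟨fun i j hij => ?_, fun i => ?_⟩
  · have hij' : (i : ℕ) ≤ j := hij
    simp only [hyb]
    split <;> split
    · exact ha.1 hij
    · omega
    · exact (h i).trans (ha.1 hij)
    · exact hb.1 hij
  · simp only [hyb]; split <;> [exact ha.2 i; exact hb.2 i]

theorem hyb_le {a b a' b' : Fin K → ℝ} (ha : ∀ i, a i ≤ a' i) (hb : ∀ i, b i ≤ b' i) (k : ℕ)
    (i : Fin K) : hyb k a b i ≤ hyb k a' b' i := by
  simp only [hyb]; split <;> [exact ha i; exact hb i]

theorem hyb_update (a b : Fin K → ℝ) (k : ℕ) (r : Fin K) (v : ℝ) :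
    hyb k (update a r v) (update b r v) = update (hyb k a b) r v := by
  funext i
  rcases eq_or_ne i r with rfl | h
  · simp [hyb]
  · simp [hyb, update_of_ne h]

/-- An increment in one entry grows with the other entries. -/
theorem incr_mono {z z' : Fin K → ℝ} (hz : z ∈ Path K) (hz' : z' ∈ Path K) (h : ∀ i, z i ≤ z' i)
    (r : Fin K) (e : z r = z' r) {δ : ℝ} (hδ : 0 ≤ δ) (hzu : update z r (z r + δ) ∈ Path K)
    (hzu' : update z' r (z r + δ) ∈ Path K) :
    psi (update z r (z r + δ)) - psi z ≤ psi (update z' r (z r + δ)) - psi z' := by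
  have hu : ∀ i, update z r (z r + δ) i ≤ update z' r (z r + δ) i := fun i => by
    rcases eq_or_ne i r with rfl | hi <;> simp [*]
  have key : ∀ j, j ≤ K → psi (update z r (z r + δ)) - psi z ≤
      psi (update (hyb j z' z) r (z r + δ)) - psi (hyb j z' z) := fun j hj => by
    induction hj using Nat.decreasingInduction with
    | self => rw [hyb_top]
    | of_succ j hj ih =>
      refine ih.trans ?_
      set w := hyb (j + 1) z' z with hw
      rw [hyb_succ z' z j hj, ← hw]
      have hwr : w r = z r := by simp only [hw, hyb]; split <;> [exact e.symm; rfl]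
      rcases eq_or_ne r ⟨j, hj⟩ with rfl | hne
      · rw [← e, ← hwr, update_eq_self]
      · have hwj : w ⟨j, hj⟩ = z ⟨j, hj⟩ := by simp [hw, hyb]
        have hε : 0 ≤ z' ⟨j, hj⟩ - z ⟨j, hj⟩ := sub_nonneg.2 (h _)
        have hm1 : w ∈ Path K := hyb_mem hz' hz h _
        have hm2 : update w r (w r + δ) ∈ Path K := by
          rw [hwr, hw, ← hyb_update]; exact hyb_mem hzu' hzu hu _
        have hm3 : update w ⟨j, hj⟩ (w ⟨j, hj⟩ + (z' ⟨j, hj⟩ - z ⟨j, hj⟩)) ∈ Path K := by
          rw [hwj, add_sub_cancel, hw, ← hyb_succ z' z j hj]; exact hyb_mem hz' hz h _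
        have := psi_square hne hδ hε hm1 hm2 hm3
        rw [hwj, add_sub_cancel, hwr] at this
        linarith
  simpa [hyb_zero] using key 0 (Nat.zero_le _)

theorem inf_mem {a b : Fin K → ℝ} (ha : a ∈ Path K) (hb : b ∈ Path K) :
    (fun i => min (a i) (b i)) ∈ Path K :=
  ⟨fun _ _ h => min_le_min (ha.1 h) (hb.1 h), fun i => le_min (ha.2 i) (hb.2 i)⟩

theorem sup_mem {a b : Fin K → ℝ} (ha : Monotone a) (hb : b ∈ Path K) :
    (fun i => max (a i) (b i)) ∈ Path K :=
  ⟨fun _ _ h => max_le_max (ha h) (hb.1 h), fun i => (hb.2 i).trans (le_max_right _ _)⟩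

theorem psi_supermod {a b : Fin K → ℝ} (ha : a ∈ Path K) (hb : b ∈ Path K) :
    psi a + psi b ≤ psi (fun i => max (a i) (b i)) + psi (fun i => min (a i) (b i)) := by
  set M := fun i => max (a i) (b i) with hM
  set m := fun i => min (a i) (b i) with hm
  have hma : ∀ i, m i ≤ a i := fun i => min_le_left _ _
  have hbM : ∀ i, b i ≤ M i := fun i => le_max_right _ _
  have key : ∀ j, j ≤ K → psi (hyb j a m) - psi m ≤ psi (hyb j M b) - psi b := fun j hj => by
    induction hj using Nat.decreasingInduction with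
    | self => rw [hyb_top, hyb_top]; simp
    | of_succ j hj ih =>
      have hs := hyb_succ a m j hj
      have hs' := hyb_succ M b j hj
      set z := hyb (j + 1) a m with hzdef
      set z' := hyb (j + 1) M b with hzdef'
      set k : Fin K := ⟨j, hj⟩
      have hzk : z k = m k := by simp [hzdef, hyb, k]
      have hzk' : z' k = b k := by simp [hzdef', hyb, k]
      rcases le_total (a k) (b k) with hab | hab
      · have h1 : a k = z k := by rw [hzk, hm]; exact (min_eq_left hab).symm
        have h2 : M k = z' k := by rw [hzk', hM]; exact max_eq_right hab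
        rw [hs, hs', h1, h2, update_eq_self, update_eq_self]
        exact ih
      · have hmk : m k = b k := min_eq_right hab
        have hMk : M k = a k := max_eq_left hab
        rw [hs, hs', hMk]
        have h1 : z k + (a k - b k) = a k := by rw [hzk, hmk]; ring
        have hp := hyb_mem ha (inf_mem ha hb) hma j
        have hp' := hyb_mem (sup_mem ha.1 hb) hb hbM j
        rw [hs] at hp
        rw [hs', hMk] at hp'
        have := incr_mono (z := z) (z' := z') (hyb_mem ha (inf_mem ha hb) hma _)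
          (hyb_mem (sup_mem ha.1 hb) hb hbM _)
          (hyb_le (fun i => le_max_left _ _) (fun i => min_le_right _ _) _) k
          (by rw [hzk, hzk', hmk]) (sub_nonneg.2 hab) (by rwa [h1]) (by rwa [h1])
        rw [h1] at this
        linarith
  have := key 0 (Nat.zero_le _)
  rw [hyb_zero, hyb_zero] at this
  linarith

theorem shift_mem {u : Fin K → ℝ} (hu : u ∈ Path K) {c : ℝ} (hc : 0 ≤ c) :
    (fun i => u i + c) ∈ Path K :=
  ⟨fun _ _ h => by linarith [hu.1 h], fun i => add_nonneg (hu.2 i) hc⟩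

theorem psi_shift {u v : Fin K → ℝ} (hu : u ∈ Path K) (hv : v ∈ Path K) (h : ∀ i, u i ≤ v i)
    {c : ℝ} (hc : 0 ≤ c) :
    psi (fun i => v i + c) - psi (fun i => u i + c) ≤ psi v - psi u := by
  have key : ∀ j, j ≤ K →
      psi (fun i => hyb j v u i + c) - psi (fun i => u i + c) ≤ psi (hyb j v u) - psi u :=
    fun j hj => by
    induction hj using Nat.decreasingInduction with
    | self => rw [hyb_top]; simp
    | of_succ j hj ih =>
      have hp := hyb_mem hv hu h j
      have hs := hyb_succ v u j hj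
      set w := hyb (j + 1) v u with hw
      set k : Fin K := ⟨j, hj⟩
      rw [hs] at hp ⊢
      have e : w k + (v k - u k) = v k := by simp [hw, hyb, k]
      have := psi_diag (p := w) (r := k) (sub_nonneg.2 (h k)) hc (hyb_mem hv hu h _) (by rwa [e])
      rw [e] at this
      linarith
  simpa [hyb_zero] using key 0 (Nat.zero_le _)

theorem psi_lnat {x y : Fin K → ℝ} (hx : x ∈ Path K) (hy : y ∈ Path K) {c : ℝ} (hc : 0 ≤ c) :
    psi x + psi y ≤
      psi (fun i => max (x i - c) (y i)) + psi (fun i => min (x i) (y i + c)) := by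
  have h1 := psi_supermod hx (shift_mem hy hc)
  have h2 := psi_shift hy (sup_mem (a := fun i => x i - c) (fun _ _ h => by linarith [hx.1 h]) hy)
    (fun i => le_max_right _ _) hc
  have e : (fun i => max (x i - c) (y i) + c) = fun i => max (x i) (y i + c) :=
    funext fun i => by rw [← max_add_add_right, sub_add_cancel]
  rw [e] at h2
  linarith

theorem halve {x y : Fin K → ℝ} (hx : x ∈ Path K) (hy : y ∈ Path K) {P N : ℝ} (hP : 0 ≤ P)
    (h1 : ∀ i, x i - y i ≤ P) (h2 : ∀ i, y i - x i ≤ N) :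
    ∃ x' y' : Fin K → ℝ, x' ∈ Path K ∧ y' ∈ Path K ∧ psi x + psi y ≤ psi x' + psi y' ∧
      (∀ i, x' i + y' i = x i + y i) ∧ (∀ i, x' i - y' i ≤ max N 0) ∧ ∀ i, y' i - x' i ≤ P / 2 := by
  refine ⟨fun i => max (x i - P / 2) (y i), fun i => min (x i) (y i + P / 2),
    sup_mem (fun _ _ h => by linarith [hx.1 h]) hy,
    inf_mem hx (shift_mem hy (by linarith)), psi_lnat hx hy (by linarith), fun i => ?_, fun i => ?_,
    fun i => ?_⟩
  all_goals
    simp only
    rcases le_total (y i) (x i - P / 2) with h | h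
    · rw [max_eq_left h, min_eq_right (by linarith)]
      linarith [h1 i, h2 i, le_max_right N 0, le_max_left N 0]
    · rw [max_eq_right h, min_eq_left (by linarith)]
      linarith [h1 i, h2 i, le_max_right N 0, le_max_left N 0]

theorem psi_midpoint {x y : Fin K → ℝ} (hx : x ∈ Path K) (hy : y ∈ Path K) :
    psi x + psi y ≤ 2 * psi (fun i => (x i + y i) / 2) := by
  set M := ∑ i, |x i - y i| with hM
  have hM0 : 0 ≤ M := Finset.sum_nonneg fun i _ => abs_nonneg _
  have key : ∀ n : ℕ, ∃ x' y' : Fin K → ℝ, x' ∈ Path K ∧ y' ∈ Path K ∧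
      psi x + psi y ≤ psi x' + psi y' ∧ (∀ i, x' i + y' i = x i + y i) ∧
      (∀ i, |x' i - y' i| ≤ M * (1 / 2) ^ n) := by
    intro n
    induction n with
    | zero =>
      refine ⟨x, y, hx, hy, le_rfl, fun i => rfl, fun i => ?_⟩
      simpa using Finset.single_le_sum (f := fun i => |x i - y i|) (fun i _ => abs_nonneg _)
        (Finset.mem_univ i)
    | succ n ih =>
      obtain ⟨a, b, ha, hb, h, hs, hd⟩ := ih
      have hQ : 0 ≤ M * (1 / 2) ^ n := by positivity
      obtain ⟨a1, b1, ha1, hb1, h', hs', u1, v1⟩ := halve ha hb (N := M * (1 / 2) ^ n) hQ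
        (fun i => (le_abs_self _).trans (hd i)) fun i => by linarith [neg_abs_le (a i - b i), hd i]
      obtain ⟨a2, b2, ha2, hb2, h'', hs'', u2, v2⟩ := halve ha1 hb1 (le_max_right _ _) u1 v1
      refine ⟨a2, b2, ha2, hb2, by linarith, fun i => by rw [hs'', hs', hs], fun i => ?_⟩
      rw [pow_succ, abs_le]
      have e1 : max (M * (1 / 2) ^ n) 0 = M * (1 / 2) ^ n := max_eq_left hQ
      have := v2 i
      rw [e1] at this
      have := u2 i
      rw [max_eq_left (by linarith : (0 : ℝ) ≤ M * (1 / 2) ^ n / 2)] at this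
      constructor <;> linarith
  choose a b _ _ h hs hd using key
  set z := fun i => (x i + y i) / 2
  have h0 : Tendsto (fun n : ℕ => M * (1 / 2 : ℝ) ^ n) atTop (𝓝 0) := by
    simpa using (tendsto_pow_atTop_nhds_zero_of_lt_one (by norm_num : (0 : ℝ) ≤ 1 / 2)
      (by norm_num)).const_mul M
  have hd0 : ∀ i, Tendsto (fun n => (a n i - b n i) / 2) atTop (𝓝 0) := fun i =>
    squeeze_zero_norm (fun n => by
      rw [Real.norm_eq_abs, abs_div, abs_two]; linarith [hd n i, abs_nonneg (a n i - b n i)]) h0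
  have ta : Tendsto a atTop (𝓝 z) := tendsto_pi_nhds.2 fun i => by
    have := (hd0 i).const_add (z i)
    rw [add_zero] at this
    exact this.congr fun n => by simp only [z]; linarith [hs n i]
  have tb : Tendsto b atTop (𝓝 z) := tendsto_pi_nhds.2 fun i => by
    have := (hd0 i).const_sub (z i)
    rw [sub_zero] at this
    exact this.congr fun n => by simp only [z]; linarith [hs n i]
  have := le_of_tendsto_of_tendsto' tendsto_const_nhds
    (((continuous_psi.tendsto z).comp ta).add ((continuous_psi.tendsto z).comp tb)) h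
  linarith

theorem convex_path : Convex ℝ (Path K) := fun _ hx _ hy _ _ hθ hφ _ =>
  ⟨fun _ _ h => add_le_add (mul_le_mul_of_nonneg_left (hx.1 h) hθ)
    (mul_le_mul_of_nonneg_left (hy.1 h) hφ),
    fun i => add_nonneg (mul_nonneg hθ (hx.2 i)) (mul_nonneg hφ (hy.2 i))⟩

/-- The spin functional is concave on nondecreasing nonnegative paths. -/
theorem psi_concave : ConcaveOn ℝ (Path K) psi := by
  refine ⟨convex_path, fun x hx y hy θ φ hθ hφ hθφ => ?_⟩
  set g : ℝ → ℝ := fun t => psi (fun i => (1 - t) * x i + t * y i) - ((1 - t) * psi x + t * psi y)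
    with hg
  have hc : Continuous g := by
    refine (continuous_psi.comp (continuous_pi fun i => ?_)).sub ?_ <;> fun_prop
  suffices H : ∀ t ∈ Icc (0 : ℝ) 1, 0 ≤ g t by
    have := H φ ⟨hφ, by linarith⟩
    rw [hg] at this
    simp only [show 1 - φ = θ by linarith] at this
    simp only [smul_eq_mul]
    exact (sub_nonneg.1 this).trans_eq rfl
  by_contra hneg
  push Not at hneg
  obtain ⟨t1, ht1, hg1⟩ := hneg
  obtain ⟨t2, ht2, hmin⟩ := isCompact_Icc.exists_isMinOn (nonempty_Icc.2 zero_le_one) hc.continuousOn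
  set S := Icc (0 : ℝ) 1 ∩ g ⁻¹' Iic (g t2) with hS
  have hScl : IsClosed S := isClosed_Icc.inter (isClosed_Iic.preimage hc)
  have hSb : BddBelow S := ⟨0, fun t ht => ht.1.1⟩
  obtain ⟨⟨h0, h1⟩, hle⟩ := hScl.csInf_mem ⟨t2, ht2, le_refl (g t2)⟩ hSb
  set t0 := sInf S with ht0
  have hlt : g t0 < 0 := (hle : g t0 ≤ g t2).trans_lt ((hmin ht1).trans_lt hg1)
  have g0 : g 0 = 0 := by simp [hg]
  have g1 : g 1 = 0 := by simp [hg]
  have ht00 : 0 < t0 := lt_of_le_of_ne h0 fun e => by rw [← e, g0] at hlt; exact lt_irrefl _ hlt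
  have ht01 : t0 < 1 := lt_of_le_of_ne h1 fun e => by rw [e, g1] at hlt; exact lt_irrefl _ hlt
  set δ := min t0 (1 - t0)
  have hδ : 0 < δ := lt_min ht00 (by linarith)
  have ha : t0 - δ ∈ Icc (0 : ℝ) 1 :=
    ⟨by linarith [min_le_left t0 (1 - t0)], by linarith⟩
  have hb : t0 + δ ∈ Icc (0 : ℝ) 1 :=
    ⟨by linarith, by linarith [min_le_right t0 (1 - t0)]⟩
  have hgb : g t2 ≤ g (t0 + δ) := hmin hb
  have hga : g t2 < g (t0 - δ) := not_le.1 fun hh => by
    linarith [csInf_le hSb (show t0 - δ ∈ S from ⟨ha, hh⟩)]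
  have mem : ∀ t ∈ Icc (0 : ℝ) 1, (fun i => (1 - t) * x i + t * y i) ∈ Path K := fun t ht =>
    convex_path hx hy (sub_nonneg.2 ht.2) ht.1 (by ring)
  have := psi_midpoint (mem _ ha) (mem _ hb)
  rw [show (fun i => ((1 - (t0 - δ)) * x i + (t0 - δ) * y i +
    ((1 - (t0 + δ)) * x i + (t0 + δ) * y i)) / 2) = fun i => (1 - t0) * x i + t0 * y i from
      funext fun i => by ring] at this
  simp only [hg] at hgb hga hle this
  have hle' : psi (fun i => (1 - t0) * x i + t0 * y i) - ((1 - t0) * psi x + t0 * psi y) ≤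
      psi (fun i => (1 - t2) * x i + t2 * y i) - ((1 - t2) * psi x + t2 * psi y) := hle
  linarith

end Vale.Agent.P157.Formula
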