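import Vale.Agent.P157.Formula.Super

/-!
P157, formula: continuity of the functionals in the paths.
-/

open MeasureTheory ProbabilityTheory Filter Topology Set

namespace Vale.Agent.P157.Formula

variable {T : Type*} [TopologicalSpace T] [FirstCountableTopology T]

/-- Locally in the parameter, growth at most linear with slope one. -/
def LocBdd (H : T → ℝ → ℝ) : Prop :=
  ∀ t₀, ∃ A, ∀ᶠ t in 𝓝 t₀, ∀ x, |H t x| ≤ A + |x|

theorem continuous_step {H : T → ℝ → ℝ} (hc : Continuous fun z : T × ℝ => H z.1 z.2)
    (hb : LocBdd H) {m : ℝ} (hm : 0 ≤ m) {s : T → ℝ} (hs : Continuous s) :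
    Continuous fun z : T × ℝ => step m (s z.1) (H z.1) z.2 := by
  rcases hm.eq_or_lt with rfl | hm0
  · simp only [step, if_true]
    refine continuous_iff_continuousAt.2 fun z => ?_
    obtain ⟨A, hA⟩ := hb z.1
    refine continuousAt_of_dominated (bound := fun g => |A| + (|z.2| + 1) + (√(s z.1) + 1) * |g|)
      (Eventually.of_forall fun w => (hc.comp (by fun_prop :
        Continuous fun g => (w.1, w.2 + √(s w.1) * g))).aestronglyMeasurable) ?_ ?_
      (ae_of_all _ fun g => (hc.comp (by fun_prop :
        Continuous fun w : T × ℝ => (w.1, w.2 + √(s w.1) * g))).continuousAt)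
    · have h1 : ∀ᶠ w : T × ℝ in 𝓝 z, |w.2| < |z.2| + 1 :=
        (continuous_snd.abs.tendsto z).eventually (gt_mem_nhds (by linarith))
      have h2 : ∀ᶠ w : T × ℝ in 𝓝 z, √(s w.1) < √(s z.1) + 1 :=
        ((hs.comp continuous_fst).sqrt.tendsto z).eventually (gt_mem_nhds (lt_add_one _))
      filter_upwards [continuousAt_fst.eventually hA, h1, h2] with w hw w1 w2
      refine ae_of_all _ fun g => ?_
      rw [Real.norm_eq_abs]
      refine (hw _).trans ?_
      have : |w.2 + √(s w.1) * g| ≤ |z.2| + 1 + (√(s z.1) + 1) * |g| := (abs_add_le _ _).trans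
        (add_le_add w1.le (by
          rw [abs_mul, abs_of_nonneg (Real.sqrt_nonneg _)]
          exact mul_le_mul_of_nonneg_right w2.le (abs_nonneg g)))
      linarith [le_abs_self A]
    · refine (integrable_const _).add (Integrable.const_mul ?_ _)
      simpa using integrable_abs_exp_abs 0
  · simp only [step, if_neg hm0.ne']
    refine continuous_const.mul (continuous_iff_continuousAt.2 fun z => ?_)
    refine ContinuousAt.log ?_ ?_
    · obtain ⟨A, hA⟩ := hb z.1
      refine continuousAt_of_dominated (bound := fun g =>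
        Real.exp (m * (|A| + (|z.2| + 1))) * Real.exp (m * (√(s z.1) + 1) * |g|))
        (Eventually.of_forall fun w => (Real.continuous_exp.comp (continuous_const.mul
          (hc.comp (by fun_prop : Continuous fun g => (w.1, w.2 + √(s w.1) * g))))).aestronglyMeasurable)
        ?_ ((integrable_exp_abs _).const_mul _)
        (ae_of_all _ fun g => (Real.continuous_exp.comp (continuous_const.mul (hc.comp (by fun_prop :
          Continuous fun w : T × ℝ => (w.1, w.2 + √(s w.1) * g))))).continuousAt)
      have h1 : ∀ᶠ w : T × ℝ in 𝓝 z, |w.2| < |z.2| + 1 :=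
        (continuous_snd.abs.tendsto z).eventually (gt_mem_nhds (by linarith))
      have h2 : ∀ᶠ w : T × ℝ in 𝓝 z, √(s w.1) < √(s z.1) + 1 :=
        ((hs.comp continuous_fst).sqrt.tendsto z).eventually (gt_mem_nhds (lt_add_one _))
      filter_upwards [continuousAt_fst.eventually hA, h1, h2] with w hw w1 w2
      refine ae_of_all _ fun g => ?_
      rw [Real.norm_eq_abs, Real.abs_exp, ← Real.exp_add, Real.exp_le_exp]
      have : |w.2 + √(s w.1) * g| ≤ |z.2| + 1 + (√(s z.1) + 1) * |g| := (abs_add_le _ _).trans
        (add_le_add w1.le (by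
          rw [abs_mul, abs_of_nonneg (Real.sqrt_nonneg _)]
          exact mul_le_mul_of_nonneg_right w2.le (abs_nonneg g)))
      rw [mul_assoc, ← mul_add]
      refine mul_le_mul_of_nonneg_left ?_ hm
      linarith [le_abs_self A, (le_abs_self _).trans (hw (w.2 + √(s w.1) * g))]
    · obtain ⟨A, hA⟩ := hb z.1
      have hA' := hA.self_of_nhds
      have hi : EB fun y => Real.exp (m * H z.1 y) := EB.exp_of_linear (c := m * A) (k := m)
        (continuous_const.mul (hc.comp (Continuous.prodMk continuous_const continuous_id))) hm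
        fun y => (mul_le_mul_of_nonneg_left ((le_abs_self _).trans (hA' y)) hm).trans_eq (mul_add _ _ _)
      exact (heat_pos hi (fun _ => Real.exp_pos _) (s z.1) z.2).ne'

theorem continuous_bk {K : ℕ} {L : (Fin K → ℝ) → ℝ} (hL : Continuous L) (i : ℕ) :
    Continuous fun p : Fin K → ℝ => bk (L p) p i := by
  rcases eq_or_ne i 0 with h | h
  · simp [bk, h, continuous_const]
  · by_cases h' : i - 1 < K
    · simp only [bk, if_neg h, dif_pos h']; fun_prop
    · simp only [bk, if_neg h, dif_neg h']; exact hL

theorem continuous_top {K : ℕ} : Continuous (top : (Fin K → ℝ) → ℝ) :=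
  continuous_bk (L := fun _ => 0) continuous_const K

/-- Joint continuity of all layers for linearly bounded terminal functions. -/
theorem continuous_lay {K : ℕ} {b : T → ℕ → ℝ} (hb : ∀ i, Continuous fun t => b t i)
    {F : ℝ → ℝ} (hF : Continuous F) (hloc : ∀ j, (Continuous fun z : T × ℝ => lay K (b z.1) F j z.2) →
      LocBdd fun t => lay K (b t) F j) :
    ∀ j, Continuous fun z : T × ℝ => lay K (b z.1) F j z.2
  | 0 => hF.comp continuous_snd
  | j + 1 => continuous_step (continuous_lay hb hF hloc j) (hloc j (continuous_lay hb hF hloc j))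
      (by positivity) ((hb _).sub (hb _))

theorem continuous_psi {K : ℕ} : Continuous (psi : (Fin K → ℝ) → ℝ) := by
  have h := continuous_lay (T := Fin K → ℝ) (K := K) (b := fun p => bk (top p) p)
    (continuous_bk continuous_top) (F := lcosh) nice_lcosh.continuous (fun j hj t₀ => by
      have h0 : Continuous fun p : Fin K → ℝ => lay K (bk (top p) p) lcosh j 0 :=
        hj.comp (Continuous.prodMk continuous_id continuous_const)
      refine ⟨|lay K (bk (top t₀) t₀) lcosh j 0| + 1, ?_⟩
      filter_upwards [(h0.abs.tendsto t₀).eventually (gt_mem_nhds (lt_add_one _))] with p hp x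
      linarith [abs_sub_abs_le_abs_sub (lay K (bk (top p) p) lcosh j x)
        (lay K (bk (top p) p) lcosh j 0), (nice_lay (K := K) (bk (top p) p) j).abs_sub_le x]) (K + 1)
  exact (h.comp (Continuous.prodMk continuous_id continuous_const)).sub (continuous_top.div_const 2)

theorem abs_step_le {F : ℝ → ℝ} (hF : Continuous F) {B : ℝ} (h : ∀ x, |F x| ≤ B) {m : ℝ}
    (hm : 0 ≤ m) (s x : ℝ) : |step m s F x| ≤ B := by
  rcases hm.eq_or_lt with rfl | hm0
  · rw [step_zero_left, abs_le]
    have e := EB.of_bdd hF h
    exact ⟨(heat_const (-B) s x).symm.trans_le (heat_mono (.const _) e (fun y => (abs_le.1 (h y)).1) s x),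
      (heat_mono e (.const _) (fun y => (abs_le.1 (h y)).2) s x).trans_eq (heat_const B s x)⟩
  · have e : EB fun y => Real.exp (m * F y) := EB.of_bdd (by fun_prop) (C := Real.exp (m * B))
      fun y => by rw [Real.abs_exp, Real.exp_le_exp]; gcongr; exact (abs_le.1 (h y)).2
    have h1 := heat_mono (.const (Real.exp (m * -B))) e
      (fun y => by rw [Real.exp_le_exp]; gcongr; exact (abs_le.1 (h y)).1) s x
    have h2 := heat_mono e (.const (Real.exp (m * B)))
      (fun y => by rw [Real.exp_le_exp]; gcongr; exact (abs_le.1 (h y)).2) s x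
    rw [heat_const] at h1 h2
    simp only [step_eq hm0.ne', abs_le]
    constructor
    · rw [le_inv_mul_iff₀' hm0, mul_comm]
      simpa using Real.log_le_log (Real.exp_pos _) h1
    · rw [inv_mul_le_iff₀ hm0]
      simpa using Real.log_le_log ((Real.exp_pos _).trans_le h1) h2

theorem continuous_psiF {K : ℕ} {f : ℝ → ℝ} (hf : Continuous f) {B : ℝ} (hB : ∀ x, |f x| ≤ B) :
    Continuous (psiF f : (Fin K → ℝ) → ℝ) := by
  have key : ∀ j (b : ℕ → ℝ), Continuous (lay K b f j) ∧ ∀ x, |lay K b f j x| ≤ B := by
    intro j b
    induction j with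
    | zero => exact ⟨hf, hB⟩
    | succ j ih =>
      refine ⟨?_, abs_step_le ih.1 ih.2 (by positivity) _⟩
      have := continuous_step (T := Unit) (H := fun _ => lay K b f j) (ih.1.comp continuous_snd)
        (fun _ => ⟨B, Eventually.of_forall fun _ x => (ih.2 x).trans (by linarith [abs_nonneg x])⟩)
        (m := ((K - j : ℕ) : ℝ) / K) (by positivity) (s := fun _ => b (K - j + 1) - b (K - j))
        continuous_const
      exact this.comp (Continuous.prodMk (continuous_const (y := ())) continuous_id)
  exact (continuous_lay (T := Fin K → ℝ) (K := K) (b := fun q => bk 1 q)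
    (continuous_bk (L := fun _ => 1) continuous_const) hf
    (fun j _ t₀ => ⟨B, Eventually.of_forall fun q x =>
      ((key j (bk 1 q)).2 x).trans (by linarith [abs_nonneg x])⟩) (K + 1)).comp
    (Continuous.prodMk continuous_id continuous_const)

end Vale.Agent.P157.Formula
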