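import Mathlib

/-!
P157, the limit formula: nested Gaussian log-Laplace recursions and the two-parameter functional.
-/

open MeasureTheory ProbabilityTheory

namespace Vale.Agent.P157.Formula

/-- One step of the recursion: `(1/m) log E exp (m F (x + √s g))`, and `E F (x + √s g)` for `m = 0`. -/
noncomputable def step (m s : ℝ) (F : ℝ → ℝ) (x : ℝ) : ℝ :=
  if m = 0 then ∫ g, F (x + √s * g) ∂gaussianReal 0 1
  else m⁻¹ * Real.log (∫ g, Real.exp (m * F (x + √s * g)) ∂gaussianReal 0 1)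

/-- The breakpoints `0, p 0, …, p (K-1), L`. -/
def bk {K : ℕ} (L : ℝ) (p : Fin K → ℝ) (i : ℕ) : ℝ :=
  if i = 0 then 0 else if h : i - 1 < K then p ⟨i - 1, h⟩ else L

/-- The recursion: `j` steps applied to `F`, the step over `[b l, b (l + 1)]` having parameter
`l / K`, from `l = K` downwards. -/
noncomputable def lay (K : ℕ) (b : ℕ → ℝ) (F : ℝ → ℝ) : ℕ → ℝ → ℝ
  | 0 => F
  | j + 1 => step (((K - j : ℕ) : ℝ) / K) (b (K - j + 1) - b (K - j)) (lay K b F j)

/-- The value of the whole recursion at the origin. -/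
noncomputable def Phi (K : ℕ) (F : ℝ → ℝ) (L : ℝ) (p : Fin K → ℝ) : ℝ :=
  lay K (bk L p) F (K + 1) 0

/-- The last entry of a path, `0` for the empty path. -/
def top {K : ℕ} (p : Fin K → ℝ) : ℝ := bk 0 p K

/-- The log-cosine-hyperbolic terminal value of the spins. -/
noncomputable def lcosh (x : ℝ) : ℝ := Real.log (Real.cosh x)

/-- The spin functional of a path. -/
noncomputable def psi {K : ℕ} (p : Fin K → ℝ) : ℝ := Phi K lcosh (top p) p - top p / 2

/-- The pattern functional of an overlap path. -/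
noncomputable def psiF {K : ℕ} (f : ℝ → ℝ) (q : Fin K → ℝ) : ℝ := Phi K f 1 q

/-- The two-parameter functional. -/
noncomputable def Pfun {K : ℕ} (α : ℝ) (f : ℝ → ℝ) (p q : Fin K → ℝ) : ℝ :=
  psi p + α * psiF f q + (∑ l, p l * q l) / (2 * K)

/-- Nondecreasing nonnegative paths. -/
def Path (K : ℕ) : Set (Fin K → ℝ) := {p | Monotone p ∧ ∀ l, 0 ≤ p l}

/-- Nondecreasing paths with values in `[0, 1]`. -/
def OPath (K : ℕ) : Set (Fin K → ℝ) := {q | Monotone q ∧ ∀ l, 0 ≤ q l ∧ q l ≤ 1}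

/-- The variational value at `K` levels. -/
noncomputable def V (K : ℕ) (α : ℝ) (f : ℝ → ℝ) : EReal :=
  ⨅ q ∈ OPath K, ⨆ p ∈ Path K, ((Pfun α f p q : ℝ) : EReal)

end Vale.Agent.P157.Formula
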