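import Vale.Agent.P157.Formula.Concave

/-!
P157, formula: the gradient of the spin functional and the tangent inequality.
-/

open MeasureTheory ProbabilityTheory Filter Topology Set Function

namespace Vale.Agent.P157.Formula

variable {K : ℕ}

/-- The squared derivative at level `i`, averaged down through `n` tilted steps. -/
noncomputable def low (K : ℕ) (b : ℕ → ℝ) (i : ℕ) : ℕ → ℝ → ℝ
  | 0 => fun y => deriv (lvl K b i) y ^ 2
  | n + 1 => ker (((i - (n + 1) : ℕ) : ℝ) / K) (b (i - n) - b (i - (n + 1))) (lvl K b (i - n))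
      (low K b i n)

theorem low_facts (b : ℕ → ℝ) (i : ℕ) : ∀ n,
    Continuous (low K b i n) ∧ ∀ y, |low K b i n y| ≤ 1
  | 0 => ⟨(nice_lvl K b i).continuous1.pow 2, fun y => by
      simp only [low]
      rw [abs_pow]; exact pow_le_one₀ (abs_nonneg _) ((nice_lvl K b i).lip y)⟩
  | n + 1 => by
      obtain ⟨hc, hb⟩ := low_facts b i n
      exact ⟨ker_continuous (nice_lvl K b _) (EB.of_bdd hc hb) _ _,
        fun y => abs_ker_le (nice_lvl K b _) _ _ y (EB.of_bdd hc hb) hb⟩

/-- Derivative of a step in a parameter of its terminal function. -/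
theorem hasDerivAt_step_param {X D : ℝ → ℝ → ℝ} {t₀ ε c : ℝ} (hε : 0 < ε)
    (hX : ∀ t ∈ Metric.ball t₀ ε, Nice (X t)) (hDc : Continuous (D t₀))
    (hd : ∀ t ∈ Metric.ball t₀ ε, ∀ y, HasDerivAt (fun t => X t y) (D t y) t)
    (hD : ∀ t ∈ Metric.ball t₀ ε, ∀ y, |D t y| ≤ c) {m : ℝ} (hm : 0 ≤ m) (s x : ℝ) :
    HasDerivAt (fun t => step m s (X t) x) (ker m s (X t₀) (D t₀) x) t₀ := by
  have hball := Metric.ball_mem_nhds t₀ hε
  have h0 := hX t₀ (Metric.mem_ball_self hε)
  have hc0 : 0 ≤ c := (abs_nonneg _).trans (hD t₀ (Metric.mem_ball_self hε) 0)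
  set A := |X t₀ 0| + c * ε with hA
  have hbd : ∀ t ∈ Metric.ball t₀ ε, ∀ y, |X t y| ≤ A + |y| := fun t ht y => by
    have h1 := Convex.norm_image_sub_le_of_norm_hasDerivWithin_le (C := c)
      (fun u hu => (hd u hu y).hasDerivWithinAt) (fun u hu => hD u hu y) (convex_ball t₀ ε)
      (Metric.mem_ball_self hε) ht
    rw [Metric.mem_ball, Real.dist_eq] at ht
    rw [Real.norm_eq_abs, Real.norm_eq_abs] at h1
    nlinarith [abs_sub_abs_le_abs_sub (X t y) (X t₀ y), h0.abs_sub_le y,
      abs_sub_abs_le_abs_sub (X t₀ y) (X t₀ 0), mul_le_mul_of_nonneg_left ht.le hc0]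
  rcases hm.eq_or_lt with rfl | hm0
  · simp only [step, if_true]
    refine (hasDerivAt_integral_of_dominated_loc_of_deriv_le (μ := gm)
      (F := fun t g => X t (x + √s * g)) (F' := fun t g => D t (x + √s * g))
      (bound := fun _ => c) hball
      (eventually_of_mem hball fun t ht => ((hX t ht).continuous.comp (by fun_prop)).aestronglyMeasurable)
      (h0.eb.integrable_shift x _) (hDc.comp (by fun_prop)).aestronglyMeasurable
      (ae_of_all _ fun g t ht => hD t ht _) (integrable_const _)
      (ae_of_all _ fun g t ht => hd t ht _)).2.congr_deriv ?_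
    simp [ker, heat]
  · simp only [step, if_neg hm0.ne']
    have key := (hasDerivAt_integral_of_dominated_loc_of_deriv_le (μ := gm)
      (F := fun t g => Real.exp (m * X t (x + √s * g)))
      (F' := fun t g => Real.exp (m * X t (x + √s * g)) * (m * D t (x + √s * g)))
      (bound := fun g => m * c * (Real.exp (m * (A + |x|)) * Real.exp (m * |√s| * |g|))) hball
      (eventually_of_mem hball fun t ht =>
        (((hX t ht).eb_exp m).1.comp (by fun_prop)).aestronglyMeasurable)
      ((h0.eb_exp m).integrable_shift x _)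
      ((((h0.eb_exp m).1.comp (by fun_prop)).mul
        (continuous_const.mul (hDc.comp (by fun_prop)))).aestronglyMeasurable)
      (ae_of_all _ fun g t ht => ?_) (((integrable_exp_abs _).const_mul _).const_mul _)
      (ae_of_all _ fun g t ht => ((hd t ht _).const_mul m).exp)).2
    · refine ((key.log (den_pos h0 m s x).ne').const_mul m⁻¹).congr_deriv ?_
      simp only [ker, heat]
      rw [show (fun g => Real.exp (m * X t₀ (x + √s * g)) * (m * D t₀ (x + √s * g))) =
        fun g => m * (D t₀ (x + √s * g) * Real.exp (m * X t₀ (x + √s * g))) from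
          funext fun g => by ring, integral_const_mul]
      field_simp
    · rw [Real.norm_eq_abs, abs_mul, Real.abs_exp, abs_mul, abs_of_pos hm0, mul_comm,
        ← Real.exp_add]
      refine mul_le_mul (mul_le_mul_of_nonneg_left (hD t ht _) hm) (Real.exp_le_exp.2 ?_)
        (Real.exp_pos _).le (mul_nonneg hm hc0)
      have h1 := hbd t ht (x + √s * g)
      have h2 : |x + √s * g| ≤ |x| + |√s| * |g| := (abs_add_le _ _).trans_eq (by rw [abs_mul])
      rw [mul_assoc, ← mul_add]
      exact mul_le_mul_of_nonneg_left (by linarith [le_abs_self (X t (x + √s * g))]) hm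

/-- The derivative of the layers below a breakpoint in that breakpoint. -/
theorem hasDerivAt_lvl {b : ℕ → ℝ} {i : ℕ} (hiK : i ≤ K) : ∀ (n : ℕ), n < i → ∀ (t : ℝ),
    t ∈ Ioo (b (i - 1)) (b (i + 1)) → ∀ x,
    HasDerivAt (fun t => lvl K (update b i t) (i - (n + 1)) x)
      (-((K : ℝ)⁻¹ / 2) * low K (update b i t) i (n + 1) x) t
  | 0, hn, t, ht, x => by
    have e : (fun t => lvl K (update b i t) (i - 1) x) = fun t =>
        two (((i - 1 : ℕ) : ℝ) / K) ((i : ℝ) / K) (b (i + 1) - b (i - 1)) (lvl K b (i + 1))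
          (t - b (i - 1)) x := funext fun t => by
      rw [two_eq (by omega) hiK, update_self, update_of_ne (by omega), update_of_ne (by omega),
        lvl_congr (b := update b i t) (b' := b) (l := i + 1) (by omega) fun j hj _ => by
          rw [update_of_ne (by omega), update_of_ne (by omega)]]
    rw [e]
    have hd := (two_facts (nice_lvl K b (i + 1))
      (m := ((i - 1 : ℕ) : ℝ) / K) (by positivity) (frac_lt (by omega) hiK)
      (b (i + 1) - b (i - 1)) x).2 (t - b (i - 1))
      ⟨by linarith [ht.1], by linarith [ht.2]⟩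
    refine (hd.comp t ((hasDerivAt_id t).sub_const (b (i - 1)))).congr_deriv ?_
    rw [mul_one]
    congr 1
    · rw [Nat.cast_sub (by omega)]; push_cast; field_simp; ring
    · simp only [low, Nat.sub_zero]
      rw [lvl_eq (update b i t) hiK, update_self, update_of_ne (show i + 1 ≠ i by omega),
        update_of_ne (show i - (0 + 1) ≠ i by omega),
        lvl_congr (b := update b i t) (b' := b) (l := i + 1) (by omega) fun j hj _ => by
          rw [update_of_ne (by omega), update_of_ne (by omega)],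
        show i - (0 + 1) = i - 1 by omega,
        show b (i + 1) - b (i - 1) - (t - b (i - 1)) = b (i + 1) - t by ring]
  | n + 1, hn, t, ht, x => by
    set l := i - (n + 1 + 1) with hl
    have hl1 : l + 1 = i - (n + 1) := by omega
    have e : (fun t => lvl K (update b i t) l x) = fun t =>
        step ((l : ℝ) / K) (b (l + 1) - b l) (lvl K (update b i t) (i - (n + 1))) x :=
      funext fun t => by
        rw [lvl_eq _ (show l ≤ K by omega), update_of_ne (show l + 1 ≠ i by omega),
          update_of_ne (show l ≠ i by omega), hl1]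
    rw [e]
    obtain ⟨ε, hε, hsub⟩ := Metric.isOpen_iff.1 isOpen_Ioo t ht
    have hb : ∀ u y, |-((K : ℝ)⁻¹ / 2) * low K (update b i u) i (n + 1) y| ≤ (K : ℝ)⁻¹ / 2 :=
      fun u y => by
        rw [abs_mul, abs_neg, abs_of_nonneg (by positivity)]
        exact mul_le_of_le_one_right (by positivity) ((low_facts _ i _).2 y)
    refine (hasDerivAt_step_param hε (X := fun u => lvl K (update b i u) (i - (n + 1)))
      (fun u _ => nice_lvl _ _ _)
      (D := fun u y => -((K : ℝ)⁻¹ / 2) * low K (update b i u) i (n + 1) y)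
      (continuous_const.mul (low_facts _ i _).1)
      (fun u hu y => hasDerivAt_lvl hiK n (by omega) u (hsub hu) y) (fun u _ y => hb u y)
      (by positivity) _ x).congr_deriv ?_
    conv_rhs => rw [low, show i - (n + 1 + 1) = l from rfl]
    rw [update_of_ne (show i - (n + 1) ≠ i by omega), update_of_ne (show l ≠ i by omega), ← hl1]
    simp only [ker, mul_assoc, heat_const_mul]
    rw [mul_div_assoc]

/-- The overlap attached to an entry of a path. -/
noncomputable def ovl (p : Fin K → ℝ) (r : Fin K) : ℝ := low K (bk (top p) p) (r + 1) (r + 1) 0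

theorem ker_add_const {X : ℝ → ℝ} (m s c : ℝ) (F : ℝ → ℝ) (x : ℝ) :
    ker m s (fun y => X y + c) F x = ker m s X F x := by
  simp only [ker, mul_add, Real.exp_add, ← mul_assoc]
  simp only [mul_comm _ (Real.exp (m * c)), heat_const_mul]
  rw [mul_div_mul_left _ _ (Real.exp_pos _).ne']

theorem low_shift (hK : 0 < K) {p : Fin K → ℝ} {L : ℝ} (hL : ∀ r, p r ≤ L) {i : ℕ} (hi : i ≤ K) :
    ∀ n, n ≤ i → low K (bk L p) i n = low K (bk (top p) p) i n := by
  have hK' : ∀ l, l ≤ K → ∃ c, lvl K (bk L p) l = fun x => lvl K (bk (top p) p) l x + c := by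
    intro l hl
    induction hl using Nat.decreasingInduction with
    | self =>
      have hT : top p ≤ L := (top_eq hK p).trans_le (hL _)
      have hKK : ∀ L, bk L p K = top p := fun L => by
        simp [top, bk, hK.ne', show K - 1 < K by omega]
      refine ⟨(L - top p) / 2, ?_⟩
      rw [lvl_eq _ le_rfl, lvl_eq _ le_rfl, lvl_top, lvl_top,
        div_self (by exact_mod_cast hK.ne' : (K : ℝ) ≠ 0), bk_last, bk_last, hKK, hKK,
        step_one_lcosh (sub_nonneg.2 hT), sub_self, step_zero_right]
    | of_succ j hj ih =>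
      obtain ⟨c, hc⟩ := ih
      refine ⟨c, ?_⟩
      have e : ∀ i ≤ K, bk L p i = bk (top p) p i := fun i hi => by
        unfold bk
        split
        · rfl
        · rw [dif_pos (by omega), dif_pos (by omega)]
      rw [lvl_eq _ (by omega), hc, step_add_const (nice_lvl _ _ _), e _ (by omega), e _ (by omega),
        ← lvl_eq _ (by omega)]
  have e : ∀ j ≤ K, bk L p j = bk (top p) p j := fun i hi => by
    unfold bk
    split
    · rfl
    · rw [dif_pos (by omega), dif_pos (by omega)]
  intro n
  induction n with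
  | zero =>
    intro _
    obtain ⟨c, hc⟩ := hK' i hi
    funext y
    simp only [low, hc, deriv_add_const]
  | succ n ih =>
    intro hn
    obtain ⟨c, hc⟩ := hK' (i - n) (by omega)
    funext y
    rw [low, low, e _ (by omega), e _ (by omega), hc, ker_add_const, ih (by omega)]

/-- The partial derivatives at an interior path. -/
theorem hasDerivAt_psi {p : Fin K → ℝ} (hp : StrictMono p) (h0 : ∀ l, 0 < p l) (r : Fin K) :
    HasDerivAt (fun t => psi (update p r t)) (-((K : ℝ)⁻¹ / 2) * ovl p r) (p r) := by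
  have hK : 0 < K := r.pos
  obtain ⟨L', hL0, hLp, -⟩ := exists_bound p p
  set L := L' + 1
  set b := bk L p with hb
  have hi : b ((r : ℕ) + 1 - 1) < p r ∧ p r < b ((r : ℕ) + 1 + 1) := by
    constructor
    · rw [Nat.add_sub_cancel, hb]
      unfold bk
      split
      · exact h0 r
      · rw [dif_pos (show (r : ℕ) - 1 < K by omega)]
        exact hp (Fin.lt_def.2 (show (r : ℕ) - 1 < r by omega))
    · rw [hb]
      unfold bk
      rw [if_neg (by omega)]
      split
      · exact hp (Fin.lt_def.2 (show (r : ℕ) < r + 1 + 1 - 1 by omega))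
      · linarith [hLp r]
  have hd := hasDerivAt_lvl (K := K) (b := b) (i := r + 1) (by omega) r (by omega) (p r) hi 0
  rw [Nat.sub_self, show update b (↑r + 1) (p r) = b by rw [hb, ← bk_update, update_eq_self],
    hb, low_shift hK (L := L) (fun l => by linarith [hLp l]) (by omega) _ le_rfl] at hd
  refine (hd.sub_const (L / 2)).congr_of_eventuallyEq ?_
  filter_upwards [gt_mem_nhds (show p r < L by linarith [hLp r])] with t ht
  rw [psi_eq hK (update p r t) (L := L) (fun l => ?_), bk_update]
  rcases eq_or_ne l r with rfl | h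
  · simpa using ht.le
  · simp only [update_of_ne h]; linarith [hLp l]

theorem continuous_ker_param {T : Type*} [TopologicalSpace T] [FirstCountableTopology T]
    {H D : T → ℝ → ℝ} (hc : Continuous fun z : T × ℝ => H z.1 z.2) (hb : LocBdd H)
    (hDc : Continuous fun z : T × ℝ => D z.1 z.2) (hD : ∀ t y, |D t y| ≤ 1) {m : ℝ} (hm : 0 ≤ m)
    {s : T → ℝ} (hs : Continuous s) :
    Continuous fun z : T × ℝ => ker m (s z.1) (H z.1) (D z.1) z.2 := by
  have key : ∀ E : T → ℝ → ℝ, (Continuous fun z : T × ℝ => E z.1 z.2) → (∀ t y, |E t y| ≤ 1) →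
      Continuous fun z : T × ℝ =>
        heat (fun y => E z.1 y * Real.exp (m * H z.1 y)) (s z.1) z.2 := by
    intro E hEc hE
    refine continuous_iff_continuousAt.2 fun z => ?_
    obtain ⟨A, hA⟩ := hb z.1
    refine continuousAt_of_dominated (bound := fun g =>
      Real.exp (m * (|A| + (|z.2| + 1))) * Real.exp (m * (√(s z.1) + 1) * |g|))
      (Eventually.of_forall fun w => ((hEc.comp (by fun_prop : Continuous fun g =>
        (w.1, w.2 + √(s w.1) * g))).mul (Real.continuous_exp.comp (continuous_const.mul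
          (hc.comp (by fun_prop : Continuous fun g => (w.1, w.2 + √(s w.1) * g)))))).aestronglyMeasurable)
      ?_ ((integrable_exp_abs _).const_mul _)
      (ae_of_all _ fun g => ((hEc.comp (by fun_prop : Continuous fun w : T × ℝ =>
        (w.1, w.2 + √(s w.1) * g))).mul (Real.continuous_exp.comp (continuous_const.mul (hc.comp
          (by fun_prop : Continuous fun w : T × ℝ => (w.1, w.2 + √(s w.1) * g)))))).continuousAt)
    have h1 : ∀ᶠ w : T × ℝ in 𝓝 z, |w.2| < |z.2| + 1 :=
      (continuous_snd.abs.tendsto z).eventually (gt_mem_nhds (lt_add_one _))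
    have h2 : ∀ᶠ w : T × ℝ in 𝓝 z, √(s w.1) < √(s z.1) + 1 :=
      ((hs.comp continuous_fst).sqrt.tendsto z).eventually (gt_mem_nhds (lt_add_one _))
    filter_upwards [continuousAt_fst.eventually hA, h1, h2] with w hw w1 w2
    refine ae_of_all _ fun g => ?_
    rw [Real.norm_eq_abs, abs_mul, Real.abs_exp, ← Real.exp_add]
    refine (mul_le_of_le_one_left (Real.exp_pos _).le (hE _ _)).trans (Real.exp_le_exp.2 ?_)
    have : |w.2 + √(s w.1) * g| ≤ |z.2| + 1 + (√(s z.1) + 1) * |g| := (abs_add_le _ _).trans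
      (add_le_add w1.le (by
        rw [abs_mul, abs_of_nonneg (Real.sqrt_nonneg _)]
        exact mul_le_mul_of_nonneg_right w2.le (abs_nonneg g)))
    rw [mul_assoc, ← mul_add]
    refine mul_le_mul_of_nonneg_left ?_ hm
    linarith [le_abs_self A, (le_abs_self _).trans (hw (w.2 + √(s w.1) * g))]
  have hden := key (fun _ _ => 1) continuous_const fun _ _ => by simp
  simp only [one_mul] at hden
  refine (key D hDc hD).div hden fun z => ?_
  obtain ⟨A, hA⟩ := hb z.1
  have hA' := hA.self_of_nhds
  have hi : EB fun y => Real.exp (m * H z.1 y) := EB.exp_of_linear (c := m * A) (k := m)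
    (continuous_const.mul (hc.comp (Continuous.prodMk continuous_const continuous_id))) hm
    fun y => (mul_le_mul_of_nonneg_left ((le_abs_self _).trans (hA' y)) hm).trans_eq (mul_add _ _ _)
  exact (heat_pos hi (fun _ => Real.exp_pos _) (s z.1) z.2).ne'

theorem continuous_ovl (r : Fin K) : Continuous fun p : Fin K → ℝ => ovl p r := by
  set b : (Fin K → ℝ) → ℕ → ℝ := fun p => bk (top p) p with hbdef
  have hb : ∀ i, Continuous fun p => b p i := continuous_bk continuous_top
  have hloc : ∀ j, (Continuous fun z : (Fin K → ℝ) × ℝ => lay K (b z.1) lcosh j z.2) →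
      LocBdd fun p => lay K (b p) lcosh j := fun j hj t₀ => by
    have h0 : Continuous fun p : Fin K → ℝ => lay K (b p) lcosh j 0 :=
      hj.comp (Continuous.prodMk continuous_id continuous_const)
    refine ⟨|lay K (b t₀) lcosh j 0| + 1, ?_⟩
    filter_upwards [(h0.abs.tendsto t₀).eventually (gt_mem_nhds (lt_add_one _))] with p hp x
    linarith [abs_sub_abs_le_abs_sub (lay K (b p) lcosh j x) (lay K (b p) lcosh j 0),
      (nice_lay (K := K) (b p) j).abs_sub_le x]
  have hl := continuous_lay (K := K) hb nice_lcosh.continuous hloc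
  have hd : ∀ j, Continuous fun z : (Fin K → ℝ) × ℝ => deriv (lay K (b z.1) lcosh j) z.2 := by
    intro j
    induction j with
    | zero => exact nice_lcosh.continuous1.comp continuous_snd
    | succ j ih =>
      simp only [lay, deriv_step (nice_lay _ j)]
      exact continuous_ker_param (H := fun p => lay K (b p) lcosh j)
        (D := fun p => deriv (lay K (b p) lcosh j)) (hl j) (hloc j (hl j)) ih
        (fun p y => (nice_lay _ j).lip y) (by positivity) ((hb _).sub (hb _))
  have h : ∀ n, Continuous fun z : (Fin K → ℝ) × ℝ => low K (b z.1) (r + 1) n z.2 := by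
    intro n
    induction n with
    | zero => exact (hd _).pow 2
    | succ n ih =>
      exact continuous_ker_param (H := fun p => lvl K (b p) ((r : ℕ) + 1 - n))
        (D := fun p => low K (b p) (r + 1) n) (hl _) (hloc _ (hl _)) ih
        (fun p y => (low_facts _ _ n).2 y) (by positivity) ((hb _).sub (hb _))
  exact (h _).comp (Continuous.prodMk continuous_id continuous_const)

theorem psi_tangent_interior {p p0 : Fin K → ℝ} (hp : p ∈ Path K) (hs : StrictMono p0)
    (h0 : ∀ l, 0 < p0 l) :
    psi p ≤ psi p0 - (K : ℝ)⁻¹ / 2 * ∑ r, ovl p0 r * (p r - p0 r) := by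
  set γ := (K : ℝ)⁻¹ / 2
  set d := fun r => p r - p0 r with hd
  set φ : (Fin K → ℝ) → ℝ := fun v => psi v - psi p0 + γ * ∑ r, ovl p0 r * (v r - p0 r) with hφ
  have hp0 : p0 ∈ Path K := ⟨hs.monotone, fun l => (h0 l).le⟩
  have hconc : ∀ {v w : Fin K → ℝ}, v ∈ Path K → w ∈ Path K → ∀ {θ : ℝ}, 0 ≤ θ → θ ≤ 1 →
      (1 - θ) * φ v + θ * φ w ≤ φ ((1 - θ) • v + θ • w) := fun {v w} hv hw {θ} hθ hθ1 => by
    have h := psi_concave.2 hv hw (sub_nonneg.2 hθ1) hθ (by ring)
    have e : ∑ r, ovl p0 r * (((1 - θ) • v + θ • w) r - p0 r) =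
        (1 - θ) * ∑ r, ovl p0 r * (v r - p0 r) + θ * ∑ r, ovl p0 r * (w r - p0 r) := by
      rw [Finset.mul_sum, Finset.mul_sum, ← Finset.sum_add_distrib]
      exact Finset.sum_congr rfl fun r _ => by simp; ring
    simp only [hφ, e]
    simp only [smul_eq_mul] at h
    linarith
  have hnear : ∀ v : Fin K → ℝ, ∀ᶠ t in 𝓝 (0 : ℝ), p0 + t • v ∈ Path K := fun v => by
    have h1 : ∀ᶠ t in 𝓝 (0 : ℝ), ∀ i j : Fin K, i < j → (p0 + t • v) i ≤ (p0 + t • v) j := by
      refine eventually_all.2 fun i => eventually_all.2 fun j => eventually_all.2 fun hij => ?_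
      have hc : Continuous fun t : ℝ => (p0 + t • v) j - (p0 + t • v) i := by fun_prop
      filter_upwards [(hc.tendsto 0).eventually (lt_mem_nhds (show (0 : ℝ) <
        (p0 + (0 : ℝ) • v) j - (p0 + (0 : ℝ) • v) i by simpa using hs hij))] with t ht
      linarith
    have h2 : ∀ᶠ t in 𝓝 (0 : ℝ), ∀ i, 0 ≤ (p0 + t • v) i := by
      refine eventually_all.2 fun i => ?_
      have hc : Continuous fun t : ℝ => (p0 + t • v) i := by fun_prop
      filter_upwards [(hc.tendsto 0).eventually (lt_mem_nhds (show (0 : ℝ) <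
        (p0 + (0 : ℝ) • v) i by simpa using h0 i))] with t ht
      exact ht.le
    filter_upwards [h1, h2] with t ha hb
    exact ⟨fun i j hij => (eq_or_lt_of_le hij).elim (fun e => e ▸ le_rfl) (ha i j), hb⟩
  have hcoord : ∀ r (c : ℝ),
      HasDerivAt (fun t : ℝ => φ (p0 + t • Pi.single r c)) 0 0 := fun r c => by
    have e : ∀ t : ℝ, p0 + t • Pi.single r c = update p0 r (p0 r + t * c) := fun t => by
      funext i
      rcases eq_or_ne i r with rfl | h <;> simp [*]
    have es : ∀ t : ℝ, ∑ i, ovl p0 i * (update p0 r (p0 r + t * c) i - p0 i) =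
        ovl p0 r * (t * c) := fun t => by
      rw [Finset.sum_eq_single r (fun i _ hi => by simp [update_of_ne hi]) (by simp)]
      simp
    simp only [hφ, e, es]
    have h1 := hasDerivAt_psi hs h0 r
    rw [show p0 r = p0 r + 0 * c by ring] at h1
    have h2 := HasDerivAt.comp (0 : ℝ) (h := fun t => p0 r + t * c) h1
      (((hasDerivAt_id (0 : ℝ)).mul_const c).const_add (p0 r))
    refine ((h2.sub_const (psi p0)).add ((((hasDerivAt_id (0 : ℝ)).mul_const c).const_mul
      (ovl p0 r)).const_mul γ)).congr_deriv ?_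
    simp [γ]; ring
  have hK : (0 : ℝ) ≤ K := K.cast_nonneg
  -- the sum of the coordinate increments bounds the increment along `d` from below
  have hlow : ∀ σ : ℝ, ∀ᶠ t in 𝓝 (0 : ℝ), p0 + t • d ∈ Path K → p0 + (σ * t) • d ∈ Path K →
      (K : ℝ)⁻¹ * ∑ r, φ (p0 + t • Pi.single r (σ * (K : ℝ) * d r)) ≤ φ (p0 + (σ * t) • d) := by
    intro σ
    filter_upwards [eventually_all.2 fun r => hnear (Pi.single r (σ * (K : ℝ) * d r))]
      with t hmem _ hσ
    rcases Nat.eq_zero_or_pos K with rfl | hK0
    · rw [Subsingleton.elim (p0 + (σ * t) • d) p0]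
      simp [hφ]
    have hKne : (K : ℝ) ≠ 0 := by exact_mod_cast hK0.ne'
    have hφc : ConcaveOn ℝ (Path K) φ := ⟨convex_path, fun v hv w hw θ' θ hθ' hθ hsum => by
      rw [show θ' = 1 - θ by linarith, smul_eq_mul, smul_eq_mul]
      exact hconc hv hw hθ (by linarith)⟩
    have h := hφc.le_map_sum (t := Finset.univ) (w := fun _ : Fin K => (K : ℝ)⁻¹)
      (p := fun r => p0 + t • Pi.single r (σ * (K : ℝ) * d r)) (fun _ _ => by positivity)
      (by simp [mul_inv_cancel₀ hKne]) fun r _ => hmem r
    have e : ∑ r, (K : ℝ)⁻¹ • (p0 + t • Pi.single r (σ * (K : ℝ) * d r)) = p0 + (σ * t) • d := by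
      funext i
      simp only [Finset.sum_apply, Pi.smul_apply, Pi.add_apply, smul_eq_mul, mul_add,
        Finset.sum_add_distrib, Finset.sum_const, Finset.card_univ, Fintype.card_fin, nsmul_eq_mul,
        mul_inv_cancel_left₀ hKne]
      congr 1
      rw [Finset.sum_eq_single i (fun r _ hr => by simp [Ne.symm hr]) (by simp), Pi.single_eq_same]
      field_simp
    rw [e] at h
    simp only [smul_eq_mul] at h
    rw [Finset.mul_sum]
    exact h
  have lim : ∀ σ : ℝ, Tendsto
      (fun t : ℝ => (K : ℝ)⁻¹ * (∑ r, φ (p0 + t • Pi.single r (σ * (K : ℝ) * d r))) / t)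
      (𝓝[>] 0) (𝓝 0) := fun σ => by
    have h := tendsto_finsetSum Finset.univ fun r (_ : r ∈ Finset.univ) =>
      ((hcoord r (σ * (K : ℝ) * d r)).tendsto_slope_zero_right).const_mul (K : ℝ)⁻¹
    simp only [mul_zero, Finset.sum_const_zero] at h
    refine h.congr fun t => ?_
    rw [Finset.mul_sum, Finset.sum_div]
    refine Finset.sum_congr rfl fun r _ => ?_
    have z : φ (p0 + (0 : ℝ) • Pi.single r (σ * (K : ℝ) * d r)) = 0 := by simp [hφ]
    rw [zero_add, z, sub_zero, smul_eq_mul]; ring
  suffices H : φ p ≤ 0 by simp only [hφ] at H; linarith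
  have hl0 := (lim (-1)).neg
  rw [neg_zero] at hl0
  refine le_of_tendsto_of_tendsto tendsto_const_nhds hl0 ?_
  have hev : ∀ σ : ℝ, ∀ᶠ t in 𝓝 (0 : ℝ), p0 + (σ * t) • d ∈ Path K := fun σ =>
    ((continuous_const.mul continuous_id).tendsto' (0 : ℝ) 0 (mul_zero σ)).eventually (hnear d)
  filter_upwards [self_mem_nhdsWithin, nhdsWithin_le_nhds (hlow (-1)), nhdsWithin_le_nhds (hnear d),
    nhdsWithin_le_nhds (hev (-1)), nhdsWithin_le_nhds (gt_mem_nhds (zero_lt_one' ℝ))]
    with t (ht : 0 < t) hl hm hm' ht1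
  have h1 := hl hm hm'
  rw [neg_one_mul t] at h1 hm'
  have h2 := hconc hm hm' (θ := 1 / 2) (by norm_num) (by norm_num)
  rw [show (1 - 1 / 2 : ℝ) • (p0 + t • d) + (1 / 2 : ℝ) • (p0 + -t • d) = p0 by
    funext i; simp; ring, show φ p0 = 0 by simp [hφ]] at h2
  have h3 := hconc hp0 hp ht.le ht1.le
  rw [show (1 - t) • p0 + t • p = p0 + t • d by funext i; simp [hd]; ring,
    show φ p0 = 0 by simp [hφ]] at h3
  rw [← neg_div, le_div_iff₀ ht]
  linarith

/-- The tangent inequality of the spin functional. -/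
theorem psi_tangent {p p0 : Fin K → ℝ} (hp : p ∈ Path K) (h0 : p0 ∈ Path K) :
    psi p ≤ psi p0 - (K : ℝ)⁻¹ / 2 * ∑ r, ovl p0 r * (p r - p0 r) := by
  set u : ℕ → Fin K → ℝ := fun n r => p0 r + ((r : ℕ) + 1) * (1 / ((n : ℝ) + 1)) with hu
  have hlim : Tendsto u atTop (𝓝 p0) := tendsto_pi_nhds.2 fun r => by
    simpa [hu] using (tendsto_one_div_add_atTop_nhds_zero_nat.const_mul (((r : ℕ) : ℝ) + 1)).const_add
      (p0 r)
  have hc : Continuous fun v : Fin K → ℝ => psi v - (K : ℝ)⁻¹ / 2 * ∑ r, ovl v r * (p r - v r) :=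
    continuous_psi.sub (continuous_const.mul (continuous_finsetSum _ fun r _ =>
      (continuous_ovl r).mul (continuous_const.sub (continuous_apply r))))
  refine ge_of_tendsto ((hc.tendsto p0).comp hlim) (Eventually.of_forall fun n => ?_)
  have hn : 0 < 1 / ((n : ℝ) + 1) := by positivity
  refine psi_tangent_interior hp (fun i j hij => ?_) fun r => ?_
  · have : ((i : ℕ) : ℝ) < ((j : ℕ) : ℝ) := by exact_mod_cast hij
    simp only [hu]
    nlinarith [h0.1 hij.le]
  · exact add_pos_of_nonneg_of_pos (h0.2 r) (by positivity)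

end Vale.Agent.P157.Formula
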