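import Vale.Agent.P157.Formula.Defs
import Vale.Agent.P166.Tame

/-!
P157, formula: Gaussian averages of exponentially bounded functions and the derivative along a
split of the variance.
-/

open MeasureTheory ProbabilityTheory Filter Topology Set

namespace Vale.Agent.P157.Formula

/-- The standard Gaussian measure on the line. -/
noncomputable abbrev gm : Measure ℝ := gaussianReal 0 1

/-- Continuous with an exponential bound. -/
def EB (F : ℝ → ℝ) : Prop :=
  Continuous F ∧ ∃ C a : ℝ, 0 ≤ C ∧ 0 ≤ a ∧ ∀ x, |F x| ≤ C * Real.exp (a * |x|)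

theorem integrable_exp_abs (a : ℝ) : Integrable (fun g => Real.exp (a * |g|)) gm := by
  refine Integrable.mono' ((integrable_exp_mul_gaussianReal a).add
    (integrable_exp_mul_gaussianReal (-a))) (by fun_prop) (ae_of_all _ fun g => ?_)
  simp only [Pi.add_apply, Real.norm_eq_abs, Real.abs_exp]
  rcases le_total 0 g with h | h
  · rw [abs_of_nonneg h]; linarith [Real.exp_pos (-a * g)]
  · rw [abs_of_nonpos h, show a * -g = -a * g by ring]; linarith [Real.exp_pos (a * g)]

theorem integrable_abs_exp_abs (a : ℝ) : Integrable (fun g => |g| * Real.exp (a * |g|)) gm := by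
  refine Integrable.mono' (integrable_exp_abs (a + 1)) (by fun_prop) (ae_of_all _ fun g => ?_)
  rw [Real.norm_eq_abs, abs_mul, abs_abs, Real.abs_exp, add_mul, one_mul, Real.exp_add,
    mul_comm (Real.exp (a * |g|))]
  exact mul_le_mul_of_nonneg_right (by linarith [Real.add_one_le_exp |g|]) (Real.exp_pos _).le

namespace EB

variable {F G : ℝ → ℝ}

theorem of_bdd (hc : Continuous F) {C : ℝ} (h : ∀ x, |F x| ≤ C) : EB F :=
  ⟨hc, C, 0, (abs_nonneg _).trans (h 0), le_rfl, fun x => by simpa using h x⟩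

theorem const (c : ℝ) : EB fun _ => c := of_bdd continuous_const fun _ => le_rfl

theorem add (hF : EB F) (hG : EB G) : EB fun x => F x + G x := by
  obtain ⟨hc, C, a, hC, ha, h⟩ := hF
  obtain ⟨hc', D, b, hD, hb, h'⟩ := hG
  refine ⟨hc.add hc', C + D, max a b, add_nonneg hC hD, ha.trans (le_max_left _ _), fun x => ?_⟩
  rw [add_mul]
  refine (abs_add_le _ _).trans (add_le_add ((h x).trans ?_) ((h' x).trans ?_))
  · exact mul_le_mul_of_nonneg_left (Real.exp_le_exp.2
      (mul_le_mul_of_nonneg_right (le_max_left _ _) (abs_nonneg _))) hC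
  · exact mul_le_mul_of_nonneg_left (Real.exp_le_exp.2
      (mul_le_mul_of_nonneg_right (le_max_right _ _) (abs_nonneg _))) hD

theorem mul (hF : EB F) (hG : EB G) : EB fun x => F x * G x := by
  obtain ⟨hc, C, a, hC, ha, h⟩ := hF
  obtain ⟨hc', D, b, hD, hb, h'⟩ := hG
  refine ⟨hc.mul hc', C * D, a + b, mul_nonneg hC hD, add_nonneg ha hb, fun x => ?_⟩
  rw [abs_mul, add_mul, Real.exp_add, mul_mul_mul_comm]
  exact mul_le_mul (h x) (h' x) (abs_nonneg _) (by positivity)

theorem const_mul (hF : EB F) (c : ℝ) : EB fun x => c * F x := (const c).mul hF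

theorem comp_even (hF : EB F) (σ : ℝ) (hσ : |σ| = 1) : EB fun x => F (σ * x) := by
  obtain ⟨hc, C, a, hC, ha, h⟩ := hF
  exact ⟨hc.comp (continuous_const.mul continuous_id), C, a, hC, ha,
    fun x => (h _).trans (by rw [abs_mul, hσ, one_mul])⟩

theorem exp_of_linear (hc : Continuous F) {c k : ℝ} (hk : 0 ≤ k) (h : ∀ x, F x ≤ c + k * |x|) :
    EB fun x => Real.exp (F x) :=
  ⟨Real.continuous_exp.comp hc, Real.exp c, k, (Real.exp_pos _).le, hk, fun x => by
    rw [Real.abs_exp, ← Real.exp_add]; exact Real.exp_le_exp.2 (h x)⟩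

theorem shift_bound {C a : ℝ} (hC : 0 ≤ C) (ha : 0 ≤ a) (h : ∀ x, |F x| ≤ C * Real.exp (a * |x|))
    {x s g R S : ℝ} (hx : |x| ≤ R) (hs : |s| ≤ S) :
    |F (x + s * g)| ≤ C * Real.exp (a * R) * Real.exp (a * S * |g|) := by
  refine (h _).trans ?_
  rw [mul_assoc, ← Real.exp_add]
  refine mul_le_mul_of_nonneg_left (Real.exp_le_exp.2 ?_) hC
  have h1 : |x + s * g| ≤ R + S * |g| := (abs_add_le _ _).trans
    (add_le_add hx ((abs_mul s g).trans_le (mul_le_mul_of_nonneg_right hs (abs_nonneg _))))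
  nlinarith [mul_le_mul_of_nonneg_left h1 ha]

theorem integrable_shift (hF : EB F) (x s : ℝ) : Integrable (fun g => F (x + s * g)) gm := by
  obtain ⟨hc, C, a, hC, ha, h⟩ := hF
  refine Integrable.mono' ((integrable_exp_abs (a * |s|)).const_mul (C * Real.exp (a * |x|)))
    (by fun_prop) (ae_of_all _ fun g => ?_)
  rw [Real.norm_eq_abs]
  exact shift_bound hC ha h le_rfl le_rfl

theorem integrable_shift_mul (hF : EB F) (x s : ℝ) :
    Integrable (fun g => g * F (x + s * g)) gm := by
  obtain ⟨hc, C, a, hC, ha, h⟩ := hF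
  refine Integrable.mono' ((integrable_abs_exp_abs (a * |s|)).const_mul (C * Real.exp (a * |x|)))
    (by fun_prop) (ae_of_all _ fun g => ?_)
  rw [Real.norm_eq_abs, abs_mul, mul_left_comm]
  exact mul_le_mul_of_nonneg_left (shift_bound hC ha h le_rfl le_rfl) (abs_nonneg _)

end EB

/-- The Gaussian average of `F` with variance `s` around `x`. -/
noncomputable def heat (F : ℝ → ℝ) (s x : ℝ) : ℝ := ∫ g, F (x + √s * g) ∂gm

variable {F F1 F2 : ℝ → ℝ}

theorem heat_zero (F : ℝ → ℝ) (x : ℝ) : heat F 0 x = F x := by simp [heat]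

theorem continuous_heat (hF : EB F) : Continuous fun z : ℝ × ℝ => heat F z.1 z.2 := by
  obtain ⟨hc, C, a, hC, ha, h⟩ := hF
  refine continuous_iff_continuousAt.2 fun z => ?_
  refine continuousAt_of_dominated (bound := fun g => C * Real.exp (a * (|z.2| + 1)) *
    Real.exp (a * (√(z.1) + 1) * |g|)) (Eventually.of_forall fun w => (by fun_prop)) ?_
    ((integrable_exp_abs _).const_mul _) (ae_of_all _ fun g => by fun_prop)
  have h1 : ∀ᶠ w : ℝ × ℝ in 𝓝 z, |w.2| < |z.2| + 1 :=
    (continuous_snd.abs.tendsto z).eventually (gt_mem_nhds (by linarith))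
  have h2 : ∀ᶠ w : ℝ × ℝ in 𝓝 z, √w.1 < √z.1 + 1 :=
    (continuous_fst.sqrt.tendsto z).eventually (gt_mem_nhds (by linarith))
  filter_upwards [h1, h2] with w w1 w2
  refine ae_of_all _ fun g => ?_
  rw [Real.norm_eq_abs]
  exact EB.shift_bound hC ha h w1.le (by rw [abs_of_nonneg (Real.sqrt_nonneg _)]; exact w2.le)

theorem heat_bound (hF : EB F) (T : ℝ) : ∃ C a, 0 ≤ C ∧ 0 ≤ a ∧
    ∀ s x, s ≤ T → |heat F s x| ≤ C * Real.exp (a * |x|) := by
  obtain ⟨hc, C, a, hC, ha, h⟩ := hF
  set I := ∫ g, Real.exp (a * √T * |g|) ∂gm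
  have hI : 0 ≤ I := integral_nonneg fun g => (Real.exp_pos _).le
  refine ⟨C * I, a, mul_nonneg hC hI, ha, fun s x hs => ?_⟩
  refine (norm_integral_le_of_norm_le (f := fun g => F (x + √s * g))
    ((integrable_exp_abs (a * √T)).const_mul (C * Real.exp (a * |x|)))
    (ae_of_all _ fun g => ?_)).trans_eq ?_
  · rw [Real.norm_eq_abs]
    exact EB.shift_bound hC ha h le_rfl
      (by rw [abs_of_nonneg (Real.sqrt_nonneg _)]; exact Real.sqrt_le_sqrt hs)
  · rw [integral_const_mul]; ring

theorem EB.heat (hF : EB F) (s : ℝ) : EB (Formula.heat F s) := by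
  obtain ⟨C, a, hC, ha, h⟩ := heat_bound hF s
  exact ⟨(continuous_heat hF).comp (continuous_const.prodMk continuous_id), C, a, hC, ha,
    fun x => h s x le_rfl⟩

theorem hasDerivAt_heat (hd : ∀ x, HasDerivAt F (F1 x) x) (hF : EB F) (hF1 : EB F1) (s x : ℝ) :
    HasDerivAt (Formula.heat F s) (Formula.heat F1 s x) x := by
  obtain ⟨hc, C, a, hC, ha, h⟩ := hF1
  refine (hasDerivAt_integral_of_dominated_loc_of_deriv_le (μ := gm)
    (F := fun y g => F (y + √s * g)) (F' := fun y g => F1 (y + √s * g))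
    (bound := fun g => C * Real.exp (a * (|x| + 1)) * Real.exp (a * |√s| * |g|))
    (Metric.ball_mem_nhds x one_pos) (Eventually.of_forall fun y => (hF.1.comp (by fun_prop)).aestronglyMeasurable)
    (hF.integrable_shift x _) (hc.comp (by fun_prop)).aestronglyMeasurable
    (ae_of_all _ fun g y hy => ?_) ((integrable_exp_abs _).const_mul _)
    (ae_of_all _ fun g y _ => (hd _).comp_add_const y (√s * g))).2
  rw [Real.norm_eq_abs]
  rw [Metric.mem_ball, Real.dist_eq] at hy
  exact EB.shift_bound hC ha h (by linarith [abs_sub_abs_le_abs_sub y x]) le_rfl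

theorem ibp_shift (hd : ∀ x, HasDerivAt F (F1 x) x) (hF : EB F) (hF1 : EB F1) (x c : ℝ) :
    ∫ g, g * F (x + c * g) ∂gm = c * ∫ g, F1 (x + c * g) ∂gm := by
  rw [P166.ibp_real (u := fun g => F (x + c * g)) (u' := fun g => c * F1 (x + c * g))
    (fun g => by simpa [Function.comp_def, mul_comm] using (hd (x + c * g)).comp g (((hasDerivAt_id g).const_mul c).const_add x))
    (hF.integrable_shift x c) ((hF1.integrable_shift x c).const_mul c) (hF.integrable_shift_mul x c),
    integral_const_mul]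

theorem hasDerivAt_sqrt_mul {a : ℝ} (ha : 0 < a) (g : ℝ) :
    HasDerivAt (fun b : ℝ => √b * g) (g / (2 * √a)) a :=
  ((Real.hasDerivAt_sqrt ha.ne').mul_const g).congr_deriv (by ring)

/-- The inner average along a split `a + (T - a)` of the variance. -/
theorem hasDerivAt_split (hd : ∀ x, HasDerivAt F (F1 x) x) (hd1 : ∀ x, HasDerivAt F1 (F2 x) x)
    (hF : EB F) (hF1 : EB F1) (hF2 : EB F2) {T a : ℝ} (ha : 0 < a) (haT : a < T) (x g : ℝ) :
    HasDerivAt (fun b => Formula.heat F (T - b) (x + √b * g))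
      (g / (2 * √a) * Formula.heat F1 (T - a) (x + √a * g) -
        Formula.heat F2 (T - a) (x + √a * g) / 2) a := by
  have hF1' : EB F1 := hF1
  obtain ⟨hc, C, k, hC, hk, h⟩ := hF1
  set ε := min a (T - a) / 2 with hε
  have hε0 : 0 < ε := half_pos (lt_min ha (by linarith))
  have hεa : ε ≤ a / 2 := div_le_div_of_nonneg_right (min_le_left _ _) two_pos.le
  have hεT : ε ≤ (T - a) / 2 := div_le_div_of_nonneg_right (min_le_right _ _) two_pos.le
  set R := |x| + √T * |g| + 1
  have hball : ∀ b ∈ Metric.ball a ε, ε ≤ b ∧ ε ≤ T - b ∧ b ≤ T := fun b hb => by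
    rw [Metric.mem_ball, Real.dist_eq, abs_lt] at hb
    exact ⟨by linarith [hb.1], by linarith [hb.2], by linarith [hb.2]⟩
  have hd' : ∀ b ∈ Metric.ball a ε, ∀ g', HasDerivAt
      (fun c => F (x + √c * g + √(T - c) * g'))
      (F1 (x + √b * g + √(T - b) * g') * (g / (2 * √b) - g' / (2 * √(T - b)))) b := fun b hb g' => by
    obtain ⟨h1, h2, -⟩ := hball b hb
    have e := (hasDerivAt_sqrt_mul (a := T - b) (by linarith) g').comp b
      ((hasDerivAt_id b).const_sub T)
    refine (hd _).comp b ((((hasDerivAt_sqrt_mul (by linarith) g).const_add x).add e).congr_deriv ?_)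
    ring
  have key := (hasDerivAt_integral_of_dominated_loc_of_deriv_le (μ := gm)
    (F := fun b g' => F (x + √b * g + √(T - b) * g'))
    (F' := fun b g' => F1 (x + √b * g + √(T - b) * g') * (g / (2 * √b) - g' / (2 * √(T - b))))
    (bound := fun g' => C * Real.exp (k * R) / (2 * √ε) *
      (|g| * Real.exp (k * √T * |g'|) + |g'| * Real.exp (k * √T * |g'|)))
    (Metric.ball_mem_nhds a hε0) (Eventually.of_forall fun b => (hF.1.comp (by fun_prop)).aestronglyMeasurable)
    (hF.integrable_shift _ _) (by fun_prop) (ae_of_all _ fun g' b hb => ?_)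
    ((((integrable_exp_abs _).const_mul _).add (integrable_abs_exp_abs _)).const_mul _)
    (ae_of_all _ fun g' b hb => hd' b hb g')).2
  · refine key.congr_deriv ?_
    have hi := hF1'.integrable_shift (x + √a * g) (√(T - a))
    have hi' := hF1'.integrable_shift_mul (x + √a * g) (√(T - a))
    have e : ∀ g', F1 (x + √a * g + √(T - a) * g') * (g / (2 * √a) - g' / (2 * √(T - a)))
        = g / (2 * √a) * F1 (x + √a * g + √(T - a) * g') -
          (2 * √(T - a))⁻¹ * (g' * F1 (x + √a * g + √(T - a) * g')) := fun g' => by ring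
    simp only [e]
    rw [integral_sub (hi.const_mul _) (hi'.const_mul _), integral_const_mul, integral_const_mul,
      ibp_shift hd1 hF1' hF2]
    have : √(T - a) ≠ 0 := (Real.sqrt_pos.2 (by linarith)).ne'
    simp only [Formula.heat]
    field_simp
  · obtain ⟨h1, h2, h3⟩ := hball b hb
    rw [Real.norm_eq_abs, abs_mul]
    have hb1 : |g / (2 * √b) - g' / (2 * √(T - b))| ≤ (|g| + |g'|) / (2 * √ε) := by
      refine (abs_sub _ _).trans ?_
      rw [add_div, abs_div, abs_div, abs_of_nonneg (by positivity : 0 ≤ 2 * √b),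
        abs_of_nonneg (by positivity : 0 ≤ 2 * √(T - b))]
      refine add_le_add ?_ ?_ <;>
        exact div_le_div_of_nonneg_left (abs_nonneg _) (by positivity)
          (mul_le_mul_of_nonneg_left (Real.sqrt_le_sqrt (by assumption)) two_pos.le)
    have hx : |x + √b * g| ≤ R := by
      refine (abs_add_le _ _).trans ?_
      rw [abs_mul, abs_of_nonneg (Real.sqrt_nonneg _)]
      nlinarith [mul_le_mul_of_nonneg_right (Real.sqrt_le_sqrt h3) (abs_nonneg g)]
    refine (mul_le_mul (EB.shift_bound hC hk h hx (S := √T)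
      (by rw [abs_of_nonneg (Real.sqrt_nonneg _)]; exact Real.sqrt_le_sqrt (by linarith)))
      hb1 (abs_nonneg _) (by positivity)).trans_eq ?_
    ring

theorem heat_pos (hF : EB F) (hpos : ∀ x, 0 < F x) (s x : ℝ) : 0 < Formula.heat F s x := by
  refine (integral_pos_iff_support_of_nonneg (fun g => (hpos _).le) (hF.integrable_shift x _)).2 ?_
  rw [Function.support_eq_univ fun g => (hpos _).ne']
  simp

/-- The derivative along the split of the outer average of a function of the inner average. -/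
theorem hasDerivAt_evol {G G1 G2 : ℝ → ℝ} (hd : ∀ x, HasDerivAt F (F1 x) x)
    (hd1 : ∀ x, HasDerivAt F1 (F2 x) x) (hF : EB F) (hF1 : EB F1) (hF2 : EB F2)
    (hpos : ∀ x, 0 < F x) (hG : ∀ v, 0 < v → HasDerivAt G (G1 v) v)
    (hG1 : ∀ v, 0 < v → HasDerivAt G1 (G2 v) v) (hG2 : ContinuousOn G2 (Ioi 0))
    {T : ℝ} {C c : ℝ} (hC : 0 ≤ C) (hc : 0 ≤ c)
    (hb : ∀ s ∈ Icc 0 T, ∀ y, |G (Formula.heat F s y)| ≤ C * Real.exp (c * |y|) ∧
      |G1 (Formula.heat F s y)| ≤ C * Real.exp (c * |y|) ∧
      |G2 (Formula.heat F s y)| ≤ C * Real.exp (c * |y|))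
    {a : ℝ} (ha : 0 < a) (haT : a < T) (x : ℝ) :
    HasDerivAt (fun b => ∫ g, G (Formula.heat F (T - b) (x + √b * g)) ∂gm)
      ((∫ g, G2 (Formula.heat F (T - a) (x + √a * g)) *
        Formula.heat F1 (T - a) (x + √a * g) ^ 2 ∂gm) / 2) a := by
  set ε := min a (T - a) / 2 with hε
  have hε0 : 0 < ε := half_pos (lt_min ha (by linarith))
  have hεa : ε ≤ a / 2 := div_le_div_of_nonneg_right (min_le_left _ _) two_pos.le
  have hεT : ε ≤ (T - a) / 2 := div_le_div_of_nonneg_right (min_le_right _ _) two_pos.le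
  have hball : ∀ b ∈ Metric.ball a ε, ε ≤ b ∧ b ≤ T ∧ 0 < T - b := fun b hb => by
    rw [Metric.mem_ball, Real.dist_eq, abs_lt] at hb
    exact ⟨by linarith [hb.1], by linarith [hb.2], by linarith [hb.2]⟩
  have hGc : ContinuousOn G (Ioi 0) := fun v hv => (hG v hv).continuousAt.continuousWithinAt
  have hG1c : ContinuousOn G1 (Ioi 0) := fun v hv => (hG1 v hv).continuousAt.continuousWithinAt
  have hcomp : ∀ {H : ℝ → ℝ}, ContinuousOn H (Ioi 0) → ∀ s,
      Continuous fun y => H (Formula.heat F s y) := fun {H} hH s =>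
    hH.comp_continuous (hF.heat s).1 fun y => heat_pos hF hpos s y
  obtain ⟨C1, c1, hC1, hc1, hb1⟩ := heat_bound hF1 T
  obtain ⟨C2, c2, hC2, hc2, hb2⟩ := heat_bound hF2 T
  set S := √T
  set R : ℝ := |x|
  set bd : ℝ → ℝ := fun g => C * C1 * Real.exp ((c + c1) * R) / (2 * √ε) *
      (|g| * Real.exp ((c + c1) * S * |g|)) +
      C * C2 * Real.exp ((c + c2) * R) / 2 * Real.exp ((c + c2) * S * |g|) with hbd
  have hy : ∀ b ∈ Metric.ball a ε, ∀ g, |x + √b * g| ≤ R + S * |g| := fun b hb g => by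
    refine (abs_add_le _ _).trans (add_le_add le_rfl ?_)
    rw [abs_mul, abs_of_nonneg (Real.sqrt_nonneg _)]
    exact mul_le_mul_of_nonneg_right (Real.sqrt_le_sqrt (hball b hb).2.1) (abs_nonneg _)
  have key := (hasDerivAt_integral_of_dominated_loc_of_deriv_le (μ := gm)
    (F := fun b g => G (Formula.heat F (T - b) (x + √b * g)))
    (F' := fun b g => G1 (Formula.heat F (T - b) (x + √b * g)) *
      (g / (2 * √b) * Formula.heat F1 (T - b) (x + √b * g) -
        Formula.heat F2 (T - b) (x + √b * g) / 2))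
    (bound := bd) (Metric.ball_mem_nhds a hε0)
    (Eventually.of_forall fun b => ((hcomp hGc _).comp (by fun_prop)).aestronglyMeasurable)
    (EB.integrable_shift (F := fun y => G (Formula.heat F (T - a) y))
      ⟨hcomp hGc _, C, c, hC, hc, fun y => (hb _ ⟨by linarith, by linarith⟩ y).1⟩ x _)
    (((hcomp hG1c _).comp (by fun_prop)).mul
      ((((continuous_id.div_const _)).mul ((hF1.heat _).1.comp (by fun_prop))).sub
        (((hF2.heat _).1.comp (by fun_prop)).div_const _))).aestronglyMeasurable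
    (ae_of_all _ fun g b hb' => ?_)
    (((integrable_abs_exp_abs _).const_mul _).add ((integrable_exp_abs _).const_mul _))
    (ae_of_all _ fun g b hb' => HasDerivAt.comp b
      (h := fun b => Formula.heat F (T - b) (x + √b * g)) (hG _ (heat_pos hF hpos _ _))
      (hasDerivAt_split hd hd1 hF hF1 hF2 (hε0.trans_le (hball b hb').1)
        (by linarith [(hball b hb').2.2]) x g))).2
  · refine key.congr_deriv ?_
    set s := T - a
    have hs : s ∈ Icc 0 T := ⟨by linarith, by linarith⟩
    set v := Formula.heat F s with hv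
    set v1 := Formula.heat F1 s with hv1
    set v2 := Formula.heat F2 s with hv2
    have e0 : ∀ {H : ℝ → ℝ}, ContinuousOn H (Ioi 0) →
        (∀ y, |H (v y)| ≤ C * Real.exp (c * |y|)) → EB fun y => H (v y) := fun hH h =>
      ⟨hcomp hH s, C, c, hC, hc, h⟩
    have eG1 := e0 hG1c fun y => (hb s hs y).2.1
    have eG2 := e0 hG2 fun y => (hb s hs y).2.2
    have hφ : ∀ y, HasDerivAt (fun y => G1 (v y) * v1 y)
        (G2 (v y) * (v1 y * v1 y) + G1 (v y) * v2 y) y := fun y => by
      refine (((hG1 _ (heat_pos hF hpos _ _)).comp y (hasDerivAt_heat hd hF hF1 s y)).mul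
        (hasDerivAt_heat hd1 hF1 hF2 s y)).congr_deriv ?_
      simp only [hv, hv1, hv2, Function.comp]; ring
    have eφ1 := eG2.mul ((hF1.heat s).mul (hF1.heat s))
    have eφ2 := eG1.mul (hF2.heat s)
    have i1 := (eG1.mul (hF1.heat s)).integrable_shift_mul x (√a)
    have i2 := (eG1.mul (hF2.heat s)).integrable_shift x (√a)
    have e : ∀ g, G1 (v (x + √a * g)) * (g / (2 * √a) * v1 (x + √a * g) - v2 (x + √a * g) / 2)
        = (2 * √a)⁻¹ * (g * (G1 (v (x + √a * g)) * v1 (x + √a * g))) -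
          2⁻¹ * (G1 (v (x + √a * g)) * v2 (x + √a * g)) := fun g => by ring
    simp only [e]
    rw [integral_sub (i1.const_mul _) (i2.const_mul _), integral_const_mul, integral_const_mul,
      ibp_shift hφ (eG1.mul (hF1.heat s)) (eφ1.add eφ2),
      integral_add (eφ1.integrable_shift x _) (eφ2.integrable_shift x _)]
    have : √a ≠ 0 := (Real.sqrt_pos.2 ha).ne'
    simp only [← sq]
    field_simp
    ring
  · obtain ⟨h1, h2, h3⟩ := hball b hb'
    set y := x + √b * g
    have hy' := hy b hb' g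
    have hbs := hb (T - b) ⟨h3.le, by linarith [hε0.trans_le h1]⟩ y
    rw [Real.norm_eq_abs, abs_mul]
    have hsb : |g / (2 * √b)| ≤ |g| / (2 * √ε) := by
      rw [abs_div, abs_of_nonneg (by positivity : 0 ≤ 2 * √b)]
      exact div_le_div_of_nonneg_left (abs_nonneg _) (by positivity)
        (mul_le_mul_of_nonneg_left (Real.sqrt_le_sqrt h1) two_pos.le)
    have hex : ∀ {k : ℝ}, 0 ≤ k → Real.exp (c * |y|) * Real.exp (k * |y|)
        ≤ Real.exp ((c + k) * R) * Real.exp ((c + k) * S * |g|) := fun {k} hk => by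
      rw [← Real.exp_add, ← Real.exp_add, Real.exp_le_exp, ← add_mul, mul_assoc _ S, ← mul_add]
      exact mul_le_mul_of_nonneg_left hy' (add_nonneg hc hk)
    calc |G1 (Formula.heat F (T - b) y)| *
          |g / (2 * √b) * Formula.heat F1 (T - b) y - Formula.heat F2 (T - b) y / 2|
        ≤ C * Real.exp (c * |y|) * (|g| / (2 * √ε) * (C1 * Real.exp (c1 * |y|)) +
          C2 * Real.exp (c2 * |y|) / 2) := by
          refine mul_le_mul hbs.2.1 ((abs_sub _ _).trans (add_le_add ?_ ?_)) (abs_nonneg _)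
            (by positivity)
          · rw [abs_mul]
            exact mul_le_mul hsb (hb1 _ _ (by linarith [hε0.trans_le h1])) (abs_nonneg _)
              (by positivity)
          · rw [abs_div, abs_two]
            exact div_le_div_of_nonneg_right (hb2 _ _ (by linarith [hε0.trans_le h1])) two_pos.le
      _ = C * C1 / (2 * √ε) * |g| * (Real.exp (c * |y|) * Real.exp (c1 * |y|)) +
          C * C2 / 2 * (Real.exp (c * |y|) * Real.exp (c2 * |y|)) := by ring
      _ ≤ C * C1 / (2 * √ε) * |g| * (Real.exp ((c + c1) * R) * Real.exp ((c + c1) * S * |g|)) +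
          C * C2 / 2 * (Real.exp ((c + c2) * R) * Real.exp ((c + c2) * S * |g|)) :=
          add_le_add (mul_le_mul_of_nonneg_left (hex hc1) (by positivity))
            (mul_le_mul_of_nonneg_left (hex hc2) (by positivity))
      _ = bd g := by simp only [hbd]; ring

end Vale.Agent.P157.Formula
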