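import Vale.Agent.P157.Formula.Step

/-!
P157, formula: monotonicity of the tilted kernel of a step, and preservation of flatness.
-/

open MeasureTheory ProbabilityTheory Filter Topology Set

namespace Vale.Agent.P157.Formula

theorem integral_shift_gm {f : ℝ → ℝ} (hf : Continuous f) (c : ℝ) :
    ∫ g, f (g + c) ∂gm = ∫ g, f g * Real.exp (c * g - c ^ 2 / 2) ∂gm := by
  rw [← integral_map (φ := fun g => g + c) (by fun_prop) hf.aestronglyMeasurable,
    gaussianReal_map_add_const, zero_add, integral_gaussianReal_eq_integral_smul one_ne_zero,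
    integral_gaussianReal_eq_integral_smul one_ne_zero]
  refine integral_congr_ae (ae_of_all _ fun g => ?_)
  simp only [smul_eq_mul, gaussianPDFReal_def, sub_zero, NNReal.coe_one, mul_one]
  rw [mul_assoc, mul_assoc]
  congr 1
  rw [mul_left_comm, ← Real.exp_add, mul_comm (f g)]
  congr 2
  ring

theorem EB.exp_linear (c : ℝ) : EB fun g => Real.exp (c * g) :=
  EB.exp_of_linear (continuous_const.mul continuous_id) (abs_nonneg c) (c := 0) fun g => by
    simpa [abs_mul] using le_abs_self (c * g)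

theorem EB.cosh (c : ℝ) : EB fun g => Real.cosh (c * g) := by
  have : (fun g => Real.cosh (c * g)) = fun g => 2⁻¹ * (Real.exp (c * g) + Real.exp (-c * g)) :=
    funext fun g => by rw [Real.cosh_eq, neg_mul]; ring
  exact this ▸ ((EB.exp_linear c).add (EB.exp_linear (-c))).const_mul _

theorem EB.scale {F : ℝ → ℝ} (hF : EB F) (r : ℝ) : EB fun g => F (r * g) := by
  obtain ⟨hc, C, a, hC, ha, h⟩ := hF
  exact ⟨hc.comp (continuous_const.mul continuous_id), C, a * |r|, hC, mul_nonneg ha (abs_nonneg r),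
    fun g => (h _).trans (by rw [abs_mul, mul_assoc])⟩

theorem EB.integrable {F : ℝ → ℝ} (hF : EB F) : Integrable F gm := by
  simpa using hF.integrable_shift 0 1

theorem EB.sub {F G : ℝ → ℝ} (hF : EB F) (hG : EB G) : EB fun x => F x - G x := by
  simpa [sub_eq_add_neg] using hF.add (hG.const_mul (-1))

/-- Translation turns the average of an even function into a hyperbolic cosine weight. -/
theorem heat_even_eq {H : ℝ → ℝ} (hH : EB H) (he : ∀ y, H (-y) = H y) {s : ℝ} (hs : 0 < s) (x : ℝ) :
    heat H s x = Real.exp (-(x / √s) ^ 2 / 2) *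
      ∫ g, H (√s * g) * Real.cosh (x / √s * g) ∂gm := by
  have hr : √s ≠ 0 := (Real.sqrt_pos.2 hs).ne'
  set k := x / √s with hk
  have hc : Continuous fun g => H (√s * g) := (hH.scale _).1
  have i : ∀ c : ℝ, Integrable (fun g => H (√s * g) * Real.exp (c * g)) gm := fun c =>
    ((hH.scale _).mul (EB.exp_linear c)).integrable
  have e : heat H s x = Real.exp (-k ^ 2 / 2) * ∫ g, H (√s * g) * Real.exp (k * g) ∂gm := by
    have : ∀ g, x + √s * g = √s * (g + k) := fun g => by rw [hk]; field_simp; ring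
    simp only [heat, this]
    rw [integral_shift_gm hc k, ← integral_const_mul]
    refine integral_congr_ae (ae_of_all _ fun g => ?_)
    simp only
    rw [mul_left_comm, ← Real.exp_add]; ring_nf
  have e' : ∫ g, H (√s * g) * Real.exp (k * g) ∂gm = ∫ g, H (√s * g) * Real.exp (-k * g) ∂gm := by
    have h : gm.map (fun g => -g) = gm := by rw [gaussianReal_map_neg, neg_zero]
    have hf : Continuous fun g => H (√s * g) * Real.exp (k * g) :=
      hc.mul (EB.exp_linear k).1
    conv_lhs => rw [← h, integral_map (by fun_prop) hf.aestronglyMeasurable]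
    simp [he, mul_neg]
  have e2 : ∀ g, H (√s * g) * Real.cosh (k * g) =
      2⁻¹ * (H (√s * g) * Real.exp (k * g) + H (√s * g) * Real.exp (-k * g)) := fun g => by
    rw [Real.cosh_eq, neg_mul]; ring
  rw [e]
  simp only [e2]
  rw [integral_const_mul, integral_add (i k) (i (-k)), ← e']
  ring

/-- Chebyshev's inequality for two comonotone functions. -/
theorem cheb {P u v : ℝ → ℝ} (h0 : ∀ g, 0 ≤ P g) (hP : Integrable P gm)
    (hu : Integrable (fun g => P g * u g) gm) (hv : Integrable (fun g => P g * v g) gm)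
    (huv : Integrable (fun g => P g * (u g * v g)) gm)
    (h : ∀ g g', 0 ≤ (u g - u g') * (v g - v g')) :
    (∫ g, P g * u g ∂gm) * (∫ g, P g * v g ∂gm) ≤
      (∫ g, P g ∂gm) * ∫ g, P g * (u g * v g) ∂gm := by
  have h1 := integral_nonneg (μ := gm.prod gm)
    (f := fun z => P z.1 * P z.2 * ((u z.1 - u z.2) * (v z.1 - v z.2)))
    fun z => mul_nonneg (mul_nonneg (h0 _) (h0 _)) (h _ _)
  have e : (fun z : ℝ × ℝ => P z.1 * P z.2 * ((u z.1 - u z.2) * (v z.1 - v z.2))) = fun z =>
      (P z.1 * (u z.1 * v z.1)) * P z.2 + P z.1 * (P z.2 * (u z.2 * v z.2)) -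
        ((P z.1 * u z.1) * (P z.2 * v z.2) + (P z.1 * v z.1) * (P z.2 * u z.2)) :=
    funext fun z => by ring
  simp only [e] at h1
  have hsub := integral_sub (μ := gm.prod gm) ((huv.mul_prod hP).add (hP.mul_prod huv))
    ((hu.mul_prod hv).add (hv.mul_prod hu))
  have a1 := integral_add (μ := gm.prod gm) (huv.mul_prod hP) (hP.mul_prod huv)
  have a2 := integral_add (μ := gm.prod gm) (hu.mul_prod hv) (hv.mul_prod hu)
  simp only [Pi.add_apply] at hsub
  rw [hsub, a1, a2] at h1
  simp only [integral_prod_mul (μ := gm) (ν := gm) (fun g => P g * (u g * v g)) P,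
    integral_prod_mul (μ := gm) (ν := gm) P (fun g => P g * (u g * v g)),
    integral_prod_mul (μ := gm) (ν := gm) (fun g => P g * u g) (fun g => P g * v g),
    integral_prod_mul (μ := gm) (ν := gm) (fun g => P g * v g) (fun g => P g * u g)] at h1
  nlinarith [h1]

theorem cosh_cross {k k' a b : ℝ} (hk : 0 ≤ k) (hkk : k ≤ k') (hb : 0 ≤ b) (hab : b ≤ a) :
    Real.cosh (k * a) * Real.cosh (k' * b) ≤ Real.cosh (k' * a) * Real.cosh (k * b) := by
  have e : ∀ A B : ℝ, Real.cosh A * Real.cosh B = (Real.cosh (A + B) + Real.cosh (A - B)) / 2 :=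
    fun A B => by rw [Real.cosh_add, Real.cosh_sub]; ring
  rw [e, e]
  refine div_le_div_of_nonneg_right (add_le_add (Real.cosh_le_cosh.2 ?_) (Real.cosh_le_cosh.2 ?_))
    two_pos.le
  · rw [abs_of_nonneg (by nlinarith), abs_of_nonneg (by nlinarith)]; nlinarith
  · rw [abs_of_nonneg (a := k' * a - k * b) (by nlinarith), abs_le]
    constructor <;> nlinarith

/-- The first function is flatter than the second. -/
def Flat (X Y : ℝ → ℝ) : Prop := AntitoneOn (fun x => X x - Y x) (Ici 0)

theorem Flat.refl (X : ℝ → ℝ) : Flat X X := fun _ _ _ _ _ => by simp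

theorem Flat.trans {X Y Z : ℝ → ℝ} (h : Flat X Y) (h' : Flat Y Z) : Flat X Z :=
  fun x hx y hy hxy => by linarith [h hx hy hxy, h' hx hy hxy]

theorem mono_abs {F : ℝ → ℝ} (he : ∀ y, F (-y) = F y) (y : ℝ) : F y = F |y| := by
  rcases abs_choice y with h | h <;> rw [h]
  exact (he y).symm

section

variable {X : ℝ → ℝ} {F : ℝ → ℝ} (hX : Nice X) {m s : ℝ}
  (hF : EB F) (heF : ∀ y, F (-y) = F y)
include hX hF heF

theorem ker_even (x : ℝ) : ker m s X F (-x) = ker m s X F x := by
  simp only [ker]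
  rw [heat_neg (fun y => by rw [heF, hX.even]) (hF.mul (hX.eb_exp m)).1,
    heat_neg (fun y => by rw [hX.even]) (hX.eb_exp m).1]

theorem ker_monotoneOn (hm : MonotoneOn F (Ici 0)) : MonotoneOn (ker m s X F) (Ici 0) := by
  intro x hx y hy hxy
  rcases le_or_gt s 0 with hs | hs
  · simp only [ker, heat, Real.sqrt_eq_zero_of_nonpos hs, zero_mul, add_zero,
      integral_const, probReal_univ, one_smul]
    rw [mul_div_assoc, mul_div_assoc, div_self (Real.exp_pos _).ne', div_self (Real.exp_pos _).ne',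
      mul_one, mul_one]
    exact hm hx hy hxy
  set r := √s with hr
  have hr0 : 0 < r := Real.sqrt_pos.2 hs
  set k := x / r
  set k' := y / r
  have hk : 0 ≤ k := div_nonneg hx hr0.le
  have hkk : k ≤ k' := div_le_div_of_nonneg_right hxy hr0.le
  set P := fun g => Real.exp (m * X (r * g)) * Real.cosh (k * g) with hP
  set v := fun g => Real.cosh (k' * g) / Real.cosh (k * g) with hv
  have hE := (hX.eb_exp m).scale r
  have eP : ∀ g, P g * v g = Real.exp (m * X (r * g)) * Real.cosh (k' * g) := fun g => by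
    simp only [hP, hv]; field_simp [(Real.cosh_pos (k * g)).ne']
  have ePu : ∀ g, P g * (F (r * g) * v g) =
      F (r * g) * (Real.exp (m * X (r * g)) * Real.cosh (k' * g)) := fun g => by
    rw [← eP]; ring
  have key := cheb (P := P) (u := fun g => F (r * g)) (v := v)
    (fun g => (mul_pos (Real.exp_pos _) (Real.cosh_pos _)).le)
    (hE.mul (EB.cosh k)).integrable ((hE.mul (EB.cosh k)).mul (hF.scale r)).integrable
    (by simp only [eP]; exact (hE.mul (EB.cosh k')).integrable)
    (by simp only [ePu]; exact ((hF.scale r).mul (hE.mul (EB.cosh k'))).integrable)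
    fun g g' => by
      have key : ∀ a b : ℝ, 0 ≤ b → b ≤ a →
          0 ≤ (F (r * a) - F (r * b)) * (v a - v b) := fun a b hb hab => by
        refine mul_nonneg (sub_nonneg.2 (hm (mul_nonneg hr0.le hb)
          (mul_nonneg hr0.le (hb.trans hab)) (mul_le_mul_of_nonneg_left hab hr0.le))) (sub_nonneg.2 ?_)
        simp only [hv]
        rw [div_le_div_iff₀ (Real.cosh_pos _) (Real.cosh_pos _)]
        linarith [cosh_cross hk hkk hb hab]
      have e1 : ∀ g, F (r * g) = F (r * |g|) := fun g =>
        mono_abs (F := fun g => F (r * g)) (fun g => by rw [mul_neg, heF]) g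
      have e2 : ∀ g, v g = v |g| :=
        mono_abs (fun g => by simp only [hv, mul_neg, Real.cosh_neg])
      rw [e1 g, e1 g', e2 g, e2 g']
      rcases le_total |g'| |g| with h | h
      · exact key _ _ (abs_nonneg _) h
      · have := key _ _ (abs_nonneg _) h; linarith
  simp only [eP, ePu] at key
  have hden : ∀ z, 0 < ∫ g, Real.exp (m * X (r * g)) * Real.cosh (z * g) ∂gm := fun z => by
    refine (integral_pos_iff_support_of_nonneg
      (fun g => (mul_pos (Real.exp_pos _) (Real.cosh_pos _)).le) (hE.mul (EB.cosh z)).integrable).2 ?_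
    rw [Function.support_eq_univ fun g => (mul_pos (Real.exp_pos _) (Real.cosh_pos _)).ne']
    simp
  have ev : ∀ z, ker m s X F z =
      (∫ g, F (r * g) * (Real.exp (m * X (r * g)) * Real.cosh (z / r * g)) ∂gm) /
        ∫ g, Real.exp (m * X (r * g)) * Real.cosh (z / r * g) ∂gm := fun z => by
    rw [ker, heat_even_eq (hF.mul (hX.eb_exp m)) (fun y => by rw [heF, hX.even]) hs,
      heat_even_eq (hX.eb_exp m) (fun y => by rw [hX.even]) hs,
      mul_div_mul_left _ _ (Real.exp_pos _).ne']
    simp only [mul_assoc, hr]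
  rw [ev, ev, div_le_div_iff₀ (hden _) (hden _)]
  have e3 : ∫ g, P g * F (r * g) ∂gm =
      ∫ g, F (r * g) * (Real.exp (m * X (r * g)) * Real.cosh (k * g)) ∂gm :=
    integral_congr_ae (ae_of_all _ fun g => mul_comm _ _)
  rw [e3] at key
  linarith [key]

theorem ker_antitoneOn (hm : AntitoneOn F (Ici 0)) : AntitoneOn (ker m s X F) (Ici 0) := by
  have h := ker_monotoneOn (m := m) (s := s) hX (hF.const_mul (-1))
    (fun y => by rw [heF]) fun a ha b hb hab => by simpa using hm ha hb hab
  intro x hx y hy hxy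
  have := h hx hy hxy
  simp only [ker, mul_assoc, heat_const_mul] at this
  simp only [ker]
  rw [neg_one_mul, neg_one_mul, neg_div, neg_div, neg_le_neg_iff] at this
  exact this

/-- Flattening the tilt lowers the kernel on functions increasing in `|x|`. -/
theorem ker_le_of_flat {Y : ℝ → ℝ} (hY : Nice Y) (hm0 : 0 ≤ m) (hYX : Flat Y X)
    (hm : MonotoneOn F (Ici 0)) (x : ℝ) : ker m s Y F x ≤ ker m s X F x := by
  set P := fun g => Real.exp (m * X (x + √s * g))
  set h := fun g => Real.exp (m * (Y (x + √s * g) - X (x + √s * g)))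
  have ePh : ∀ g, P g * h g = Real.exp (m * Y (x + √s * g)) := fun g => by
    simp only [P, h]; rw [← Real.exp_add]; ring_nf
  have ePhu : ∀ g, P g * (F (x + √s * g) * -h g) =
      -(F (x + √s * g) * Real.exp (m * Y (x + √s * g))) := fun g => by rw [← ePh]; ring
  have ePhn : ∀ g, P g * -h g = -Real.exp (m * Y (x + √s * g)) := fun g => by rw [← ePh]; ring
  have key := cheb (P := P) (u := fun g => F (x + √s * g)) (v := fun g => -h g)
    (fun g => (Real.exp_pos _).le) ((hX.eb_exp m).integrable_shift x _)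
    (((hX.eb_exp m).mul hF).integrable_shift x _)
    (by simp only [ePhn]; exact ((hY.eb_exp m).integrable_shift x _).neg)
    (by simp only [ePhu]; exact ((hF.mul (hY.eb_exp m)).integrable_shift x _).neg)
    fun g g' => by
      have hD : ∀ y, Y y - X y = Y |y| - X |y| := mono_abs fun y => by rw [hY.even, hX.even]
      have key : ∀ a b : ℝ, |b| ≤ |a| →
          0 ≤ (F a - F b) * (-Real.exp (m * (Y a - X a)) - -Real.exp (m * (Y b - X b))) :=
        fun a b hab => by
        rw [mono_abs heF a, mono_abs heF b, hD a, hD b]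
        refine mul_nonneg (sub_nonneg.2 (hm (abs_nonneg b) (abs_nonneg a) hab)) ?_
        rw [neg_sub_neg, sub_nonneg, Real.exp_le_exp]
        exact mul_le_mul_of_nonneg_left (hYX (abs_nonneg b) (abs_nonneg a) hab) hm0
      rcases le_total |x + √s * g'| |x + √s * g| with h' | h'
      · exact key _ _ h'
      · have := key _ _ h'; simp only [h]; linarith
  simp only [ePhn, ePhu, integral_neg] at key
  have e3 : ∫ g, P g * F (x + √s * g) ∂gm = heat (fun y => F y * Real.exp (m * X y)) s x :=
    integral_congr_ae (ae_of_all _ fun g => mul_comm _ _)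
  rw [e3] at key
  rw [ker, ker, div_le_div_iff₀ (den_pos hY m s x) (den_pos hX m s x)]
  simp only [heat] at key ⊢
  linarith [key]

theorem ker_ge_of_flat {Y : ℝ → ℝ} (hY : Nice Y) (hm0 : 0 ≤ m) (hYX : Flat Y X)
    (hm : AntitoneOn F (Ici 0)) (x : ℝ) : ker m s X F x ≤ ker m s Y F x := by
  have h := ker_le_of_flat (s := s) hX (hF.const_mul (-1)) (fun y => by rw [heF]) hY hm0 hYX
    (fun a ha b hb hab => by simpa using hm ha hb hab) x
  simp only [ker, mul_assoc, heat_const_mul] at h
  simp only [ker]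
  rw [neg_one_mul, neg_one_mul, neg_div, neg_div, neg_le_neg_iff] at h
  exact h

end

/-- The increment of a step is the log-average of the increment under the tilted kernel. -/
theorem exp_step_sub {X Y : ℝ → ℝ} (hX : Nice X) (hY : Nice Y) {m : ℝ} (hm : m ≠ 0) (s x : ℝ) :
    Real.exp (m * (step m s Y x - step m s X x)) =
      ker m s X (fun y => Real.exp (m * (Y y - X y))) x := by
  rw [mul_sub, Real.exp_sub, exp_step hY hm, exp_step hX hm, ker]
  congr 2
  funext y
  rw [← Real.exp_add]; ring_nf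

theorem step_zero_sub {X Y : ℝ → ℝ} (hX : Nice X) (hY : Nice Y) (s x : ℝ) :
    step 0 s Y x - step 0 s X x = heat (fun y => Y y - X y) s x := by
  simp only [step_zero_left, heat]
  rw [integral_sub (hY.eb.integrable_shift x _) (hX.eb.integrable_shift x _)]

theorem eb_exp_sub {X Y : ℝ → ℝ} (hX : Nice X) (hY : Nice Y) (m : ℝ) :
    EB fun y => Real.exp (m * (Y y - X y)) := by
  have : (fun y => Real.exp (m * (Y y - X y))) =
      fun y => Real.exp (m * Y y) * Real.exp (-m * X y) :=
    funext fun y => by rw [← Real.exp_add]; ring_nf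
  exact this ▸ (hY.eb_exp m).mul (hX.eb_exp (-m))

theorem Flat.exp {X Y : ℝ → ℝ} (h : Flat Y X) {m : ℝ} (hm : 0 ≤ m) :
    AntitoneOn (fun y => Real.exp (m * (Y y - X y))) (Ici 0) := fun _ hx _ hy hxy =>
  Real.exp_le_exp.2 (mul_le_mul_of_nonneg_left (h hx hy hxy) hm)

theorem Flat.step {X Y : ℝ → ℝ} (hX : Nice X) (hY : Nice Y) (h : Flat Y X) {m : ℝ} (hm : 0 ≤ m)
    (s : ℝ) : Flat (Formula.step m s Y) (Formula.step m s X) := by
  intro x hx y hy hxy
  rcases hm.eq_or_lt with rfl | hm0
  · simp only [step_zero_sub hX hY]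
    have hk := ker_antitoneOn (m := 0) (s := s) hX (hY.eb.sub hX.eb)
      (fun y => by rw [hY.even, hX.even]) h hx hy hxy
    simpa [ker, heat_const] using hk
  · have hk := ker_antitoneOn (m := m) (s := s) hX (eb_exp_sub hX hY m)
      (fun y => by rw [hY.even, hX.even]) (h.exp hm) hx hy hxy
    rw [← exp_step_sub hX hY hm0.ne', ← exp_step_sub hX hY hm0.ne', Real.exp_le_exp] at hk
    exact le_of_mul_le_mul_left hk hm0

theorem Nice.deriv_neg {X : ℝ → ℝ} (hX : Nice X) (x : ℝ) : deriv X (-x) = -deriv X x := by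
  have h : HasDerivAt X (-deriv X (-x)) x := by
    have := HasDerivAt.comp x (h := fun y => -y) (hX.d1 (-x)) (hasDerivAt_neg x)
    simpa [Function.comp_def, hX.even] using this
  linarith [h.unique (hX.d1 x)]

theorem Nice.sq_monotoneOn {X : ℝ → ℝ} (hX : Nice X) :
    MonotoneOn (fun y => deriv X y ^ 2) (Ici 0) := fun _ hx _ _ hxy =>
  pow_le_pow_left₀ (hX.deriv_zero.symm.trans_le (hX.monotone_deriv hx)) (hX.monotone_deriv hxy) 2

theorem Flat.deriv_sq_le {X Y : ℝ → ℝ} (hX : Nice X) (hY : Nice Y) (h : Flat Y X) (x : ℝ) :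
    deriv Y x ^ 2 ≤ deriv X x ^ 2 := by
  have hs : ∀ {Z : ℝ → ℝ}, Nice Z → ∀ z, deriv Z z ^ 2 = deriv Z |z| ^ 2 := fun {Z} hZ =>
    mono_abs fun z => by rw [hZ.deriv_neg, neg_sq]
  rw [hs hY, hs hX]
  have hx := abs_nonneg x
  refine pow_le_pow_left₀ (hY.deriv_zero.symm.trans_le (hY.monotone_deriv hx)) ?_ 2
  have hd : HasDerivWithinAt (fun x => Y x - X x) (deriv Y |x| - deriv X |x|) (Ici |x|) |x| :=
    ((hY.d1 _).sub (hX.d1 _)).hasDerivWithinAt
  have := hd.nonpos_of_antitoneOn (accPt_principal_iff_nhdsWithin.2 ?_)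
    (h.mono (Ici_subset_Ici.2 hx))
  · linarith
  · exact NeBot.mono (nhdsGT_neBot _) (nhdsWithin_mono _ fun z hz => ⟨le_of_lt (mem_Ioi.1 hz), fun e => (ne_of_gt (mem_Ioi.1 hz)) e⟩)

/-- Under flattened tilts the averaged squared derivatives decrease. -/
theorem ker_sq_le {X Y : ℝ → ℝ} (hX : Nice X) (hY : Nice Y) (h : Flat Y X) {m : ℝ} (hm : 0 ≤ m)
    (s x : ℝ) {X' Y' : ℝ → ℝ} (hX' : Nice X') (hY' : Nice Y') (h' : Flat Y' X') :
    ker m s Y (fun y => deriv Y' y ^ 2) x ≤ ker m s X (fun y => deriv X' y ^ 2) x :=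
  (ker_mono hY m s x hY'.eb_sq hX'.eb_sq (h'.deriv_sq_le hX' hY')).trans
    (ker_le_of_flat hX hX'.eb_sq (fun y => by rw [hX'.deriv_neg, neg_sq]) hY hm h
      hX'.sq_monotoneOn x)

end Vale.Agent.P157.Formula
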