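import Vale.Agent.P157.Formula.Kernel

/-!
P157, formula: moving variance from an inner step to an outer step with smaller parameter.
-/

open MeasureTheory ProbabilityTheory Filter Topology Set

namespace Vale.Agent.P157.Formula

/-- Two steps splitting the variance `T` at `a`. -/
noncomputable def two (m m' T : ℝ) (X : ℝ → ℝ) (a : ℝ) : ℝ → ℝ :=
  step m a (step m' (T - a) X)

variable {X : ℝ → ℝ}

theorem log_heat_bound (hX : Nice X) {m' : ℝ} (hm' : 0 < m') (T : ℝ) :
    ∃ A, 0 ≤ A ∧ ∀ s ∈ Icc 0 T, ∀ y,
      |Real.log (heat (fun z => Real.exp (m' * X z)) s y)| ≤ A + m' * |y| := by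
  have hc : Continuous fun s => Real.log (heat (fun z => Real.exp (m' * X z)) s 0) :=
    ((continuous_heat (hX.eb_exp m')).comp (continuous_id.prodMk continuous_const)).log
      fun s => (den_pos hX m' s 0).ne'
  obtain ⟨A, hA⟩ := isCompact_Icc.exists_bound_of_continuousOn (s := Icc 0 T) hc.continuousOn
  refine ⟨|A|, abs_nonneg A, fun s hs y => ?_⟩
  have h : ∀ z, Real.log (heat (fun z => Real.exp (m' * X z)) s z) = m' * step m' s X z :=
    fun z => by rw [← exp_step hX hm'.ne', Real.log_exp]
  have h0 := hA s hs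
  rw [Real.norm_eq_abs, h, abs_mul, abs_of_pos hm'] at h0
  rw [h, abs_mul, abs_of_pos hm']
  have h1 := (hX.step hm'.le s).abs_sub_le y
  nlinarith [abs_sub_abs_le_abs_sub (step m' s X y) (step m' s X 0), abs_nonneg A, le_abs_self A,
    mul_le_mul_of_nonneg_left h1 hm'.le]

theorem exp_mul_bound {A k q L y : ℝ} (h : |L| ≤ A + k * |y|) {M : ℝ} (hq : |q| ≤ M)
    {C : ℝ} (hC : 1 ≤ C) : Real.exp (q * L) ≤ C * (Real.exp (M * A) * Real.exp (M * k * |y|)) := by
  refine le_trans ?_ (le_mul_of_one_le_left (by positivity) hC)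
  rw [← Real.exp_add, Real.exp_le_exp]
  refine (le_abs_self _).trans ?_
  rw [abs_mul, mul_assoc, ← mul_add]
  exact mul_le_mul hq h (abs_nonneg _) ((abs_nonneg q).trans hq)

/-- The derivative and the continuity of an averaged function of the inner exponential average. -/
theorem evol_facts (hX : Nice X) {m' : ℝ} {G G1 G2 : ℝ → ℝ}
    (hG : ∀ v, 0 < v → HasDerivAt G (G1 v) v) (hG1 : ∀ v, 0 < v → HasDerivAt G1 (G2 v) v)
    (hG2 : ContinuousOn G2 (Ioi 0)) {T C c : ℝ} (hC : 0 ≤ C) (hc : 0 ≤ c)
    (hb : ∀ s ∈ Icc 0 T, ∀ y, |G (heat (fun z => Real.exp (m' * X z)) s y)| ≤ C * Real.exp (c * |y|) ∧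
      |G1 (heat (fun z => Real.exp (m' * X z)) s y)| ≤ C * Real.exp (c * |y|) ∧
      |G2 (heat (fun z => Real.exp (m' * X z)) s y)| ≤ C * Real.exp (c * |y|)) (x : ℝ) :
    ContinuousOn
        (fun a => heat (fun y => G (heat (fun z => Real.exp (m' * X z)) (T - a) y)) a x) (Icc 0 T) ∧
      ∀ a ∈ Ioo 0 T, HasDerivAt
        (fun a => heat (fun y => G (heat (fun z => Real.exp (m' * X z)) (T - a) y)) a x)
        (heat (fun y => G2 (heat (fun z => Real.exp (m' * X z)) (T - a) y) *
          heat (fun z => m' * deriv X z * Real.exp (m' * X z)) (T - a) y ^ 2) a x / 2) a := by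
  have hF := hX.eb_exp m'
  refine ⟨fun a ha => ?_, fun a ha => ?_⟩
  · have hcomp : Continuous fun z : ℝ × ℝ => G (heat (fun z => Real.exp (m' * X z)) z.1 z.2) :=
      ContinuousOn.comp_continuous (fun v hv => (hG v hv).continuousAt.continuousWithinAt)
        (continuous_heat hF) fun z => den_pos hX m' z.1 z.2
    refine continuousWithinAt_of_dominated (bound := fun g => C * Real.exp (c * |x|) *
      Real.exp (c * √T * |g|)) (Eventually.of_forall fun b => ?_) ?_
      ((integrable_exp_abs _).const_mul _) (ae_of_all _ fun g => ?_)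
    · exact (hcomp.comp (by fun_prop : Continuous fun g => (T - b, x + √b * g))).aestronglyMeasurable
    · refine eventually_nhdsWithin_of_forall fun b hb' => ae_of_all _ fun g => ?_
      rw [Real.norm_eq_abs]
      refine ((hb _ ⟨by linarith [hb'.2], by linarith [hb'.1]⟩ _).1).trans ?_
      rw [mul_assoc, ← Real.exp_add]
      refine mul_le_mul_of_nonneg_left (Real.exp_le_exp.2 ?_) hC
      rw [mul_assoc, ← mul_add]
      refine mul_le_mul_of_nonneg_left ((abs_add_le _ _).trans (add_le_add le_rfl ?_)) hc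
      rw [abs_mul, abs_of_nonneg (Real.sqrt_nonneg _)]
      exact mul_le_mul_of_nonneg_right (Real.sqrt_le_sqrt hb'.2) (abs_nonneg g)
    · exact ((hcomp.comp (by fun_prop : Continuous fun b => (T - b, x + √b * g)))).continuousWithinAt
  · have hd1 : ∀ y, HasDerivAt (fun z => m' * deriv X z * Real.exp (m' * X z))
        (m' * deriv (deriv X) y * Real.exp (m' * X y) +
          m' * deriv X y * (m' * deriv X y * Real.exp (m' * X y))) y := fun y =>
      ((hX.d2 y).const_mul m').mul (hasDerivAt_exp_mul hX m' y)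
    exact hasDerivAt_evol (hasDerivAt_exp_mul hX m') hd1 hF ((hX.eb1.const_mul m').mul hF)
      (((hX.eb2.const_mul m').mul hF).add ((hX.eb1.const_mul m').mul ((hX.eb1.const_mul m').mul hF)))
      (fun _ => Real.exp_pos _) hG hG1 hG2 hC hc hb ha.1 ha.2 x

theorem two_facts (hX : Nice X) {m m' : ℝ} (hm : 0 ≤ m) (hmm : m < m') (T x : ℝ) :
    ContinuousOn (fun a => two m m' T X a x) (Icc 0 T) ∧
      ∀ a ∈ Ioo 0 T, HasDerivAt (fun a => two m m' T X a x)
        (-((m' - m) / 2) * ker m a (step m' (T - a) X)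
          (fun y => deriv (step m' (T - a) X) y ^ 2) x) a := by
  have hm' : 0 < m' := hm.trans_lt hmm
  obtain ⟨A, hA0, hA⟩ := log_heat_bound hX hm' T
  set F := fun z => Real.exp (m' * X z) with hFdef
  have e1 : ∀ s y, heat (fun z => m' * deriv X z * Real.exp (m' * X z)) s y =
      m' * deriv (step m' s X) y * heat F s y := fun s y => by
    rw [deriv_step hX, ker, mul_assoc, div_mul_cancel₀ _ (den_pos hX m' s y).ne']
    simp only [mul_assoc, heat_const_mul]
  have eL : ∀ s y, Real.log (heat F s y) = m' * step m' s X y := fun s y => by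
    rw [hFdef, ← exp_step hX hm'.ne', Real.log_exp]
  have ev : ∀ s y, heat F s y = Real.exp (Real.log (heat F s y)) := fun s y =>
    (Real.exp_log (den_pos hX m' s y)).symm
  rcases hm.eq_or_lt with rfl | hm0
  · -- logarithm
    have hb : ∀ s ∈ Icc 0 T, ∀ y, |m'⁻¹ * Real.log (heat F s y)| ≤
          (m'⁻¹ + 1) * (A + 1 + Real.exp (2 * A)) * Real.exp ((2 * m' + 1) * |y|) ∧
        |m'⁻¹ * (heat F s y)⁻¹| ≤
          (m'⁻¹ + 1) * (A + 1 + Real.exp (2 * A)) * Real.exp ((2 * m' + 1) * |y|) ∧
        |-(m'⁻¹ * ((heat F s y) ^ 2)⁻¹)| ≤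
          (m'⁻¹ + 1) * (A + 1 + Real.exp (2 * A)) * Real.exp ((2 * m' + 1) * |y|) := by
      intro s hs y
      have h := hA s hs y
      have hi : 0 < m'⁻¹ := inv_pos.2 hm'
      have hy := abs_nonneg y
      have hE : Real.exp (2 * m' * |y|) ≤ Real.exp ((2 * m' + 1) * |y|) :=
        Real.exp_le_exp.2 (by nlinarith)
      have h1 : ∀ q, |q| ≤ 2 → m'⁻¹ * Real.exp (q * Real.log (heat F s y)) ≤
          (m'⁻¹ + 1) * (A + 1 + Real.exp (2 * A)) * Real.exp ((2 * m' + 1) * |y|) := fun q hq => by
        refine (mul_le_mul_of_nonneg_left (exp_mul_bound h hq le_rfl) hi.le).trans ?_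
        rw [one_mul, mul_assoc (m'⁻¹ + 1)]
        exact mul_le_mul (by linarith) (mul_le_mul (by linarith) hE (Real.exp_pos _).le (by positivity))
          (by positivity) (by positivity)
      refine ⟨?_, ?_, ?_⟩
      · rw [abs_mul, abs_of_pos hi, mul_assoc (m'⁻¹ + 1)]
        refine mul_le_mul (by linarith) (h.trans ?_) (abs_nonneg _) (by positivity)
        have h2 := Real.add_one_le_exp ((2 * m' + 1) * |y|)
        nlinarith [Real.exp_pos (2 * A), Real.one_le_exp (show 0 ≤ (2 * m' + 1) * |y| by positivity)]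
      · have := h1 (-1) (by norm_num)
        rw [neg_one_mul, Real.exp_neg, ← ev] at this
        rwa [abs_of_nonneg (mul_nonneg hi.le (inv_nonneg.2 (den_pos hX m' s y).le))]
      · have := h1 (-2) (by norm_num)
        rw [neg_mul, Real.exp_neg, two_mul, Real.exp_add, ← ev, ← sq] at this
        rwa [abs_neg, abs_of_nonneg (mul_nonneg hi.le (inv_nonneg.2 (sq_nonneg _)))]
    obtain ⟨hcont, hder⟩ := evol_facts hX (G := fun v => m'⁻¹ * Real.log v)
      (G1 := fun v => m'⁻¹ * v⁻¹) (G2 := fun v => -(m'⁻¹ * (v ^ 2)⁻¹))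
      (fun v hv => (Real.hasDerivAt_log hv.ne').const_mul _)
      (fun v hv => ((hasDerivAt_inv hv.ne').const_mul _).congr_deriv (by ring))
      ((continuousOn_const.mul ((continuousOn_id.pow 2).inv₀
        fun v (hv : v ∈ Ioi (0 : ℝ)) => (pow_pos hv 2).ne')).neg)
      (T := T) (by positivity) (by positivity) hb x
    have e : (fun a => two 0 m' T X a x) =
        fun a => heat (fun y => m'⁻¹ * Real.log (heat F (T - a) y)) a x := funext fun a => by
      simp only [two, step_zero_left, step_eq hm'.ne', hFdef]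
    rw [e]
    refine ⟨hcont, fun a ha => (hder a ha).congr_deriv ?_⟩
    simp only [ker, zero_mul, Real.exp_zero, mul_one, heat_const, div_one]
    rw [← heat_const_mul, eq_comm]
    unfold heat
    rw [← integral_div]
    refine integral_congr_ae (ae_of_all _ fun g => ?_)
    have := e1 (T - a) (x + √a * g)
    unfold heat at this
    simp only [this]
    have hpos := den_pos hX m' (T - a) (x + √a * g)
    unfold heat at hpos
    simp only [hFdef]
    field_simp
    ring
  · -- powers
    set r := m / m' with hr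
    have hr0 : 0 < r := div_pos hm0 hm'
    have hr1 : r < 1 := (div_lt_one hm').2 hmm
    have hb : ∀ s ∈ Icc 0 T, ∀ y, |Real.exp (r * Real.log (heat F s y))| ≤
          2 * Real.exp (3 * A) * Real.exp (3 * m' * |y|) ∧
        |r * Real.exp ((r - 1) * Real.log (heat F s y))| ≤
          2 * Real.exp (3 * A) * Real.exp (3 * m' * |y|) ∧
        |r * (r - 1) * Real.exp ((r - 2) * Real.log (heat F s y))| ≤
          2 * Real.exp (3 * A) * Real.exp (3 * m' * |y|) := by
      intro s hs y
      have h : ∀ q, |q| ≤ 3 → Real.exp (q * Real.log (heat F s y)) ≤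
          2 * Real.exp (3 * A) * Real.exp (3 * m' * |y|) := fun q hq =>
        (exp_mul_bound (hA s hs y) hq one_le_two).trans_eq (by ring)
      refine ⟨?_, ?_, ?_⟩
      · rw [Real.abs_exp]; exact h r (by rw [abs_le]; constructor <;> linarith)
      · rw [abs_mul, Real.abs_exp, abs_of_pos hr0]
        exact (mul_le_of_le_one_left (Real.exp_pos _).le hr1.le).trans
          (h _ (by rw [abs_le]; constructor <;> linarith))
      · rw [abs_mul, Real.abs_exp]
        refine (mul_le_of_le_one_left (Real.exp_pos _).le ?_).trans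
          (h _ (by rw [abs_le]; constructor <;> linarith))
        rw [abs_le]; constructor <;> nlinarith
    have hpow : ∀ q v : ℝ, 0 < v → HasDerivAt (fun v => Real.exp (q * Real.log v))
        (q * Real.exp ((q - 1) * Real.log v)) v := fun q v hv =>
      (((Real.hasDerivAt_log hv.ne').const_mul q).exp).congr_deriv (by
        rw [show Real.exp ((q - 1) * Real.log v) = Real.exp (q * Real.log v) * v⁻¹ by
          rw [sub_mul, one_mul, Real.exp_sub, Real.exp_log hv, div_eq_mul_inv]]
        ring)
    obtain ⟨hcont, hder⟩ := evol_facts hX (G := fun v => Real.exp (r * Real.log v))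
      (G1 := fun v => r * Real.exp ((r - 1) * Real.log v))
      (G2 := fun v => r * (r - 1) * Real.exp ((r - 2) * Real.log v))
      (fun v hv => hpow r v hv)
      (fun v hv => ((hpow (r - 1) v hv).const_mul r).congr_deriv (by ring_nf))
      (continuousOn_const.mul (Real.continuous_exp.comp_continuousOn
        (continuousOn_const.mul (Real.continuousOn_log.mono fun v hv => ne_of_gt (mem_Ioi.1 hv)))))
      (T := T) (by positivity) (by positivity) hb x
    have e0 : ∀ s y, Real.exp (r * Real.log (heat F s y)) = Real.exp (m * step m' s X y) :=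
      fun s y => by rw [eL, hr]; congr 1; field_simp
    have e : (fun a => two m m' T X a x) = fun a => m⁻¹ * Real.log
        (heat (fun y => Real.exp (r * Real.log (heat F (T - a) y))) a x) := funext fun a => by
      simp only [e0]
      rw [two, step_eq hm0.ne']
    have hpos : ∀ a, 0 < heat (fun y => Real.exp (r * Real.log (heat F (T - a) y))) a x := fun a => by
      simp only [e0]
      exact den_pos (hX.step hm'.le _) m a x
    rw [e]
    refine ⟨continuousOn_const.mul (hcont.log fun a _ => (hpos a).ne'), fun a ha =>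
      (((hder a ha).log (hpos a).ne').const_mul m⁻¹).congr_deriv ?_⟩
    have ek : heat (fun y => r * (r - 1) * Real.exp ((r - 2) * Real.log (heat F (T - a) y)) *
        heat (fun z => m' * deriv X z * Real.exp (m' * X z)) (T - a) y ^ 2) a x =
        m * (m - m') * heat (fun y => deriv (step m' (T - a) X) y ^ 2 *
          Real.exp (m * step m' (T - a) X y)) a x := by
      rw [← heat_const_mul]
      congr 1
      funext y
      rw [e1, ← e0, show Real.exp ((r - 2) * Real.log (heat F (T - a) y)) =
        Real.exp (r * Real.log (heat F (T - a) y)) / heat F (T - a) y ^ 2 by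
          rw [sub_mul, Real.exp_sub, two_mul, Real.exp_add,
            Real.exp_log (den_pos hX m' (T - a) y), sq], hr]
      have := (den_pos hX m' (T - a) y).ne'
      simp only [hFdef]
      field_simp
    simp only [hFdef] at e0 ek ⊢
    simp only [e0] at ek ⊢
    rw [ek, ker]
    have := (den_pos (hX.step hm'.le (T - a)) m a x).ne'
    field_simp
    ring

/-- More variance at the smaller parameter is flatter. -/
theorem flat_two (hX : Nice X) {m m' : ℝ} (hm : 0 ≤ m) (hmm : m < m') {T a a' : ℝ}
    (ha : 0 ≤ a) (haa : a ≤ a') (hT : a' ≤ T) :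
    Flat (two m m' T X a') (two m m' T X a) := by
  intro x hx y hy hxy
  have h : AntitoneOn (fun b => two m m' T X b y - two m m' T X b x) (Icc 0 T) := by
    refine antitoneOn_of_hasDerivWithinAt_nonpos (convex_Icc _ _)
      ((two_facts hX hm hmm T y).1.sub (two_facts hX hm hmm T x).1)
      (fun b hb => (((two_facts hX hm hmm T y).2 b (interior_Icc.subset hb)).sub
        ((two_facts hX hm hmm T x).2 b (interior_Icc.subset hb))).hasDerivWithinAt) fun b _ => ?_
    have hZ := hX.step (hm.trans hmm.le) (T - b)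
    have := ker_monotoneOn (m := m) (s := b) hZ hZ.eb_sq
      (fun z => by rw [hZ.deriv_neg, neg_sq]) hZ.sq_monotoneOn hx hy hxy
    nlinarith
  have := h ⟨ha, haa.trans hT⟩ ⟨ha.trans haa, hT⟩ haa
  dsimp only at this ⊢
  linarith

/-- The increment caused by flattening the terminal function grows along the move. -/
theorem two_sub_mono {Y : ℝ → ℝ} (hX : Nice X) (hY : Nice Y) (hF : Flat Y X) {m m' : ℝ}
    (hm : 0 ≤ m) (hmm : m < m') {T a a' : ℝ} (ha : 0 ≤ a) (haa : a ≤ a') (hT : a' ≤ T) (x : ℝ) :
    two m m' T Y a x - two m m' T X a x ≤ two m m' T Y a' x - two m m' T X a' x := by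
  have hm' : 0 ≤ m' := hm.trans hmm.le
  refine (monotoneOn_of_hasDerivWithinAt_nonneg (f := fun b => two m m' T Y b x - two m m' T X b x)
    (convex_Icc 0 T) ((two_facts hY hm hmm T x).1.sub (two_facts hX hm hmm T x).1)
    (fun b hb => (((two_facts hY hm hmm T x).2 b (interior_Icc.subset hb)).sub
      ((two_facts hX hm hmm T x).2 b (interior_Icc.subset hb))).hasDerivWithinAt) fun b _ => ?_)
    ⟨ha, haa.trans hT⟩ ⟨ha.trans haa, hT⟩ haa
  have hs := hF.step hX hY hm' (T - b)
  have := ker_sq_le (hX.step hm' (T - b)) (hY.step hm' (T - b)) hs hm b x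
    (hX.step hm' (T - b)) (hY.step hm' (T - b)) hs
  nlinarith

end Vale.Agent.P157.Formula
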