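import Vale.Agent.P157.Formula.Heat

/-!
P157, formula: one step of the recursion preserves even convex Lipschitz functions; semigroup law.
-/

open MeasureTheory ProbabilityTheory Filter Topology Set

namespace Vale.Agent.P157.Formula

variable {F G : ℝ → ℝ}

theorem map_sqrt_mul {a : ℝ} (ha : 0 ≤ a) :
    gm.map (fun g => √a * g) = gaussianReal 0 a.toNNReal := by
  rw [gaussianReal_map_const_mul, mul_zero]
  congr 1
  ext
  simp [Real.sq_sqrt ha, Real.coe_toNNReal _ ha]

theorem heat_heat (hF : EB F) {a b : ℝ} (ha : 0 ≤ a) (hb : 0 ≤ b) (x : ℝ) :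
    heat (heat F b) a x = heat F (a + b) x := by
  obtain ⟨hc, C, k, hC, hk, h⟩ := hF
  have hi : Integrable (fun z : ℝ × ℝ => F (x + √a * z.1 + √b * z.2)) (gm.prod gm) := by
    refine Integrable.mono' (((integrable_exp_abs (k * √a)).mul_prod
      (integrable_exp_abs (k * √b))).const_mul (C * Real.exp (k * |x|))) (by fun_prop)
      (ae_of_all _ fun z => ?_)
    rw [Real.norm_eq_abs]
    refine (h _).trans ?_
    rw [mul_assoc, ← Real.exp_add, ← Real.exp_add]
    refine mul_le_mul_of_nonneg_left (Real.exp_le_exp.2 ?_) hC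
    have h1 : |x + √a * z.1 + √b * z.2| ≤ |x| + √a * |z.1| + √b * |z.2| := by
      refine (abs_add_three _ _ _).trans_eq ?_
      rw [abs_mul, abs_mul, abs_of_nonneg (Real.sqrt_nonneg a), abs_of_nonneg (Real.sqrt_nonneg b)]
    nlinarith [mul_le_mul_of_nonneg_left h1 hk]
  calc heat (heat F b) a x = ∫ z : ℝ × ℝ, F (x + √a * z.1 + √b * z.2) ∂gm.prod gm := by
        rw [integral_prod _ hi]; rfl
    _ = ∫ y, F (x + y) ∂((gm.map (fun g => √a * g)) ∗ (gm.map fun g => √b * g)) := by
        have hFx : Continuous fun y => F (x + y) := hc.comp (by fun_prop)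
        rw [Measure.conv, Measure.map_prod_map _ _ (by fun_prop) (by fun_prop),
          Measure.map_map (by fun_prop) (by fun_prop),
          integral_map (by fun_prop) hFx.aestronglyMeasurable]
        simp [Function.comp, add_assoc]
    _ = ∫ y, F (x + y) ∂(gm.map fun g => √(a + b) * g) := by
        rw [map_sqrt_mul ha, map_sqrt_mul hb, map_sqrt_mul (add_nonneg ha hb),
          gaussianReal_conv_gaussianReal, add_zero, Real.toNNReal_add ha hb]
    _ = heat F (a + b) x := integral_map (by fun_prop) (hc.comp (by fun_prop)).aestronglyMeasurable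

theorem heat_neg (hF : ∀ y, F (-y) = F y) (hc : Continuous F) (s x : ℝ) :
    heat F s (-x) = heat F s x := by
  have h : gm.map (fun g => -g) = gm := by rw [gaussianReal_map_neg, neg_zero]
  unfold heat
  have hFx : Continuous fun g => F (-x + √s * g) := hc.comp (by fun_prop)
  conv_lhs => rw [← h, integral_map (by fun_prop) hFx.aestronglyMeasurable]
  refine integral_congr_ae (ae_of_all _ fun g => ?_)
  simp only
  rw [← hF]; ring_nf

theorem heat_add (hF : EB F) (hG : EB G) (s x : ℝ) :
    heat (fun y => F y + G y) s x = heat F s x + heat G s x :=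
  integral_add (hF.integrable_shift x _) (hG.integrable_shift x _)

theorem heat_const_mul (c s x : ℝ) : heat (fun y => c * F y) s x = c * heat F s x :=
  integral_const_mul c _

theorem heat_mono (hF : EB F) (hG : EB G) (h : ∀ y, F y ≤ G y) (s x : ℝ) :
    heat F s x ≤ heat G s x :=
  integral_mono (hF.integrable_shift x _) (hG.integrable_shift x _) fun _ => h _

theorem heat_const (c s x : ℝ) : heat (fun _ => c) s x = c := by simp [heat]

/-- Even, convex, twice continuously differentiable, `1`-Lipschitz, bounded second derivative. -/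
structure Nice (X : ℝ → ℝ) : Prop where
  even : ∀ x, X (-x) = X x
  convex : ConvexOn ℝ univ X
  d1 : ∀ x, HasDerivAt X (deriv X x) x
  d2 : ∀ x, HasDerivAt (deriv X) (deriv (deriv X) x) x
  cont2 : Continuous (deriv (deriv X))
  lip : ∀ x, |deriv X x| ≤ 1
  bound2 : ∃ B, ∀ x, |deriv (deriv X) x| ≤ B

theorem Nice.mk' {X X1 X2 : ℝ → ℝ} (he : ∀ x, X (-x) = X x) (hv : ConvexOn ℝ univ X)
    (h1 : ∀ x, HasDerivAt X (X1 x) x) (h2 : ∀ x, HasDerivAt X1 (X2 x) x) (hc : Continuous X2)
    (hl : ∀ x, |X1 x| ≤ 1) {B : ℝ} (hB : ∀ x, |X2 x| ≤ B) : Nice X := by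
  have e1 : deriv X = X1 := funext fun x => (h1 x).deriv
  have e2 : deriv (deriv X) = X2 := funext fun x => by rw [e1]; exact (h2 x).deriv
  exact ⟨he, hv, fun x => e1 ▸ h1 x, fun x => by rw [e2, e1]; exact h2 x, e2 ▸ hc, e1 ▸ hl,
    B, e2 ▸ hB⟩

namespace Nice

variable {X : ℝ → ℝ}

theorem continuous (hX : Nice X) : Continuous X :=
  continuous_iff_continuousAt.2 fun x => (hX.d1 x).continuousAt

theorem continuous1 (hX : Nice X) : Continuous (deriv X) :=
  continuous_iff_continuousAt.2 fun x => (hX.d2 x).continuousAt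

theorem abs_sub_le (hX : Nice X) (x : ℝ) : |X x - X 0| ≤ |x| := by
  have := Convex.norm_image_sub_le_of_norm_hasDerivWithin_le (C := 1)
    (fun y _ => (hX.d1 y).hasDerivWithinAt) (fun y _ => hX.lip y) convex_univ (mem_univ 0)
    (mem_univ x)
  simpa using this

theorem mul_le (hX : Nice X) (m x : ℝ) : |m * X x| ≤ |m| * |X 0| + |m| * |x| := by
  rw [abs_mul, ← mul_add]
  refine mul_le_mul_of_nonneg_left ?_ (abs_nonneg m)
  linarith [abs_sub_abs_le_abs_sub (X x) (X 0), hX.abs_sub_le x]

theorem eb_exp (hX : Nice X) (m : ℝ) : EB fun y => Real.exp (m * X y) :=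
  EB.exp_of_linear (hX.continuous.const_mul m) (abs_nonneg m)
    fun x => (le_abs_self _).trans (hX.mul_le m x)

theorem eb (hX : Nice X) : EB X := by
  refine ⟨hX.continuous, |X 0| + 1, 1, by positivity, zero_le_one, fun x => ?_⟩
  have h1 := abs_sub_abs_le_abs_sub (X x) (X 0)
  have h2 := hX.abs_sub_le x
  have h3 := Real.add_one_le_exp |x|
  rw [one_mul]
  nlinarith [abs_nonneg (X 0), abs_nonneg x]

theorem eb1 (hX : Nice X) : EB (deriv X) := EB.of_bdd hX.continuous1 hX.lip

theorem eb2 (hX : Nice X) : EB (deriv (deriv X)) :=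
  let ⟨_, hB⟩ := hX.bound2; EB.of_bdd hX.cont2 hB

theorem eb_sq (hX : Nice X) : EB fun y => deriv X y ^ 2 := by
  simp only [sq]; exact hX.eb1.mul hX.eb1

theorem monotone_deriv (hX : Nice X) : Monotone (deriv X) := by
  rw [← monotoneOn_univ]
  exact hX.convex.monotoneOn_deriv fun x _ => (hX.d1 x).differentiableAt

theorem deriv_zero (hX : Nice X) : deriv X 0 = 0 := by
  have h : HasDerivAt X (-deriv X 0) 0 := by
    have := HasDerivAt.comp (0 : ℝ) (h := fun y => -y) (hX.d1 (-0)) (hasDerivAt_neg (0 : ℝ))
    simpa [Function.comp_def, hX.even] using this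
  linarith [h.unique (hX.d1 0)]

end Nice

/-- The tilted kernel of a step. -/
noncomputable def ker (m s : ℝ) (X F : ℝ → ℝ) (x : ℝ) : ℝ :=
  heat (fun y => F y * Real.exp (m * X y)) s x / heat (fun y => Real.exp (m * X y)) s x

section

variable {X : ℝ → ℝ} (hX : Nice X) (m s x : ℝ)
include hX

theorem den_pos : 0 < heat (fun y => Real.exp (m * X y)) s x :=
  heat_pos (hX.eb_exp m) (fun _ => Real.exp_pos _) s x

theorem ker_const (c : ℝ) : ker m s X (fun _ => c) x = c := by
  rw [ker, heat_const_mul, mul_div_assoc, div_self (den_pos hX m s x).ne', mul_one]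

theorem ker_mono (hF : EB F) (hG : EB G) (h : ∀ y, F y ≤ G y) :
    ker m s X F x ≤ ker m s X G x :=
  div_le_div_of_nonneg_right (heat_mono (hF.mul (hX.eb_exp m)) (hG.mul (hX.eb_exp m))
    (fun y => mul_le_mul_of_nonneg_right (h y) (Real.exp_pos _).le) s x) (den_pos hX m s x).le

theorem abs_ker_le (hF : EB F) {B : ℝ} (h : ∀ y, |F y| ≤ B) : |ker m s X F x| ≤ B := by
  rw [abs_le]
  constructor
  · exact (ker_const hX m s x (-B)).symm.trans_le
      (ker_mono hX m s x (.const _) hF fun y => (abs_le.1 (h y)).1)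
  · exact (ker_mono hX m s x hF (.const _) fun y => (abs_le.1 (h y)).2).trans_eq
      (ker_const hX m s x B)

end

theorem step_zero_right (m : ℝ) (X : ℝ → ℝ) : step m 0 X = X := by
  funext x
  rcases eq_or_ne m 0 with rfl | hm
  · simp [step]
  · simp [step, hm]

theorem step_zero_left (s : ℝ) (X : ℝ → ℝ) : step 0 s X = heat X s := by
  funext x; simp [step, heat]

theorem step_eq {m : ℝ} (hm : m ≠ 0) (s : ℝ) (X : ℝ → ℝ) :
    step m s X = fun x => m⁻¹ * Real.log (heat (fun y => Real.exp (m * X y)) s x) := by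
  funext x; simp [step, heat, hm]

theorem hasDerivAt_exp_mul {X : ℝ → ℝ} (hX : Nice X) (m y : ℝ) :
    HasDerivAt (fun y => Real.exp (m * X y)) (m * deriv X y * Real.exp (m * X y)) y :=
  ((hX.d1 y).const_mul m).exp.congr_deriv (by ring)

theorem hasDerivAt_step {X : ℝ → ℝ} (hX : Nice X) (m s x : ℝ) :
    HasDerivAt (step m s X) (ker m s X (deriv X) x) x := by
  rcases eq_or_ne m 0 with rfl | hm
  · rw [step_zero_left]
    refine (hasDerivAt_heat hX.d1 hX.eb hX.eb1 s x).congr_deriv ?_
    simp [ker, heat_const]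
  · rw [step_eq hm]
    refine ((((hasDerivAt_heat (hasDerivAt_exp_mul hX m) (hX.eb_exp m)
      ((hX.eb1.const_mul m).mul (hX.eb_exp m)) s x)).log (den_pos hX m s x).ne').const_mul
      m⁻¹).congr_deriv ?_
    simp only [ker, mul_assoc, heat_const_mul]
    field_simp

theorem hasDerivAt_ker_deriv {X : ℝ → ℝ} (hX : Nice X) (m s x : ℝ) :
    HasDerivAt (ker m s X (deriv X))
      (ker m s X (fun y => deriv (deriv X) y + m * deriv X y ^ 2) x -
        m * ker m s X (deriv X) x ^ 2) x := by
  have hE := hX.eb_exp m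
  have h1 : EB fun y => (deriv (deriv X) y + m * deriv X y ^ 2) * Real.exp (m * X y) :=
    (hX.eb2.add (hX.eb_sq.const_mul m)).mul hE
  have hd : ∀ y, HasDerivAt (fun y => deriv X y * Real.exp (m * X y))
      ((deriv (deriv X) y + m * deriv X y ^ 2) * Real.exp (m * X y)) y := fun y =>
    ((hX.d2 y).mul (hasDerivAt_exp_mul hX m y)).congr_deriv (by ring)
  refine ((hasDerivAt_heat hd (hX.eb1.mul hE) h1 s x).div
    (hasDerivAt_heat (hasDerivAt_exp_mul hX m) hE ((hX.eb1.const_mul m).mul hE) s x)
    (den_pos hX m s x).ne').congr_deriv ?_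
  have := (den_pos hX m s x).ne'
  simp only [ker, mul_assoc, heat_const_mul]
  field_simp

theorem deriv_step {X : ℝ → ℝ} (hX : Nice X) (m s : ℝ) :
    deriv (step m s X) = ker m s X (deriv X) :=
  funext fun x => (hasDerivAt_step hX m s x).deriv

theorem ker_continuous {X : ℝ → ℝ} (hX : Nice X) (hF : EB F) (m s : ℝ) :
    Continuous (ker m s X F) :=
  ((hF.mul (hX.eb_exp m)).heat s).1.div ((hX.eb_exp m).heat s).1 fun x => (den_pos hX m s x).ne'

theorem Nice.step {X : ℝ → ℝ} (hX : Nice X) {m : ℝ} (hm : 0 ≤ m) (s : ℝ) :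
    Nice (Formula.step m s X) := by
  obtain ⟨B, hB⟩ := hX.bound2
  have hF := hX.eb2.add (hX.eb_sq.const_mul m)
  refine Nice.mk' (B := B + m + m) (fun x => ?_) ?_ (hasDerivAt_step hX m s)
    (hasDerivAt_ker_deriv hX m s) ((ker_continuous hX hF m s).sub
      (continuous_const.mul ((ker_continuous hX hX.eb1 m s).pow 2)))
    (fun x => abs_ker_le hX m s x hX.eb1 hX.lip) fun x => ?_
  · rcases eq_or_ne m 0 with rfl | h
    · simp [step_zero_left, heat_neg hX.even hX.continuous]
    · simp only [step_eq h]
      rw [heat_neg (fun y => by rw [hX.even]) (hX.eb_exp m).1]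
  · refine ⟨convex_univ, fun x _ y _ θ φ hθ hφ hθφ => ?_⟩
    simp only [smul_eq_mul]
    have hi : ∀ z, EB fun g => X (z + g) := fun z => by
      refine ⟨hX.continuous.comp (by fun_prop), (|X 0| + 1) * Real.exp |z|, 1, by positivity,
        zero_le_one, fun g => ?_⟩
      rw [one_mul, mul_assoc, ← Real.exp_add]
      have h3 := Real.add_one_le_exp (|z| + |g|)
      have h2 := hX.abs_sub_le (z + g)
      nlinarith [abs_sub_abs_le_abs_sub (X (z + g)) (X 0), abs_add_le z g, abs_nonneg (X 0),
        abs_nonneg z, abs_nonneg g]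
    have hc : ∀ g, X (θ * x + φ * y + g) ≤ θ * X (x + g) + φ * X (y + g) := fun g => by
      have := hX.convex.2 (mem_univ (x + g)) (mem_univ (y + g)) hθ hφ hθφ
      rw [smul_eq_mul, smul_eq_mul, smul_eq_mul, smul_eq_mul] at this
      exact (congrArg X (by linear_combination -(g * hθφ))).trans_le this
    rcases eq_or_ne m 0 with rfl | h
    · simp only [step_zero_left, heat]
      rw [← integral_const_mul, ← integral_const_mul, ← integral_add
        ((hX.eb.integrable_shift x _).const_mul θ) ((hX.eb.integrable_shift y _).const_mul φ)]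
      exact integral_mono (hX.eb.integrable_shift _ _)
        (((hX.eb.integrable_shift x _).const_mul θ).add ((hX.eb.integrable_shift y _).const_mul φ))
        fun g => hc _
    · simp only [step_eq h]
      set A := heat (fun y => Real.exp (m * X y)) s x with hA
      set A' := heat (fun y => Real.exp (m * X y)) s y with hA'
      have hA0 : 0 < A := den_pos hX m s x
      have hA0' : 0 < A' := den_pos hX m s y
      have hi := hX.eb_exp m
      have key : heat (fun y => Real.exp (m * X y)) s (θ * x + φ * y)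
          ≤ Real.exp (θ * Real.log A + φ * Real.log A') := by
        calc heat (fun y => Real.exp (m * X y)) s (θ * x + φ * y)
            ≤ ∫ g, Real.exp (θ * Real.log A + φ * Real.log A') *
                (θ / A * Real.exp (m * X (x + √s * g)) +
                  φ / A' * Real.exp (m * X (y + √s * g))) ∂gm := by
              refine integral_mono (hi.integrable_shift _ _) ((((hi.integrable_shift x _).const_mul
                _).add ((hi.integrable_shift y _).const_mul _)).const_mul _) fun g => ?_
              dsimp only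
              have hexp := convexOn_exp.2 (mem_univ (m * X (x + √s * g) - Real.log A))
                (mem_univ (m * X (y + √s * g) - Real.log A')) hθ hφ hθφ
              simp only [smul_eq_mul, Real.exp_sub, Real.exp_log hA0, Real.exp_log hA0'] at hexp
              refine le_trans ?_ ((mul_le_mul_of_nonneg_left hexp
                (Real.exp_pos (θ * Real.log A + φ * Real.log A')).le).trans_eq
                (by ring))
              rw [← Real.exp_add, Real.exp_le_exp]
              linarith [mul_le_mul_of_nonneg_left (hc (√s * g)) hm]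
          _ = Real.exp (θ * Real.log A + φ * Real.log A') * (θ / A * A + φ / A' * A') := by
              rw [integral_const_mul, integral_add ((hi.integrable_shift x _).const_mul _)
                ((hi.integrable_shift y _).const_mul _), integral_const_mul, integral_const_mul]
              rfl
          _ = _ := by rw [div_mul_cancel₀ _ hA0.ne', div_mul_cancel₀ _ hA0'.ne', hθφ, mul_one]
      have := Real.log_le_log (den_pos hX m s _) key
      rw [Real.log_exp] at this
      linarith [mul_le_mul_of_nonneg_left this (inv_nonneg.2 hm)]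
  · refine (abs_sub _ _).trans (add_le_add (abs_ker_le hX m s x hF fun y => ?_) ?_)
    · refine (abs_add_le _ _).trans (add_le_add (hB y) ?_)
      rw [abs_mul, abs_of_nonneg hm, abs_of_nonneg (sq_nonneg _)]
      exact mul_le_of_le_one_right hm (sq_abs (deriv X y) ▸ pow_le_one₀ (abs_nonneg _) (hX.lip y))
    · rw [abs_mul, abs_of_nonneg hm, abs_pow]
      exact mul_le_of_le_one_right hm
        (pow_le_one₀ (abs_nonneg _) (abs_ker_le hX m s x hX.eb1 hX.lip))

theorem exp_step {X : ℝ → ℝ} (hX : Nice X) {m : ℝ} (hm : m ≠ 0) (s x : ℝ) :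
    Real.exp (m * step m s X x) = heat (fun y => Real.exp (m * X y)) s x := by
  simp only [step_eq hm]
  rw [mul_inv_cancel_left₀ hm, Real.exp_log (den_pos hX m s x)]

theorem step_step {X : ℝ → ℝ} (hX : Nice X) {m a b : ℝ} (ha : 0 ≤ a) (hb : 0 ≤ b) :
    step m a (step m b X) = step m (a + b) X := by
  funext x
  rcases eq_or_ne m 0 with rfl | hm
  · simp only [step_zero_left]; exact heat_heat hX.eb ha hb x
  · have e : (fun y => Real.exp (m * step m b X y)) = heat (fun y => Real.exp (m * X y)) b :=
      funext fun y => exp_step hX hm b y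
    rw [step_eq hm a, step_eq hm (a + b)]
    simp only [e, heat_heat (hX.eb_exp m) ha hb]

theorem step_add_const {X : ℝ → ℝ} (hX : Nice X) (m s c : ℝ) :
    step m s (fun y => X y + c) = fun x => step m s X x + c := by
  funext x
  rcases eq_or_ne m 0 with rfl | hm
  · simp only [step_zero_left]; rw [heat_add hX.eb (.const c), heat_const]
  · simp only [step_eq hm, mul_add, Real.exp_add, mul_comm (Real.exp (m * X _))]
    rw [heat_const_mul, Real.log_mul (Real.exp_pos _).ne' (den_pos hX m s x).ne', Real.log_exp,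
      mul_add, inv_mul_cancel_left₀ hm]
    exact add_comm _ _

theorem nice_lcosh : Nice lcosh := by
  have h1 : ∀ x, HasDerivAt lcosh (Real.sinh x / Real.cosh x) x := fun x =>
    (Real.hasDerivAt_cosh x).log (Real.cosh_pos x).ne'
  have h2 : ∀ x, HasDerivAt (fun x => Real.sinh x / Real.cosh x) (1 / Real.cosh x ^ 2) x :=
    fun x => ((Real.hasDerivAt_sinh x).div (Real.hasDerivAt_cosh x)
      (Real.cosh_pos x).ne').congr_deriv (by rw [← sq, ← sq, Real.cosh_sq_sub_sinh_sq])
  refine Nice.mk' (B := 1) (fun x => by simp [lcosh]) ?_ h1 h2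
    (continuous_const.div (Real.continuous_cosh.pow 2) fun x => (pow_pos (Real.cosh_pos x) 2).ne')
    (fun x => ?_) fun x => ?_
  · refine Monotone.convexOn_univ_of_deriv (fun x => (h1 x).differentiableAt) ?_
    rw [funext fun x => (h1 x).deriv]
    exact monotone_of_deriv_nonneg (fun x => (h2 x).differentiableAt) fun x => by
      rw [(h2 x).deriv]; positivity
  · rw [abs_div, abs_of_pos (Real.cosh_pos x), div_le_one (Real.cosh_pos x), Real.abs_sinh]
    exact (Real.sinh_lt_cosh _).le.trans_eq (Real.cosh_abs x)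
  · rw [abs_of_nonneg (by positivity), div_le_one (pow_pos (Real.cosh_pos x) 2)]
    exact one_le_pow₀ (Real.one_le_cosh x)

theorem step_one_lcosh {s : ℝ} (hs : 0 ≤ s) : step 1 s lcosh = fun x => lcosh x + s / 2 := by
  funext x
  have e : (fun y => Real.exp (lcosh y)) = fun y => 2⁻¹ * (Real.exp y + Real.exp (-y)) :=
    funext fun y => by rw [lcosh, Real.exp_log (Real.cosh_pos y), Real.cosh_eq]; ring
  have hi : ∀ σ : ℝ, ∫ g, Real.exp (σ * (x + √s * g)) ∂gm =
      Real.exp (σ * x) * Real.exp (σ ^ 2 * s / 2) := fun σ => by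
    simp only [mul_add, Real.exp_add, ← mul_assoc]
    rw [integral_const_mul]
    congr 1
    have := congrFun (mgf_id_gaussianReal (μ := 0) (v := 1)) (σ * √s)
    simp only [mgf, id_eq] at this
    rw [this]; simp [mul_pow, Real.sq_sqrt hs]
  have h1 := hi 1
  have h2 := hi (-1)
  simp only [one_mul, neg_one_mul, one_pow, neg_sq] at h1 h2
  simp only [step_eq one_ne_zero, inv_one, one_mul]
  rw [e]
  rw [heat_const_mul, heat_add, heat, heat, h1, h2, lcosh, Real.cosh_eq,
    show 2⁻¹ * (Real.exp x * Real.exp (s / 2) + Real.exp (-x) * Real.exp (s / 2)) =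
      (Real.exp x + Real.exp (-x)) / 2 * Real.exp (s / 2) by ring,
    Real.log_mul (by positivity) (Real.exp_pos _).ne', Real.log_exp]
  · exact EB.exp_of_linear continuous_id zero_le_one (c := 0) fun y => by simpa using le_abs_self y
  · exact EB.exp_of_linear continuous_neg zero_le_one (c := 0) fun y => by simpa using neg_le_abs y

end Vale.Agent.P157.Formula
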