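import Vale.Agent.P157.Formula.Move

/-!
P157, formula: supermodularity of the spin functional in two breakpoints, and decrease of its
increments under a common shift.
-/

open MeasureTheory ProbabilityTheory Filter Topology Set Function

namespace Vale.Agent.P157.Formula

variable {K : ℕ} {b b' : ℕ → ℝ}

/-- The layer containing the steps from `K` down to `l`. -/
noncomputable def lvl (K : ℕ) (b : ℕ → ℝ) (l : ℕ) : ℝ → ℝ := lay K b lcosh (K + 1 - l)

theorem lvl_top (K : ℕ) (b : ℕ → ℝ) : lvl K b (K + 1) = lcosh := by simp [lvl, lay]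

theorem lvl_eq (b : ℕ → ℝ) {l : ℕ} (hl : l ≤ K) :
    lvl K b l = step ((l : ℝ) / K) (b (l + 1) - b l) (lvl K b (l + 1)) := by
  rw [lvl, show K + 1 - l = (K - l) + 1 by omega, lay, show K - (K - l) = l by omega, lvl,
    show K + 1 - (l + 1) = K - l by omega]

theorem lvl_zero (K : ℕ) (b : ℕ → ℝ) : lvl K b 0 = lay K b lcosh (K + 1) := rfl

theorem nice_lay (b : ℕ → ℝ) : ∀ j, Nice (lay K b lcosh j)
  | 0 => nice_lcosh
  | j + 1 => (nice_lay b j).step (by positivity) _

theorem nice_lvl (K : ℕ) (b : ℕ → ℝ) (l : ℕ) : Nice (lvl K b l) := nice_lay b _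

theorem lvl_congr {l : ℕ} (hl : l ≤ K + 1)
    (h : ∀ j, l ≤ j → j ≤ K → b (j + 1) - b j = b' (j + 1) - b' j) :
    lvl K b l = lvl K b' l := by
  induction hl using Nat.decreasingInduction with
  | self => rw [lvl_top, lvl_top]
  | of_succ j hj ih =>
    rw [lvl_eq b (by omega), lvl_eq b' (by omega), ih fun i hi hi' => h i (by omega) hi',
      h j le_rfl (by omega)]

/-- Below `n`, equal steps transport flatness. -/
theorem flat_lvl {l n : ℕ} (hln : l ≤ n) (hn : n ≤ K + 1) (h0 : Flat (lvl K b' n) (lvl K b n))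
    (h : ∀ j, l ≤ j → j < n → b (j + 1) - b j = b' (j + 1) - b' j) :
    Flat (lvl K b' l) (lvl K b l) := by
  induction hln using Nat.decreasingInduction with
  | self => exact h0
  | of_succ j hj ih =>
    rw [lvl_eq b' (by omega), lvl_eq b (by omega), ← h j le_rfl hj]
    exact (ih fun i hi hi' => h i (by omega) hi').step (nice_lvl _ _ _) (nice_lvl _ _ _)
      (by positivity) _

theorem two_eq {i : ℕ} (hi : 1 ≤ i) (hiK : i ≤ K) (b : ℕ → ℝ) :
    lvl K b (i - 1) = two (((i - 1 : ℕ) : ℝ) / K) ((i : ℝ) / K) (b (i + 1) - b (i - 1))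
      (lvl K b (i + 1)) (b i - b (i - 1)) := by
  rw [lvl_eq b (l := i - 1) (by omega), show i - 1 + 1 = i by omega, lvl_eq b hiK, two]
  congr 2
  ring

theorem frac_lt {i : ℕ} (hi : 1 ≤ i) (hiK : i ≤ K) : ((i - 1 : ℕ) : ℝ) / K < (i : ℝ) / K :=
  (div_lt_div_iff_of_pos_right (by exact_mod_cast (by omega : 0 < K))).2
    (by exact_mod_cast (by omega : i - 1 < i))

/-- Raising one breakpoint flattens the lower layers. -/
theorem flat_update {i : ℕ} (hi : 1 ≤ i) (hiK : i ≤ K) {δ : ℝ} (hδ : 0 ≤ δ)
    (h1 : b (i - 1) ≤ b i) (h2 : b i + δ ≤ b (i + 1)) {l : ℕ} (hl : l ≤ i - 1) :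
    Flat (lvl K (update b i (b i + δ)) l) (lvl K b l) := by
  refine flat_lvl hl (by omega) ?_ fun j _ hj => by
    rw [update_of_ne (by omega), update_of_ne (by omega)]
  rw [two_eq hi hiK b, two_eq hi hiK, update_self, update_of_ne (by omega), update_of_ne (by omega),
    lvl_congr (b := update b i (b i + δ)) (b' := b) (l := i + 1) (by omega) fun j hj _ => by
      rw [update_of_ne (by omega), update_of_ne (by omega)]]
  exact flat_two (nice_lvl _ _ _) (by positivity) (frac_lt hi hiK) (by linarith) (by linarith)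
    (by linarith)

/-- Four functions ordered by flatness with a supermodular increment. -/
def Sq (A B C E : ℝ → ℝ) : Prop :=
  Flat B A ∧ Flat C A ∧ Flat E B ∧ Flat E C ∧ ∀ x, B x - A x ≤ E x - C x

theorem Sq.step {A B C E : ℝ → ℝ} (h : Sq A B C E) (hA : Nice A) (hB : Nice B) (hC : Nice C)
    (hE : Nice E) {m : ℝ} (hm : 0 ≤ m) (s : ℝ) :
    Sq (Formula.step m s A) (Formula.step m s B) (Formula.step m s C) (Formula.step m s E) := by
  obtain ⟨h1, h2, h3, h4, h5⟩ := h
  refine ⟨h1.step hA hB hm s, h2.step hA hC hm s, h3.step hB hE hm s, h4.step hC hE hm s,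
    fun x => ?_⟩
  rcases hm.eq_or_lt with rfl | hm0
  · rw [step_zero_sub hA hB, step_zero_sub hC hE]
    exact heat_mono (hB.eb.sub hA.eb) (hE.eb.sub hC.eb) h5 s x
  · refine le_of_mul_le_mul_left (Real.exp_le_exp.1 ?_) hm0
    rw [exp_step_sub hA hB hm0.ne', exp_step_sub hC hE hm0.ne']
    exact (ker_ge_of_flat hA (eb_exp_sub hA hB m) (fun y => by rw [hB.even, hA.even]) hC hm h2
      (h1.exp hm) x).trans (ker_mono hC m s x (eb_exp_sub hA hB m) (eb_exp_sub hC hE m) fun y =>
        Real.exp_le_exp.2 (mul_le_mul_of_nonneg_left (h5 y) hm))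

theorem sq_core {X Y : ℝ → ℝ} (hX : Nice X) (hY : Nice Y) (hF : Flat Y X) {m m' : ℝ} (hm : 0 ≤ m)
    (hmm : m < m') {T a a' : ℝ} (ha : 0 ≤ a) (haa : a ≤ a') (hT : a' ≤ T) :
    Sq (two m m' T X a) (two m m' T X a') (two m m' T Y a) (two m m' T Y a') := by
  have hm' : 0 ≤ m' := hm.trans hmm.le
  have hf : ∀ a, Flat (two m m' T Y a) (two m m' T X a) := fun a =>
    (hF.step hX hY hm' _).step (hX.step hm' _) (hY.step hm' _) hm _
  exact ⟨flat_two hX hm hmm ha haa hT, hf a, hf a', flat_two hY hm hmm ha haa hT,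
    fun x => by linarith [two_sub_mono hX hY hF hm hmm ha haa hT x]⟩

/-- Supermodularity of the whole recursion in two breakpoints. -/
theorem phi_square {i k : ℕ} (hi : 1 ≤ i) (hik : i < k) (hk : k ≤ K) {δ ε : ℝ}
    (hδ : 0 ≤ δ) (hε : 0 ≤ ε) (hmono : ∀ j ≤ K, b j ≤ b (j + 1))
    (hi2 : b i + δ ≤ b (i + 1)) (hk2 : b k + ε ≤ b (k + 1)) :
    lvl K (update b i (b i + δ)) 0 0 + lvl K (update b k (b k + ε)) 0 0 ≤
      lvl K (update (update b k (b k + ε)) i (b i + δ)) 0 0 + lvl K b 0 0 := by
  have hiK : i ≤ K := by omega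
  have h1 : b (i - 1) ≤ b i := by
    simpa [show i - 1 + 1 = i by omega] using hmono (i - 1) (by omega)
  set bk' := update b k (b k + ε) with hbk
  set B := update b i (b i + δ) with hB
  set E := update bk' i (b i + δ) with hE
  suffices H : Sq (lvl K b 0) (lvl K B 0) (lvl K bk' 0) (lvl K E 0) by
    linarith [H.2.2.2.2 0]
  have base : Sq (lvl K b (i - 1)) (lvl K B (i - 1)) (lvl K bk' (i - 1)) (lvl K E (i - 1)) := by
    have eB : lvl K B (i + 1) = lvl K b (i + 1) := lvl_congr (by omega) fun j hj _ => by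
      rw [hB, update_of_ne (by omega), update_of_ne (by omega)]
    have eE : lvl K E (i + 1) = lvl K bk' (i + 1) := lvl_congr (by omega) fun j hj _ => by
      rw [hE, update_of_ne (by omega), update_of_ne (by omega)]
    rw [two_eq hi hiK b, two_eq hi hiK B, two_eq hi hiK bk', two_eq hi hiK E, eB, eE]
    simp only [hB, hE, update_self, update_of_ne (show i + 1 ≠ i by omega),
      update_of_ne (show i - 1 ≠ i by omega)]
    simp only [hbk, update_of_ne (show i ≠ k by omega), update_of_ne (show i - 1 ≠ k by omega)]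
    have hm : (0 : ℝ) ≤ ((i - 1 : ℕ) : ℝ) / K := by positivity
    have hm' : (0 : ℝ) ≤ (i : ℝ) / K := by positivity
    rcases Nat.lt_or_ge (i + 1) k with hlt | hge
    · rw [update_of_ne (show i + 1 ≠ k by omega)]
      refine sq_core (nice_lvl _ _ _) (nice_lvl _ _ _) ?_ hm (frac_lt hi hiK) (by linarith)
        (by linarith) (by linarith)
      refine flat_update (by omega) hk hε ?_ hk2 (by omega)
      simpa [show k - 1 + 1 = k by omega] using hmono (k - 1) (by omega)
    · obtain rfl : k = i + 1 := by omega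
      rw [update_self]
      set X := lvl K b (i + 1) with hX
      set Y := lvl K (update b (i + 1) (b (i + 1) + ε)) (i + 1) with hY
      have key : ∀ a, a ≤ b (i + 1) - b (i - 1) →
          two (((i - 1 : ℕ) : ℝ) / K) ((i : ℝ) / K) (b (i + 1) + ε - b (i - 1)) Y a =
            two (((i - 1 : ℕ) : ℝ) / K) ((i : ℝ) / K) (b (i + 1) - b (i - 1))
              (step ((i : ℝ) / K) ε Y) a := fun a ha => by
        rw [two, two, step_step (nice_lvl _ _ _) (by linarith) hε]
        congr 2
        ring
      rw [key _ (by linarith), key _ (by linarith)]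
      refine sq_core (nice_lvl _ _ _) ((nice_lvl _ _ _).step hm' _) ?_ hm (frac_lt hi hiK)
        (by linarith) (by linarith) (by linarith)
      have eY : Y = step (((i + 1 : ℕ) : ℝ) / K) (b (i + 2) - b (i + 1) - ε)
          (lvl K b (i + 2)) := by
        rw [hY, lvl_eq _ hk, update_self, update_of_ne (show i + 1 + 1 ≠ i + 1 by omega),
          lvl_congr (b := update b (i + 1) (b (i + 1) + ε)) (b' := b) (l := i + 1 + 1) (by omega)
            fun j hj _ => by rw [update_of_ne (by omega), update_of_ne (by omega)]]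
        congr 1; ring
      have eX : X = two ((i : ℝ) / K) (((i + 1 : ℕ) : ℝ) / K) (b (i + 2) - b (i + 1))
          (lvl K b (i + 2)) 0 := by
        rw [hX, lvl_eq b hk, two, step_zero_right, sub_zero]
      show Flat (step ((i : ℝ) / K) ε Y) X
      rw [eX, eY]
      have hhk : b (i + 1) + ε ≤ b (i + 2) := hk2
      exact flat_two (nice_lvl _ _ _) hm' (by simpa using frac_lt (i := i + 1) (by omega) hk)
        le_rfl hε (by linarith)
  have down : ∀ l, l ≤ i - 1 →
      Sq (lvl K b l) (lvl K B l) (lvl K bk' l) (lvl K E l) := fun l hl => by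
    induction hl using Nat.decreasingInduction with
    | self => exact base
    | of_succ j hj ih =>
      have e : ∀ b' : ℕ → ℝ, b' j = b j → b' (j + 1) = b (j + 1) →
          lvl K b' j = step ((j : ℝ) / K) (b (j + 1) - b j) (lvl K b' (j + 1)) :=
        fun b' h0 h1 => by rw [lvl_eq b' (by omega), h0, h1]
      rw [e b rfl rfl, e B (update_of_ne (by omega) ..) (update_of_ne (by omega) ..),
        e bk' (update_of_ne (by omega) ..) (update_of_ne (by omega) ..),
        e E (by rw [hE, update_of_ne (by omega), hbk, update_of_ne (by omega)])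
          (by rw [hE, update_of_ne (by omega), hbk, update_of_ne (by omega)])]
      exact ih.step (nice_lvl _ _ _) (nice_lvl _ _ _) (nice_lvl _ _ _) (nice_lvl _ _ _)
        (by positivity) _
  exact down 0 (Nat.zero_le _)

theorem bk_succ {K : ℕ} (L : ℝ) (p : Fin K → ℝ) (r : Fin K) : bk L p (r + 1) = p r := by
  simp [bk]

theorem bk_last {K : ℕ} (L : ℝ) (p : Fin K → ℝ) : bk L p (K + 1) = L := by simp [bk]

theorem bk_update {K : ℕ} (L : ℝ) (p : Fin K → ℝ) (r : Fin K) (v : ℝ) :
    bk L (update p r v) = update (bk L p) (r + 1) v := by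
  funext i
  rcases eq_or_ne i (r + 1 : ℕ) with rfl | h
  · simp [bk]
  · rw [update_of_ne h]
    unfold bk
    split
    · rfl
    · split
      · rw [update_of_ne]; intro e; exact h (by have := congrArg Fin.val e; simp at this; omega)
      · rfl

theorem bk_mono {K : ℕ} {L : ℝ} {p : Fin K → ℝ} (hp : p ∈ Path K) (hL0 : 0 ≤ L)
    (hL : ∀ r, p r ≤ L) : ∀ j ≤ K, bk L p j ≤ bk L p (j + 1) := by
  intro j hj
  rcases j with _ | j
  · by_cases h : 0 < K
    · simp [bk, h, hp.2]
    · simp [bk, h, hL0]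
  · rw [show j + 1 = (⟨j, hj⟩ : Fin K).val + 1 from rfl, bk_succ]
    rcases Nat.lt_or_ge (j + 1) K with h | h
    · rw [show j + 1 + 1 = (⟨j + 1, h⟩ : Fin K).val + 1 from rfl, bk_succ]
      exact hp.1 (Fin.mk_le_mk.2 (Nat.le_succ j))
    · have e : j + 1 = K := le_antisymm hj h
      simp only [e, bk_last]
      exact hL _

theorem top_eq {K : ℕ} (hK : 0 < K) (p : Fin K → ℝ) : top p = p ⟨K - 1, by omega⟩ := by
  simp [top, bk, hK.ne', show K - 1 < K by omega]

/-- The spin functional computed with any final time. -/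
theorem psi_eq {K : ℕ} (hK : 0 < K) (p : Fin K → ℝ) {L : ℝ}
    (hL : ∀ r, p r ≤ L) : psi p = lvl K (bk L p) 0 0 - L / 2 := by
  have hKK : ∀ L, bk L p K = top p := fun L => by
    simp [top, bk, hK.ne', show K - 1 < K by omega]
  have hK1 : ((K : ℝ) / K) = 1 := div_self (by exact_mod_cast hK.ne')
  have key : ∀ l, l ≤ K → lvl K (bk L p) l = fun x => lvl K (bk (top p) p) l x + (L - top p) / 2 := by
    intro l hl
    induction hl using Nat.decreasingInduction with
    | self =>
      have hT : top p ≤ L := (top_eq hK p).trans_le (hL _)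
      rw [lvl_eq _ le_rfl, lvl_eq _ le_rfl, lvl_top, lvl_top, hK1, bk_last, bk_last, hKK, hKK,
        step_one_lcosh (sub_nonneg.2 hT), sub_self, step_zero_right]
    | of_succ j hj ih =>
      have e : ∀ i ≤ K, bk L p i = bk (top p) p i := fun i hi => by
        unfold bk
        split
        · rfl
        · rw [dif_pos (by omega), dif_pos (by omega)]
      rw [lvl_eq _ (by omega), ih, step_add_const (nice_lvl _ _ _), e _ (by omega), e _ (by omega),
        ← lvl_eq _ (by omega)]
  rw [key 0 (Nat.zero_le _), psi, Phi, lvl_zero]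
  ring

theorem exists_bound {K : ℕ} (p q : Fin K → ℝ) :
    ∃ L, 0 ≤ L ∧ (∀ r, p r ≤ L) ∧ ∀ r, q r ≤ L :=
  ⟨∑ r, (|p r| + |q r|), by positivity,
    fun r => (le_abs_self _).trans (le_trans (le_add_of_nonneg_right (abs_nonneg _))
      (Finset.single_le_sum (f := fun r => |p r| + |q r|) (fun i _ => by positivity)
        (Finset.mem_univ r))),
    fun r => (le_abs_self _).trans (le_trans (le_add_of_nonneg_left (abs_nonneg _))
      (Finset.single_le_sum (f := fun r => |p r| + |q r|) (fun i _ => by positivity)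
        (Finset.mem_univ r)))⟩

/-- Supermodularity of `psi` in two entries. -/
theorem psi_square {K : ℕ} {p : Fin K → ℝ} {r s : Fin K} (hrs : r ≠ s) {δ ε : ℝ} (hδ : 0 ≤ δ)
    (hε : 0 ≤ ε) (hp : p ∈ Path K) (hr : update p r (p r + δ) ∈ Path K)
    (hs : update p s (p s + ε) ∈ Path K) :
    psi (update p r (p r + δ)) + psi (update p s (p s + ε)) ≤
      psi (update (update p s (p s + ε)) r (p r + δ)) + psi p := by
  wlog hlt : r < s generalizing r s δ ε
  · have := this (Ne.symm hrs) hε hδ hs hr (lt_of_le_of_ne (not_lt.1 hlt) hrs.symm)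
    rw [update_comm hrs] at this
    linarith
  obtain ⟨L, hL0, hLp, hLq⟩ := exists_bound (update p r (p r + δ)) (update p s (p s + ε))
  have hK : 0 < K := r.pos
  have hLp0 : ∀ i, p i ≤ L := fun i => by
    refine le_trans ?_ (hLp i)
    rcases eq_or_ne i r with rfl | h <;> simp [*]
  have hLb : ∀ i, update (update p s (p s + ε)) r (p r + δ) i ≤ L := fun i => by
    rcases eq_or_ne i r with rfl | h
    · simpa using hLp i
    · simpa [h] using hLq i
  rw [psi_eq hK _ hLp, psi_eq hK _ hLq, psi_eq hK p hLp0, psi_eq hK _ hLb,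
    bk_update, bk_update, bk_update, bk_update, ← bk_succ L p r, ← bk_succ L p s]
  have e : ∀ {q : Fin K → ℝ}, q ∈ Path K → (∀ i, q i ≤ L) → ∀ i : Fin K,
      q i ≤ bk L q (i + 1 + 1) := fun {q} hq hqL i =>
    (bk_succ L q i).symm.trans_le (bk_mono hq hL0 hqL (i + 1) (by omega))
  have hi2 := e hr hLp r
  have hk2 := e hs hLq s
  rw [bk_update, update_self, update_of_ne (by omega), ← bk_succ L p r] at hi2
  rw [bk_update, update_self, update_of_ne (by omega), ← bk_succ L p s] at hk2
  linarith [phi_square (b := bk L p) (K := K) (i := r + 1) (k := s + 1) (by omega) (by omega)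
    (by omega) hδ hε (bk_mono hp hL0 hLp0) hi2 hk2]

/-- Increments of `psi` decrease under a common shift. -/
theorem psi_diag {K : ℕ} {p : Fin K → ℝ} {r : Fin K} {δ c : ℝ} (hδ : 0 ≤ δ) (hc : 0 ≤ c)
    (hp : p ∈ Path K) (hr : update p r (p r + δ) ∈ Path K) :
    psi (fun i => update p r (p r + δ) i + c) - psi (fun i => p i + c) ≤
      psi (update p r (p r + δ)) - psi p := by
  obtain ⟨L, hL0, hLp, hLq⟩ := exists_bound p (update p r (p r + δ))
  have hK : 0 < K := r.pos
  have hshift : ∀ {q : Fin K → ℝ}, q ∈ Path K → (∀ i, q i ≤ L) →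
      lvl K (bk (L + c) fun i => q i + c) 0 0 = heat (lvl K (bk L q) 0) c 0 := fun {q} hq hqL => by
    have e : ∀ i, 1 ≤ i → i ≤ K + 1 → bk (L + c) (fun i => q i + c) i = bk L q i + c :=
      fun i h1 h2 => by
        unfold bk
        rw [if_neg (by omega), if_neg (by omega)]
        split <;> rfl
    rw [← step_zero_left, lvl_eq (bk L q) (Nat.zero_le _), lvl_eq _ (Nat.zero_le _),
      Nat.cast_zero, zero_div, step_step (nice_lvl _ _ _) hc
        (by linarith [bk_mono hq hL0 hqL 0 (Nat.zero_le _)]),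
      e 1 le_rfl (by omega), lvl_congr (b := bk (L + c) fun i => q i + c) (b' := bk L q)
        (l := 0 + 1) (by omega) fun j hj hj' => by rw [e _ (by omega) (by omega), e _ hj (by omega)]; ring]
    have e0 : ∀ (M : ℝ) (v : Fin K → ℝ), bk M v 0 = 0 := fun _ _ => by simp [bk]
    simp only [e0, zero_add]
    congr 1
    ring
  have hk2 := (bk_succ L (update p r (p r + δ)) r).symm.trans_le
    (bk_mono hr hL0 hLq (r + 1) (by omega))
  rw [update_self, bk_update, update_of_ne (by omega), ← bk_succ L p r] at hk2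
  have hflat : Flat (lvl K (bk L (update p r (p r + δ))) 0) (lvl K (bk L p) 0) := by
    rw [bk_update, ← bk_succ L p r]
    exact flat_update (by omega) (by omega) hδ (by simpa using bk_mono hp hL0 hLp r (by omega))
      hk2 (Nat.zero_le _)
  rw [psi_eq hK p hLp, psi_eq hK _ hLq,
    psi_eq hK (fun i => p i + c) (L := L + c) (fun i => by linarith [hLp i]),
    psi_eq hK (fun i => update p r (p r + δ) i + c) (L := L + c) (fun i => by linarith [hLq i]),
    hshift hp hLp, hshift hr hLq]
  have hX := nice_lvl K (bk L p) 0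
  have hY := nice_lvl K (bk L (update p r (p r + δ))) 0
  have := heat_mono (hY.eb.sub hX.eb)
    (EB.const (lvl K (bk L (update p r (p r + δ))) 0 0 - lvl K (bk L p) 0 0)) (fun y => by
      rw [mono_abs (F := fun y => lvl K (bk L (update p r (p r + δ))) 0 y - lvl K (bk L p) 0 y)
        (fun y => by simp only [hX.even, hY.even]) y]
      exact hflat self_mem_Ici (abs_nonneg y) (abs_nonneg y)) c 0
  rw [heat_const, ← step_zero_sub hX hY] at this
  simp only [step_zero_left] at this
  linarith

end Vale.Agent.P157.Formula
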